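import Crest.Agent.N222.J.Nd

/-!
# Row 222, toolbox J (helper41): charts, viscosity lemmas, comparison
-/

set_option autoImplicit false

open Set Filter Topology Metric
open scoped ContDiff
open Crest.GeometryTopology.CoordMetric
open Crest.Agent.R247.Bo84

noncomputable section

namespace Crest.Agent.N222.J

variable {n : ℕ} {X : Type} [TopologicalSpace X] {A : Atl n X} {Ω U : Set X} {p q : X}

namespace Atl

theorem isOpen_tg (A : Atl n X) (hΩ : IsOpen Ω) (p : X) : IsOpen (A.tg p Ω) :=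
  (A.ch p).isOpen_inter_preimage_symm hΩ

theorem mem_tg (hq : q ∈ (A.ch p).source) (hΩ : q ∈ Ω) : A.ch p q ∈ A.tg p Ω :=
  ⟨(A.ch p).map_source hq, by rw [mem_preimage, (A.ch p).left_inv hq]; exact hΩ⟩

theorem mem_tg_self (A : Atl n X) (hΩ : p ∈ Ω) : A.ch p p ∈ A.tg p Ω := mem_tg (A.mem p) hΩ

theorem tg_mono (A : Atl n X) (h : U ⊆ Ω) (p : X) : A.tg p U ⊆ A.tg p Ω :=
  fun _ hy => ⟨hy.1, h hy.2⟩

theorem tg_univ (A : Atl n X) (p : X) : A.tg p univ = (A.ch p).target := inter_univ _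

theorem ch_apply {F : Type} (f : X → F) (hq : q ∈ (A.ch p).source) :
    (f ∘ (A.ch p).symm) (A.ch p q) = f q := by rw [Function.comp, (A.ch p).left_inv hq]

theorem continuousOn_ch (A : Atl n X) {F : Type} [TopologicalSpace F] {f : X → F}
    (hf : ContinuousOn f Ω) (p : X) : ContinuousOn (f ∘ (A.ch p).symm) (A.tg p Ω) :=
  hf.comp ((A.ch p).continuousOn_symm.mono inter_subset_left) fun _ hy => hy.2

theorem isLocalMax_ch {f : X → ℝ} (hq : q ∈ (A.ch p).source) (h : IsLocalMax f q) :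
    IsLocalMax (f ∘ (A.ch p).symm) (A.ch p q) := by
  have h2 : ∀ᶠ y in 𝓝 (A.ch p q), f ((A.ch p).symm y) ≤ f q :=
    ((A.ch p).tendsto_symm hq).eventually h
  filter_upwards [h2] with y hy
  rw [ch_apply f hq]; exact hy

theorem isLocalMax_of_ch {f : X → ℝ} (hq : q ∈ (A.ch p).source)
    (h : IsLocalMax (f ∘ (A.ch p).symm) (A.ch p q)) : IsLocalMax f q := by
  have h2 := ((A.ch p).continuousAt hq).tendsto.eventually h
  filter_upwards [h2, (A.ch p).open_source.mem_nhds hq] with y hy hs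
  rwa [ch_apply f hq, ch_apply f hs] at hy

section Sm

variable {F : Type} [NormedAddCommGroup F] [NormedSpace ℝ F] {f : X → F}

theorem SmOn.mono (hf : A.SmOn Ω f) (h : U ⊆ Ω) : A.SmOn U f :=
  fun p => (hf p).mono (A.tg_mono h p)

theorem SmOn.continuousOn (hf : A.SmOn Ω f) (hΩ : IsOpen Ω) : ContinuousOn f Ω := fun p hp => by
  have h1 : ContinuousAt (f ∘ (A.ch p).symm) (A.ch p p) :=
    (hf p).continuousOn.continuousAt ((A.isOpen_tg hΩ p).mem_nhds (A.mem_tg_self hp))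
  refine ((h1.comp ((A.ch p).continuousAt (A.mem p))).congr ?_).continuousWithinAt
  filter_upwards [(A.ch p).open_source.mem_nhds (A.mem p)] with q hq using ch_apply f hq

/-- a smooth function of the coordinates of one chart -/
theorem smOn_of_ch (A : Atl n X) {w : E n → F} {V : Set (E n)} (hw : ContDiffOn ℝ ∞ w V) (p : X) :
    A.SmOn ((A.ch p).source ∩ A.ch p ⁻¹' V) fun q => w (A.ch p q) := fun q =>
  hw.comp ((A.sm q p).mono fun _ hy => ⟨hy.1, hy.2.1⟩) fun _ hy => hy.2.2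

theorem SmOn.congr {g : X → F} (hf : A.SmOn Ω f) (h : ∀ p ∈ Ω, g p = f p) : A.SmOn Ω g :=
  fun p => (hf p).congr fun _ hy => h _ hy.2

/-- smoothness is local -/
theorem smOn_of_local (h : ∀ p ∈ Ω, ∃ U, IsOpen U ∧ p ∈ U ∧ A.SmOn U f) : A.SmOn Ω f := by
  intro p y hy
  obtain ⟨U, hU, hyU, hf⟩ := h _ hy.2
  exact ((hf p).contDiffAt ((A.isOpen_tg hU p).mem_nhds ⟨hy.1, hyU⟩)).contDiffWithinAt

end Sm

theorem smN_of_ch {w : E n → ℝ} {V : Set (E n)} (hV : IsOpen V) (hw : ContDiffOn ℝ ∞ w V)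
    (hq : q ∈ (A.ch p).source) (hqV : A.ch p q ∈ V) : A.SmN (fun q => w (A.ch p q)) q :=
  ⟨_, (A.ch p).isOpen_inter_preimage hV, ⟨hq, hqV⟩, A.smOn_of_ch hw p⟩

theorem SmOn.smN {f : X → ℝ} (hf : A.SmOn Ω f) (hΩ : IsOpen Ω) (hp : p ∈ Ω) : A.SmN f p :=
  ⟨Ω, hΩ, hp, hf⟩

theorem smN_const (A : Atl n X) (s : ℝ) (p : X) : A.SmN (fun _ => s) p :=
  ⟨univ, isOpen_univ, mem_univ _, fun _ => contDiffOn_const⟩

end Atl

variable {J : JOp n X}

theorem riem_mono {g : MetricField n} {V V' : Set (E n)} (h : IsRiemannianOn g V)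
    (hV : IsOpen V') (hs : V' ⊆ V) : IsRiemannianOn g V' :=
  ⟨hV, fun i j => (h.contDiffOn i j).mono hs, fun x hx => h.posDef x (hs hx)⟩

theorem mtouch (hΩ : IsOpen Ω) (hJ : J.On A Ω) (hp : p ∈ Ω) {u φ : X → ℝ} (hu : A.SmN u p)
    (hφ : A.SmN φ p) (h : IsLocalMax (fun q => u q - φ q) p) :
    J.W u p = J.W φ p ∧ J.Q u p ≤ J.Q φ p := by
  obtain ⟨e1, e2⟩ := hJ.chart p p hp (A.mem p) u hu
  obtain ⟨e3, e4⟩ := hJ.chart p p hp (A.mem p) φ hφ
  obtain ⟨U, hU, hpU, hu⟩ := hu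
  obtain ⟨V, hV, hpV, hφ⟩ := hφ
  rw [e1, e2, e3, e4]
  exact touch n _ _ _ _ (A.tg p (Ω ∩ (U ∩ V)))
    (riem_mono (hJ.riem p) (A.isOpen_tg (hΩ.inter (hU.inter hV)) p) (A.tg_mono inter_subset_left p))
    (hu.mono (fun _ h => h.2.1) p) (hφ.mono (fun _ h => h.2.2) p) _
    (A.mem_tg_self ⟨hp, hpU, hpV⟩) (Atl.isLocalMax_ch (A.mem p) h)

theorem JOp.On.one_le (hJ : J.On A Ω) (hp : p ∈ Ω) {u : X → ℝ} (hu : A.SmN u p) : 1 ≤ J.W u p := by
  rw [(hJ.chart p p hp (A.mem p) u hu).2]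
  exact one_le_cW (hJ.riem p) (A.mem_tg_self hp) _

theorem JOp.On.inv_mem (hJ : J.On A Ω) (hp : p ∈ Ω) {u : X → ℝ} (hu : A.SmN u p) :
    (J.W u p)⁻¹ ∈ Icc (0 : ℝ) 1 :=
  ⟨(inv_pos.2 (one_pos.trans_le (hJ.one_le hp hu))).le, inv_le_one_of_one_le₀ (hJ.one_le hp hu)⟩

theorem JOp.On.const (hJ : J.On A Ω) (hp : p ∈ Ω) (s : ℝ) :
    J.Q (fun _ => s) p = 0 ∧ J.W (fun _ => s) p = 1 := by
  obtain ⟨e1, e2⟩ := hJ.chart p p hp (A.mem p) _ (A.smN_const s p)
  exact ⟨e1.trans (cQ_const _ _ s _), e2.trans (cW_const _ s _)⟩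

theorem JOp.On.mono (hJ : J.On A Ω) (hU : IsOpen U) (h : U ⊆ Ω) : J.On A U :=
  ⟨fun p => riem_mono (hJ.riem p) (A.isOpen_tg hU p) (A.tg_mono h p),
    fun p => (hJ.βs p).mono (A.tg_mono h p), fun p q hq => hJ.chart p q (h hq)⟩

section Visc

variable {P : Type} {Φ : P × ℝ × ℝ → ℝ} {c : X → P} {w w' : X → ℝ}

theorem vsub_of_sm (hΩ : IsOpen Ω) (hJ : J.On A Ω) (hp : p ∈ Ω) (hw : A.SmN w p)
    (h : Φ (c p, w p, (J.W w p)⁻¹) ≤ J.Q w p) : VSub A J Φ c w p := fun φ hφ hm => by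
  obtain ⟨e1, e2⟩ := mtouch hΩ hJ hp hw hφ hm
  rw [← e1]; exact h.trans e2

theorem vsup_of_sm (hΩ : IsOpen Ω) (hJ : J.On A Ω) (hp : p ∈ Ω) (hw : A.SmN w p)
    (h : J.Q w p ≤ Φ (c p, w p, (J.W w p)⁻¹)) : VSup A J Φ c w p := fun φ hφ hm => by
  obtain ⟨e1, e2⟩ := mtouch hΩ hJ hp hφ hw (hm.neg.congr (Eventually.of_forall fun q => by ring))
  rw [e1]; exact e2.trans h

/-- if `w p = w' p` and `w ≤ w'` near `p`, then `w'` inherits the subsolution property -/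
theorem VSub.of_le (h : VSub A J Φ c w p) (e : w p = w' p) (hle : ∀ᶠ q in 𝓝 p, w q ≤ w' q) :
    VSub A J Φ c w' p := fun φ hφ hm => by
  rw [← e]
  refine h φ hφ ?_
  filter_upwards [hm, hle] with q h1 h2
  linarith

theorem VSup.of_le (h : VSup A J Φ c w p) (e : w p = w' p) (hle : ∀ᶠ q in 𝓝 p, w' q ≤ w q) :
    VSup A J Φ c w' p := fun φ hφ hm => by
  rw [← e]
  refine h φ hφ ?_
  filter_upwards [hm, hle] with q h1 h2
  linarith

theorem VSub.max (h : VSub A J Φ c w p) (h' : VSub A J Φ c w' p) :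
    VSub A J Φ c (fun q => max (w q) (w' q)) p := by
  rcases le_total (w p) (w' p) with hh | hh
  · exact h'.of_le (max_eq_right hh).symm (Eventually.of_forall fun _ => le_max_right _ _)
  · exact h.of_le (max_eq_left hh).symm (Eventually.of_forall fun _ => le_max_left _ _)

theorem VSup.min (h : VSup A J Φ c w p) (h' : VSup A J Φ c w' p) :
    VSup A J Φ c (fun q => min (w q) (w' q)) p := by
  rcases le_total (w p) (w' p) with hh | hh
  · exact h.of_le (min_eq_left hh).symm (Eventually.of_forall fun _ => min_le_left _ _)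
  · exact h'.of_le (min_eq_right hh).symm (Eventually.of_forall fun _ => min_le_right _ _)

end Visc

section Good

variable {P : Type} [NormedAddCommGroup P] [NormedSpace ℝ P] {Φ : P × ℝ × ℝ → ℝ} {I : Set ℝ}
  {C : Set P}

theorem Good.isOpen' (h : Good Φ I C) : IsOpen ((univ : Set P) ×ˢ I ×ˢ (univ : Set ℝ)) :=
  isOpen_univ.prod (h.isOpen.prod isOpen_univ)

theorem Good.at (h : Good Φ I C) (c : P) {t : ℝ} (ht : t ∈ I) (v : ℝ) :
    ContDiffAt ℝ ∞ Φ (c, t, v) :=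
  h.sm.contDiffAt (h.isOpen'.mem_nhds ⟨mem_univ _, ht, mem_univ _⟩)

theorem Good.mono (h : Good Φ I C) {C' : Set P} (hC : C' ⊆ C) : Good Φ I C' :=
  ⟨h.isOpen, h.ord, h.sm, fun c hc => h.pos c (hC hc)⟩

theorem Good.strictMonoOn (h : Good Φ I C) {c : P} (hc : c ∈ C) {v : ℝ} (hv : v ∈ Icc (0 : ℝ) 1) :
    StrictMonoOn (fun s => Φ (c, s, v)) I := by
  refine strictMonoOn_of_deriv_pos h.ord.convex (fun t ht => ?_) fun t ht => ?_
  · exact ((h.at c ht v).continuousAt.comp' (f := fun s : ℝ => (c, s, v))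
      (by fun_prop)).continuousWithinAt
  · exact h.pos c hc t (interior_subset ht) v hv

end Good

/-- a function that is small off compact sets and positive somewhere has a positive maximum -/
theorem exists_pos_max (hΩ : IsOpen Ω) {f : X → ℝ} (hf : ContinuousOn f Ω)
    (h : ∀ ε > 0, ∃ K ⊆ Ω, IsCompact K ∧ ∀ p ∈ Ω \ K, f p ≤ ε) (hp : p ∈ Ω) (h0 : 0 < f p) :
    ∃ q ∈ Ω, 0 < f q ∧ IsLocalMax f q := by
  obtain ⟨K, hK, hc, H⟩ := h (f p / 2) (by linarith)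
  have hpK : p ∈ K := by
    by_contra hh
    linarith [H p ⟨hp, hh⟩]
  obtain ⟨q, hq, hm⟩ := hc.exists_isMaxOn ⟨p, hpK⟩ (hf.mono hK)
  have h1 : f p ≤ f q := hm hpK
  refine ⟨q, hK hq, by linarith, ?_⟩
  filter_upwards [hΩ.mem_nhds (hK hq)] with y hy
  by_cases hyK : y ∈ K
  · exact hm hyK
  · linarith [H y ⟨hy, hyK⟩]

theorem comp : CompStmt := by
  intro n X _ A P _ _ J Φ I c Ω w u hΩ hJ hΦ hw hu hI
  have hs : ∀ q ∈ Ω, A.SmN u q := fun q hq => hu.smN hΩ hq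
  constructor
  · intro h1 h2 h3 p hp
    by_contra hh
    obtain ⟨q, hq, h0, hm⟩ := exists_pos_max (f := fun q => w q - u q) hΩ
      (hw.sub (hu.continuousOn hΩ))
      (fun ε hε => (h3 ε hε).imp fun K hK => ⟨hK.1, hK.2.1, fun p hp => by
        linarith [hK.2.2 p hp]⟩) hp (by linarith [not_le.1 hh])
    have := hΦ.strictMonoOn (mem_image_of_mem c hq) (hJ.inv_mem hq (hs q hq)) (hI q hq).2
      (hI q hq).1 (by linarith)
    linarith [h1 q hq u (hs q hq) hm, h2 q hq]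
  · intro h1 h2 h3 p hp
    by_contra hh
    obtain ⟨q, hq, h0, hm⟩ := exists_pos_max (f := fun q => u q - w q) hΩ
      ((hu.continuousOn hΩ).sub hw)
      (fun ε hε => (h3 ε hε).imp fun K hK => ⟨hK.1, hK.2.1, fun p hp => by
        linarith [hK.2.2 p hp]⟩) hp (by linarith [not_le.1 hh])
    have := hΦ.strictMonoOn (mem_image_of_mem c hq) (hJ.inv_mem hq (hs q hq)) (hI q hq).1
      (hI q hq).2 (by linarith)
    linarith [h1 q hq u (hs q hq) (hm.neg.congr (Eventually.of_forall fun q => by ring)), h2 q hq]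

end Crest.Agent.N222.J
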