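import Crest.Agent.N222.J.LK
import Crest.Agent.N222.J.Visc

/-!
# Row 222, toolbox J (helper29): calculus of the class `CJ` (jets continuous in a parameter)
-/

set_option autoImplicit false

open Set Filter Topology Metric
open scoped ContDiff
open Crest.GeometryTopology.CoordMetric
open Crest.Agent.R247.Bo84
open Crest.Agent.R238 (Ell)

noncomputable section

namespace Crest.Agent.N222.J

variable {n : ℕ} {Λ F G : Type} [TopologicalSpace Λ] [NormedAddCommGroup F] [NormedSpace ℝ F]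
  [NormedAddCommGroup G] [NormedSpace ℝ G] {U : Set (E n)} {f g : Λ → E n → F}
  {u v : Λ → E n → ℝ}

/-- order zero of the definition -/
theorem jet_zero {f : Λ → E n → F} (h : ContinuousOn (fun z : Λ × E n => f z.1 z.2) (univ ×ˢ U)) :
    ContinuousOn (fun z : Λ × E n => iteratedFDeriv ℝ 0 (f z.1) z.2) (univ ×ˢ U) :=
  (continuousMultilinearCurryFin0 ℝ (E n) F).symm.continuous.comp_continuousOn h

/-- order `k + 1` from order `k` of a map that agrees with the derivative -/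
theorem jet_succ (hU : IsOpen U) {k : ℕ} {D : Λ → E n → E n →L[ℝ] F}
    (e : ∀ l, ∀ x ∈ U, fderiv ℝ (f l) x = D l x)
    (h : ContinuousOn (fun z : Λ × E n => iteratedFDeriv ℝ k (D z.1) z.2) (univ ×ˢ U)) :
    ContinuousOn (fun z : Λ × E n => iteratedFDeriv ℝ (k + 1) (f z.1) z.2) (univ ×ˢ U) := by
  refine ((continuousMultilinearCurryRightEquiv' ℝ k (E n) F).symm.continuous.comp_continuousOn
    h).congr fun z hz => ?_
  have : (fun y => fderiv ℝ (f z.1) y) =ᶠ[𝓝 z.2] D z.1 := by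
    filter_upwards [hU.mem_nhds hz.2] with y hy using e _ y hy
  simp only [Function.comp, iteratedFDeriv_succ_eq_comp_right]
  rw [(this.iteratedFDeriv ℝ k).eq_of_nhds]

namespace CJ

theorem sm (h : CJ U f) (l : Λ) : ContDiffOn ℝ ∞ (f l) U := h.1 l

theorem smAt (hU : IsOpen U) (h : CJ U f) (l : Λ) {x : E n} (hx : x ∈ U) :
    ContDiffAt ℝ ∞ (f l) x := (h.1 l).contDiffAt (hU.mem_nhds hx)

theorem hasFDerivAt (hU : IsOpen U) (h : CJ U f) (l : Λ) {x : E n} (hx : x ∈ U) :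
    HasFDerivAt (f l) (fderiv ℝ (f l) x) x :=
  ((h.smAt hU l hx).differentiableAt (by simp)).hasFDerivAt

theorem continuousOn (h : CJ U f) : ContinuousOn (fun z : Λ × E n => f z.1 z.2) (univ ×ˢ U) :=
  ((continuousMultilinearCurryFin0 ℝ (E n) F).continuous.comp_continuousOn (h.2 0)).congr
    fun z _ => by simp

theorem continuousAt (hU : IsOpen U) (h : CJ U f) (l : Λ) {x : E n} (hx : x ∈ U) :
    ContinuousAt (fun z : Λ × E n => f z.1 z.2) (l, x) :=
  h.continuousOn.continuousAt ((isOpen_univ.prod hU).mem_nhds ⟨mem_univ _, hx⟩)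

theorem jetAt (hU : IsOpen U) (h : CJ U f) (k : ℕ) (l : Λ) {x : E n} (hx : x ∈ U) :
    ContinuousAt (fun z : Λ × E n => iteratedFDeriv ℝ k (f z.1) z.2) (l, x) :=
  (h.2 k).continuousAt ((isOpen_univ.prod hU).mem_nhds ⟨mem_univ _, hx⟩)

theorem congr (hU : IsOpen U) (h : CJ U f) (e : ∀ l, ∀ x ∈ U, g l x = f l x) : CJ U g := by
  refine ⟨fun l => (h.1 l).congr (e l), fun k => (h.2 k).congr fun z hz => ?_⟩
  have : g z.1 =ᶠ[𝓝 z.2] f z.1 := by
    filter_upwards [hU.mem_nhds hz.2] with y hy using e _ y hy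
  exact (this.iteratedFDeriv ℝ k).eq_of_nhds

theorem mono (h : CJ U f) {V : Set (E n)} (hV : V ⊆ U) : CJ V f :=
  ⟨fun l => (h.1 l).mono hV, fun k => (h.2 k).mono (prod_mono subset_rfl hV)⟩

theorem reparam {Λ' : Type} [TopologicalSpace Λ'] (h : CJ U f) {e : Λ' → Λ} (he : Continuous e) :
    CJ U fun l => f (e l) :=
  ⟨fun l => h.1 _, fun k => (h.2 k).comp (f := fun z : Λ' × E n => (e z.1, z.2))
    (by fun_prop) fun _ hz => ⟨mem_univ _, hz.2⟩⟩

/-- the class is local in `x` -/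
theorem of_local (h : ∀ x ∈ U, ∃ V, IsOpen V ∧ x ∈ V ∧ CJ V f) : CJ U f := by
  refine ⟨fun l x hx => ?_, fun k z hz => ?_⟩
  · obtain ⟨V, hV, hx, h⟩ := h x hx
    exact (h.smAt hV l hx).contDiffWithinAt
  · obtain ⟨V, hV, hx, h⟩ := h z.2 hz.2
    exact (h.jetAt hV k z.1 hx).continuousWithinAt

/-- a continuous function of the parameter only -/
theorem consts {c : Λ → F} (hc : Continuous c) : CJ U fun l _ => c l := by
  refine ⟨fun _ => contDiffOn_const, fun k => ?_⟩
  rcases k with _ | k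
  · exact jet_zero (f := fun l _ => c l) (hc.comp continuous_fst).continuousOn
  · simp only [iteratedFDeriv_succ_const]
    exact continuousOn_const

theorem const (c : F) : CJ U fun (_ : Λ) _ => c := consts continuous_const

/-- a fixed smooth map -/
theorem fixed (hU : IsOpen U) {w : E n → F} (hw : ContDiffOn ℝ ∞ w U) : CJ U fun _ : Λ => w :=
  ⟨fun _ => hw, fun k z hz =>
    (((hw.contDiffAt (hU.mem_nhds hz.2)).continuousAt_iteratedFDeriv (k := k)
      (by exact_mod_cast le_top)).comp (f := fun z : Λ × E n => z.2)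
        continuousAt_snd).continuousWithinAt⟩

protected theorem id (hU : IsOpen U) : CJ U fun (_ : Λ) x => x := fixed hU contDiffOn_id

theorem fd (hU : IsOpen U) (h : CJ U f) : CJ U fun l => fderiv ℝ (f l) := by
  refine ⟨fun l => (h.1 l).fderiv_of_isOpen hU (by simp), fun k =>
    ((continuousMultilinearCurryRightEquiv' ℝ k (E n) F).continuous.comp_continuousOn
      (h.2 (k + 1))).congr fun z _ => ?_⟩
  simp only [Function.comp, iteratedFDeriv_succ_eq_comp_right, LinearIsometryEquiv.apply_symm_apply]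

theorem prodMk {w : Λ → E n → G} (hU : IsOpen U) (hf : CJ U f) (hw : CJ U w) :
    CJ U fun l x => (f l x, w l x) := by
  refine ⟨fun l => (hf.1 l).prodMk (hw.1 l), fun k =>
    ((ContinuousMultilinearMap.prodL ℝ (fun _ : Fin k => E n) F G).continuous.comp_continuousOn
      ((hf.2 k).prodMk (hw.2 k))).congr fun z hz => ?_⟩
  exact iteratedFDeriv_prodMk (hf.smAt hU _ hz.2) (hw.smAt hU _ hz.2) (by exact_mod_cast le_top)

/-- The chain rule, for all targets at once. -/
theorem master {m : ℕ} {V : Set (E m)} (hU : IsOpen U) (hV : IsOpen V) {ψ : Λ → E m → E n}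
    (hψ : CJ V ψ) (hm : ∀ l, ∀ x ∈ V, ψ l x ∈ U) (k : ℕ) :
    ∀ (H F G : Type) [NormedAddCommGroup H] [NormedSpace ℝ H] [NormedAddCommGroup F]
      [NormedSpace ℝ F] [NormedAddCommGroup G] [NormedSpace ℝ G] (h : Λ → E m → H)
      (f : Λ → E n → F) (Φ : H × F → G) (W : Set (H × F)), IsOpen W → ContDiffOn ℝ ∞ Φ W →
      CJ V h → CJ U f → (∀ l, ∀ x ∈ V, (h l x, f l (ψ l x)) ∈ W) →
      ContinuousOn (fun z : Λ × E m =>
        iteratedFDeriv ℝ k (fun x => Φ (h z.1 x, f z.1 (ψ z.1 x))) z.2) (univ ×ˢ V) := by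
  induction k with
  | zero =>
    intro H F G _ _ _ _ _ _ h f Φ W _ hΦ hh hf hW
    refine jet_zero (f := fun l x => Φ (h l x, f l (ψ l x))) (hΦ.continuousOn.comp
      (hh.continuousOn.prodMk (hf.continuousOn.comp (f := fun z : Λ × E m => (z.1, ψ z.1 z.2))
        (continuousOn_fst.prodMk hψ.continuousOn) fun z hz => ⟨mem_univ _, hm _ _ hz.2⟩))
      fun z hz => hW _ _ hz.2)
  | succ k ih =>
    intro H F G _ _ _ _ _ _ h f Φ W hWo hΦ hh hf hW
    have hs : ContDiff ℝ ∞ fun p : (H × (E m →L[ℝ] H) × (E m →L[ℝ] E n)) × F × (E n →L[ℝ] F) =>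
        (p.1.1, p.2.1) := by fun_prop
    have hL : ContDiff ℝ ∞ fun p : (H × (E m →L[ℝ] H) × (E m →L[ℝ] E n)) × F × (E n →L[ℝ] F) =>
        (ContinuousLinearMap.inl ℝ H F).comp p.1.2.1
          + (ContinuousLinearMap.inr ℝ H F).comp (p.2.2.comp p.1.2.2) :=
      (contDiff_const.clm_comp (by fun_prop)).add
        (contDiff_const.clm_comp (ContDiff.clm_comp (by fun_prop) (by fun_prop)))
    refine jet_succ (f := fun l x => Φ (h l x, f l (ψ l x)))
      (D := fun l x => (fderiv ℝ Φ (h l x, f l (ψ l x))).comp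
        ((ContinuousLinearMap.inl ℝ H F).comp (fderiv ℝ (h l) x) + (ContinuousLinearMap.inr ℝ H F).comp
          ((fderiv ℝ (f l) (ψ l x)).comp (fderiv ℝ (ψ l) x)))) hV (fun l x hx => ?_)
      (ih _ _ _ (fun l x => (h l x, fderiv ℝ (h l) x, fderiv ℝ (ψ l) x))
        (fun l x => (f l x, fderiv ℝ (f l) x))
        (fun p => (fderiv ℝ Φ (p.1.1, p.2.1)).comp ((ContinuousLinearMap.inl ℝ H F).comp p.1.2.1
          + (ContinuousLinearMap.inr ℝ H F).comp (p.2.2.comp p.1.2.2)))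
        _ (hWo.preimage hs.continuous)
        (((hΦ.fderiv_of_isOpen hWo (by simp)).comp hs.contDiffOn fun _ hp => hp).clm_comp
          hL.contDiffOn)
        (hh.prodMk hV ((hh.fd hV).prodMk hV (hψ.fd hV))) (hf.prodMk hU (hf.fd hU)) hW)
    have h1 := ((hΦ.contDiffAt (hWo.mem_nhds (hW l x hx))).differentiableAt (by simp)).hasFDerivAt
    have h2 := (hh.hasFDerivAt hV l hx).prodMk
      ((hf.hasFDerivAt hU l (hm l x hx)).comp x (hψ.hasFDerivAt hV l hx))
    refine (h1.comp x h2).fderiv.trans ?_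
    congr 1
    ext y <;> simp

theorem comp (hU : IsOpen U) {Φ : F → G} {W : Set F} (hW : IsOpen W) (hΦ : ContDiffOn ℝ ∞ Φ W)
    (hf : CJ U f) (hm : ∀ l, ∀ x ∈ U, f l x ∈ W) : CJ U fun l x => Φ (f l x) :=
  ⟨fun l => hΦ.comp (hf.1 l) (hm l), fun k =>
    master hU hU (CJ.id hU) (fun _ _ h => h) k F ℝ G f (fun _ _ => 0) (fun p => Φ p.1) (W ×ˢ univ)
      (hW.prod isOpen_univ) (hΦ.comp contDiffOn_fst fun _ h => h.1) hf (const 0)
      fun l x hx => ⟨hm l x hx, mem_univ _⟩⟩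

/-- composition of two families -/
theorem comp_right {m : ℕ} {V : Set (E m)} (hU : IsOpen U) (hV : IsOpen V) {ψ : Λ → E m → E n}
    (hf : CJ U f) (hψ : CJ V ψ) (hm : ∀ l, ∀ x ∈ V, ψ l x ∈ U) : CJ V fun l x => f l (ψ l x) :=
  ⟨fun l => (hf.1 l).comp (hψ.1 l) (hm l), fun k =>
    master hU hV hψ hm k ℝ F F (fun _ _ => 0) f (fun p => p.2) univ isOpen_univ contDiffOn_snd
      (const 0) hf fun _ _ _ => mem_univ _⟩

/-- change of chart -/
theorem chart {m : ℕ} {V : Set (E m)} (hU : IsOpen U) (hV : IsOpen V) {ψ : E m → E n}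
    (hf : CJ U f) (hψ : ContDiffOn ℝ ∞ ψ V) (hm : ∀ x ∈ V, ψ x ∈ U) :
    CJ V fun l x => f l (ψ x) :=
  hf.comp_right hU hV (fixed hV hψ) fun _ => hm

theorem comp_smooth (hU : IsOpen U) {Φ : F → G} (hΦ : ContDiff ℝ ∞ Φ) (hf : CJ U f) :
    CJ U fun l x => Φ (f l x) := hf.comp hU isOpen_univ hΦ.contDiffOn fun _ _ _ => mem_univ _

theorem comp_at (hU : IsOpen U) {Φ : F → G} (hf : CJ U f) {W : Set F} (hW : IsOpen W)
    (hΦ : ∀ y ∈ W, ContDiffAt ℝ ∞ Φ y) (hm : ∀ l, ∀ x ∈ U, f l x ∈ W) :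
    CJ U fun l x => Φ (f l x) := hf.comp hU hW (fun y hy => (hΦ y hy).contDiffWithinAt) hm

/-- a jointly smooth map on an open set, along a continuous curve of parameters -/
theorem of_smooth_open {Z : Type} [NormedAddCommGroup Z] [NormedSpace ℝ Z] (hU : IsOpen U)
    {Φ : Z × E n → F} {W : Set (Z × E n)} (hW : IsOpen W) (hΦ : ContDiffOn ℝ ∞ Φ W) {e : Λ → Z}
    (he : Continuous e) (hm : ∀ l, ∀ x ∈ U, (e l, x) ∈ W) : CJ U fun l x => Φ (e l, x) :=
  ((consts he).prodMk hU (CJ.id hU)).comp hU hW hΦ hm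

/-- a jointly smooth map on `V ×ˢ U`, `V` a set of unique differentiability (an open set, or a
compact interval), along a continuous map of parameters -/
theorem of_smooth' {Z : Type} [NormedAddCommGroup Z] [NormedSpace ℝ Z] (hU : IsOpen U) {V : Set Z}
    (hV : UniqueDiffOn ℝ V) {e : Λ → Z} (he : Continuous e) (hm : ∀ l, e l ∈ V)
    {Φ : Z × E n → F} (hΦ : ContDiffOn ℝ ∞ Φ (V ×ˢ U)) : CJ U fun l x => Φ (e l, x) := by
  have hs : ∀ l, ContDiff ℝ ∞ fun x : E n => (e l, x) := fun l => by fun_prop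
  refine ⟨fun l => hΦ.comp (hs l).contDiffOn fun x hx => ⟨hm l, hx⟩, fun k => ?_⟩
  induction k generalizing F with
  | zero =>
    exact jet_zero (f := fun l x => Φ (e l, x)) (hΦ.continuousOn.comp
      (f := fun z : Λ × E n => (e z.1, z.2)) (by fun_prop) fun z hz => ⟨hm _, hz.2⟩)
  | succ k ih =>
    refine jet_succ (f := fun l x => Φ (e l, x)) (D := fun l x =>
      (fderivWithin ℝ Φ (V ×ˢ U) (e l, x)).comp (ContinuousLinearMap.inr ℝ Z (E n))) hU
      (fun l x hx => ?_)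
      (ih (Φ := fun z => (fderivWithin ℝ Φ (V ×ˢ U) z).comp (ContinuousLinearMap.inr ℝ Z (E n)))
        ((hΦ.fderivWithin (hV.prod hU.uniqueDiffOn) (by simp)).clm_comp contDiffOn_const))
    have h1 := ((hΦ (e l, x) ⟨hm l, hx⟩).differentiableWithinAt (by simp)).hasFDerivWithinAt
    have h2 : HasFDerivWithinAt (fun y : E n => (e l, y)) (ContinuousLinearMap.inr ℝ Z (E n)) U x :=
      (hasFDerivAt_prodMk_right (e l) x).hasFDerivWithinAt
    exact ((h1.comp x h2 fun y hy => ⟨hm l, hy⟩).hasFDerivAt (hU.mem_nhds hx)).fderiv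

theorem of_smooth {Z : Type} [NormedAddCommGroup Z] [NormedSpace ℝ Z] (hU : IsOpen U) {V : Set Z}
    (hV : UniqueDiffOn ℝ V) {w : Z → E n → F}
    (hw : ContDiffOn ℝ ∞ (fun z : Z × E n => w z.1 z.2) (V ×ˢ U)) : CJ U fun l : V => w l :=
  of_smooth' hU hV continuous_subtype_val (fun l => l.2) hw

theorem clm (hU : IsOpen U) (T : F →L[ℝ] G) (hf : CJ U f) : CJ U fun l x => T (f l x) :=
  hf.comp_smooth hU T.contDiff

theorem fst (hU : IsOpen U) {w : Λ → E n → F × G} (h : CJ U w) : CJ U fun l x => (w l x).1 :=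
  h.comp_smooth hU contDiff_fst

theorem snd (hU : IsOpen U) {w : Λ → E n → F × G} (h : CJ U w) : CJ U fun l x => (w l x).2 :=
  h.comp_smooth hU contDiff_snd

theorem app (hU : IsOpen U) {A : Λ → E n → F →L[ℝ] G} (hA : CJ U A) (hf : CJ U f) :
    CJ U fun l x => A l x (f l x) :=
  (hA.prodMk hU hf).comp_smooth hU (Φ := fun p : (F →L[ℝ] G) × F => p.1 p.2)
    (contDiff_fst.clm_apply contDiff_snd)

theorem add (hU : IsOpen U) (hf : CJ U f) (hg : CJ U g) : CJ U fun l x => f l x + g l x :=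
  (hf.prodMk hU hg).comp_smooth hU (Φ := fun p : F × F => p.1 + p.2) (by fun_prop)

theorem sub (hU : IsOpen U) (hf : CJ U f) (hg : CJ U g) : CJ U fun l x => f l x - g l x :=
  (hf.prodMk hU hg).comp_smooth hU (Φ := fun p : F × F => p.1 - p.2) (by fun_prop)

theorem neg (hU : IsOpen U) (hf : CJ U f) : CJ U fun l x => -f l x :=
  hf.comp_smooth hU contDiff_neg

theorem smul (hU : IsOpen U) (hu : CJ U u) (hf : CJ U f) : CJ U fun l x => u l x • f l x :=
  (hu.prodMk hU hf).comp_smooth hU (Φ := fun p : ℝ × F => p.1 • p.2) (by fun_prop)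

theorem mul (hU : IsOpen U) (hu : CJ U u) (hv : CJ U v) : CJ U fun l x => u l x * v l x :=
  hu.smul hU hv

theorem const_mul (hU : IsOpen U) (c : ℝ) (hu : CJ U u) : CJ U fun l x => c * u l x :=
  (const c).mul hU hu

theorem pow (hU : IsOpen U) (hu : CJ U u) (m : ℕ) : CJ U fun l x => u l x ^ m :=
  hu.comp_smooth hU (contDiff_id.pow m)

theorem exp (hU : IsOpen U) (hu : CJ U u) : CJ U fun l x => Real.exp (u l x) :=
  hu.comp_smooth hU Real.contDiff_exp

theorem fsum {α : Type*} (hU : IsOpen U) (s : Finset α) {w : α → Λ → E n → F}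
    (h : ∀ j ∈ s, CJ U (w j)) : CJ U fun l x => ∑ j ∈ s, w j l x := by
  classical
  induction s using Finset.induction_on with
  | empty => exact (const (0 : F)).congr hU fun _ _ _ => Finset.sum_empty
  | insert j s hj ih =>
    exact ((h j (Finset.mem_insert_self _ _)).add hU
      (ih fun l hl => h l (Finset.mem_insert_of_mem hl))).congr hU
        fun _ _ _ => Finset.sum_insert hj

theorem sum {α : Type*} [Fintype α] (hU : IsOpen U) {w : α → Λ → E n → F} (h : ∀ j, CJ U (w j)) :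
    CJ U fun l x => ∑ j, w j l x := fsum hU _ fun j _ => h j

theorem fprod {α : Type*} (hU : IsOpen U) (s : Finset α) {w : α → Λ → E n → ℝ}
    (h : ∀ j ∈ s, CJ U (w j)) : CJ U fun l x => ∏ j ∈ s, w j l x := by
  classical
  induction s using Finset.induction_on with
  | empty => exact (const (1 : ℝ)).congr hU fun _ _ _ => Finset.prod_empty
  | insert j s hj ih =>
    exact ((h j (Finset.mem_insert_self _ _)).mul hU
      (ih fun l hl => h l (Finset.mem_insert_of_mem hl))).congr hU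
        fun _ _ _ => Finset.prod_insert hj

theorem apply {α : Type} [Fintype α] (hU : IsOpen U) {w : Λ → E n → α → F} (h : CJ U w) (j : α) :
    CJ U fun l x => w l x j := h.comp_smooth hU (contDiff_apply ℝ F j)

theorem pi {α : Type} [Fintype α] (hU : IsOpen U) {w : Λ → E n → α → F}
    (h : ∀ j, CJ U fun l x => w l x j) : CJ U w := by
  classical
  refine (sum hU fun j => (h j).clm hU (ContinuousLinearMap.single ℝ (fun _ : α => F) j)).congr hU
    fun l x _ => ?_
  simp [Finset.univ_sum_single]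

theorem coord {m : ℕ} (hU : IsOpen U) {w : Λ → E n → E m} (h : CJ U w) (j : Fin m) :
    CJ U fun l x => w l x j := h.clm hU (EuclideanSpace.proj j)

theorem toLp {m : ℕ} (hU : IsOpen U) {w : Λ → E n → Fin m → ℝ} (h : CJ U w) :
    CJ U fun l x => (WithLp.toLp 2 (w l x) : E m) :=
  h.clm hU (EuclideanSpace.equiv (Fin m) ℝ).symm.toContinuousLinearMap

theorem euclidean {m : ℕ} (hU : IsOpen U) {w : Λ → E n → E m} (h : ∀ j, CJ U fun l x => w l x j) :
    CJ U w := (pi hU (w := fun l x j => w l x j) h).toLp hU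

theorem pd (hU : IsOpen U) (h : CJ U u) (j : Fin n) : CJ U fun l => pderiv j (u l) :=
  (h.fd hU).app hU (const (EuclideanSpace.single j (1 : ℝ)))

protected theorem d1 (hU : IsOpen U) (h : CJ U u) : CJ U fun l => d1 (u l) :=
  pi hU fun j => h.pd hU j

protected theorem d2 (hU : IsOpen U) (h : CJ U u) : CJ U fun l => d2 (u l) :=
  pi hU fun i => pi hU fun j => (h.pd hU j).pd hU i

theorem inv (hU : IsOpen U) (hu : CJ U u) (h : ∀ l, ∀ x ∈ U, u l x ≠ 0) :
    CJ U fun l x => (u l x)⁻¹ :=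
  hu.comp_at hU isOpen_compl_singleton (fun _ hy => contDiffAt_inv ℝ hy) h

theorem div (hU : IsOpen U) (hu : CJ U u) (hv : CJ U v) (h : ∀ l, ∀ x ∈ U, v l x ≠ 0) :
    CJ U fun l x => u l x / v l x := hu.mul hU (hv.inv hU h)

theorem sqrt (hU : IsOpen U) (hu : CJ U u) (h : ∀ l, ∀ x ∈ U, u l x ≠ 0) :
    CJ U fun l x => √(u l x) :=
  hu.comp_at hU isOpen_compl_singleton (fun _ hy => Real.contDiffAt_sqrt hy) h

theorem log (hU : IsOpen U) (hu : CJ U u) (h : ∀ l, ∀ x ∈ U, u l x ≠ 0) :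
    CJ U fun l x => Real.log (u l x) :=
  hu.comp_at hU isOpen_compl_singleton (fun _ hy => Real.contDiffAt_log.2 hy) h

theorem rpow (hU : IsOpen U) (hu : CJ U u) (h : ∀ l, ∀ x ∈ U, u l x ≠ 0) (s : ℝ) :
    CJ U fun l x => u l x ^ s :=
  hu.comp_at hU isOpen_compl_singleton (fun _ hy => Real.contDiffAt_rpow_const_of_ne hy) h

section Mat

variable {m : ℕ} {A : Λ → E n → Matrix (Fin m) (Fin m) ℝ}

theorem det (hU : IsOpen U) (h : ∀ i j, CJ U fun l x => A l x i j) :
    CJ U fun l x => (A l x).det := by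
  refine (sum hU fun σ : Equiv.Perm (Fin m) =>
    (fprod hU Finset.univ fun j _ => h (σ j) j).const_mul hU
      ((Equiv.Perm.sign σ : ℤ) : ℝ)).congr hU fun i y _ => ?_
  rw [Matrix.det_apply']

theorem matInv (hU : IsOpen U) (h : ∀ i j, CJ U fun l x => A l x i j)
    (hd : ∀ l, ∀ x ∈ U, (A l x).det ≠ 0) (i j : Fin m) : CJ U fun l x => (A l x)⁻¹ i j := by
  have h1 : CJ U fun l y => ((A l y).updateRow j (Pi.single i 1)).det := by
    refine det hU fun p q => ?_
    by_cases hb : p = j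
    · subst hb
      exact (const ((Pi.single i 1 : Fin m → ℝ) q)).congr hU fun i y _ => by simp
    · exact (h p q).congr hU fun i y _ => by simp [Matrix.updateRow_ne hb]
  refine (((det hU h).inv hU hd).mul hU h1).congr hU fun i y _ => ?_
  rw [Matrix.inv_def, Matrix.smul_apply, Matrix.adjugate_apply, Ring.inverse_eq_inv', smul_eq_mul]

end Mat

section Geo

variable {γ : Λ → MetricField n} {β : Λ → E n → Fin n → ℝ}

theorem invG (hU : IsOpen U) (hγ : ∀ l, IsRiemannianOn (γ l) U)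
    (h : ∀ i j, CJ U fun l x => γ l x i j) (i j : Fin n) :
    CJ U fun l x => inverseField (γ l) x i j :=
  matInv hU h (fun l x hx => ((hγ l).posDef x hx).det_pos.ne') i j

theorem chris (hU : IsOpen U) (hγ : ∀ l, IsRiemannianOn (γ l) U)
    (h : ∀ i j, CJ U fun l x => γ l x i j) (p i j : Fin n) :
    CJ U fun l x => christoffel (γ l) x p i j :=
  (sum hU fun q => (invG hU hγ h p q).mul hU
    ((((h j q).pd hU i).add hU ((h i q).pd hU j)).sub hU ((h i j).pd hU q))).const_mul hU (1 / 2)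

theorem ric (hU : IsOpen U) (hγ : ∀ l, IsRiemannianOn (γ l) U)
    (h : ∀ i j, CJ U fun l x => γ l x i j) (i j : Fin n) : CJ U fun l x => ricci (γ l) x i j := by
  have H := chris hU hγ h
  exact (((sum hU fun p => (H p i j).pd hU p).sub hU ((sum hU fun p => H p p i).pd hU j)).add hU
    (sum hU fun p => sum hU fun q => (H p p q).mul hU (H q i j))).sub hU
    (sum hU fun p => sum hU fun q => (H p j q).mul hU (H q p i))

protected theorem gam (hU : IsOpen U) (hγ : ∀ l, IsRiemannianOn (γ l) U)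
    (h : ∀ i j, CJ U fun l x => γ l x i j) (hu : CJ U u) (hv : CJ U v) :
    CJ U fun l => gam (γ l) (u l) (v l) :=
  sum hU fun i => sum hU fun j => ((invG hU hγ h i j).mul hU (hu.pd hU i)).mul hU (hv.pd hU j)

protected theorem grad (hU : IsOpen U) (hγ : ∀ l, IsRiemannianOn (γ l) U)
    (h : ∀ i j, CJ U fun l x => γ l x i j) (hu : CJ U u) : CJ U fun l => grad (γ l) (u l) :=
  euclidean hU fun i => sum hU fun j => (invG hU hγ h i j).mul hU (hu.pd hU j)

theorem lap (hU : IsOpen U) (hγ : ∀ l, IsRiemannianOn (γ l) U)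
    (h : ∀ i j, CJ U fun l x => γ l x i j) (hu : CJ U u) :
    CJ U fun l => laplaceBeltrami (γ l) (u l) := by
  have h1 : CJ U fun l x => √(γ l x).det :=
    (det hU h).sqrt hU fun l x hx => ((hγ l).posDef x hx).det_pos.ne'
  exact ((const 1).div hU h1 fun l x hx =>
    (Real.sqrt_pos.2 ((hγ l).posDef x hx).det_pos).ne').mul hU
      (sum hU fun i => (h1.mul hU (sum hU fun j => (invG hU hγ h i j).mul hU (hu.pd hU j))).pd hU i)

protected theorem cW (hU : IsOpen U) (hγ : ∀ l, IsRiemannianOn (γ l) U)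
    (h : ∀ i j, CJ U fun l x => γ l x i j) (hu : CJ U u) : CJ U fun l => cW (γ l) (u l) :=
  ((const 1).add hU (CJ.gam hU hγ h hu hu)).sqrt hU fun l x hx => by
    rw [← cW_sq (hγ l) hx]; exact pow_ne_zero _ (cW_pos (hγ l) hx _).ne'

theorem cW_inv (hU : IsOpen U) (hγ : ∀ l, IsRiemannianOn (γ l) U)
    (h : ∀ i j, CJ U fun l x => γ l x i j) (hu : CJ U u) :
    CJ U fun l x => (cW (γ l) (u l) x)⁻¹ :=
  (CJ.cW hU hγ h hu).inv hU fun l _ hx => (cW_pos (hγ l) hx _).ne'

protected theorem cQ (hU : IsOpen U) (hγ : ∀ l, IsRiemannianOn (γ l) U)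
    (h : ∀ i j, CJ U fun l x => γ l x i j) (hβ : CJ U β) (hu : CJ U u) :
    CJ U fun l => cQ (γ l) (β l) (u l) := by
  have hW := CJ.cW hU hγ h hu
  have h0 : ∀ l, ∀ x ∈ U, cW (γ l) (u l) x ≠ 0 := fun l _ hx => (cW_pos (hγ l) hx _).ne'
  exact (((lap hU hγ h hu).div hU hW h0).add hU (CJ.gam hU hγ h hu (hW.inv hU h0))).add hU
    ((sum hU fun i => (hβ.apply hU i).mul hU ((CJ.grad hU hγ h hu).coord hU i)).div hU hW h0)

end Geo

/-- uniform bounds on compact sets -/
theorem lb_of_compact {ι : Type} (h : CJ U f) {L : Set Λ} (hL : IsCompact L) {K : Set (E n)}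
    (hK : IsCompact K) (hKU : K ⊆ U) {e : ι → Λ} (he : ∀ i, e i ∈ L) {S : ι → Set (E n)}
    (hS : ∀ i, S i ⊆ K) : LB S fun i => f (e i) := by
  refine ⟨fun i => (h.1 _).mono ((hS i).trans hKU), fun k => ?_⟩
  obtain ⟨C, hC⟩ := (hL.prod hK).exists_bound_of_continuousOn
    ((h.2 k).mono (prod_mono (subset_univ _) hKU))
  exact ⟨C, fun i x hx => hC (e i, x) ⟨he i, hS i hx⟩⟩

theorem lb (h : CJ U f) {e : ℕ → Λ} {l0 : Λ} (he : Tendsto e atTop (𝓝 l0)) {z : E n} {r : ℝ}
    (hz : closedBall z r ⊆ U) : LB (Bl (fun _ => z) r) fun j => f (e j) :=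
  h.lb_of_compact he.isCompact_insert_range (isCompact_closedBall z r) hz
    (fun j => mem_insert_of_mem _ (mem_range_self j)) fun _ => ball_subset_closedBall

end CJ

/-- a compact family of positive definite matrices is uniformly elliptic -/
theorem exists_ell {m : ℕ} {Y : Type} [TopologicalSpace Y] {K : Set Y} (hK : IsCompact K)
    {A : Y → Matrix (Fin m) (Fin m) ℝ} (hA : ∀ i j, ContinuousOn (fun y => A y i j) K)
    (hp : ∀ y ∈ K, (A y).PosDef) : ∃ lo hi : ℝ, 0 < lo ∧ ∀ y ∈ K, Ell lo hi (A y) := by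
  have hS : IsCompact (K ×ˢ sphere (0 : E m) 1) := hK.prod (isCompact_sphere _ _)
  have hc : ContinuousOn (fun z : Y × E m => ∑ i, ∑ j, A z.1 i j * z.2 i * z.2 j)
      (K ×ˢ sphere (0 : E m) 1) :=
    continuousOn_finsetSum _ fun i _ => continuousOn_finsetSum _ fun j _ =>
      (((hA i j).comp continuousOn_fst fun _ h => h.1).mul (by fun_prop)).mul (by fun_prop)
  obtain ⟨lo, hlo, H1⟩ := hS.exists_forall_le' hc (a := 0) fun z hz => by
    have h0 : (z.2.ofLp : Fin m → ℝ) ≠ 0 := fun h => by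
      have h1 : z.2 = 0 := by ext i; exact congrFun h i
      have h2 := hz.2
      rw [h1] at h2; simp at h2
    have := (hp z.1 hz.1).dotProduct_mulVec_pos h0
    simp only [dotProduct, Matrix.mulVec, star_trivial, Finset.mul_sum] at this
    refine this.trans_eq (Finset.sum_congr rfl fun i _ => Finset.sum_congr rfl fun j _ => by ring)
  obtain ⟨hi, H2⟩ := hS.exists_bound_of_continuousOn hc
  refine ⟨lo, hi, hlo, fun y hy => ⟨fun i j => ?_, fun z => ?_⟩⟩
  · simpa using ((hp y hy).isHermitian.apply j i)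
  · by_cases hz : z = 0
    · simp [hz]
    have hN : 0 < ‖(WithLp.toLp 2 z : E m)‖ := norm_pos_iff.2 fun h => hz (by simpa using h)
    have hm : (y, ‖(WithLp.toLp 2 z : E m)‖⁻¹ • (WithLp.toLp 2 z : E m)) ∈
        K ×ˢ sphere (0 : E m) 1 := ⟨hy, by simp [norm_smul, hN.ne']⟩
    have hsq : ‖(WithLp.toLp 2 z : E m)‖ ^ 2 = ∑ i, z i ^ 2 := by
      simp [EuclideanSpace.real_norm_sq_eq]
    have e : ∑ i, ∑ j, A y i j * z i * z j = (∑ i, ∑ j, A y i j
        * (‖(WithLp.toLp 2 z : E m)‖⁻¹ • (WithLp.toLp 2 z : E m)) i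
        * (‖(WithLp.toLp 2 z : E m)‖⁻¹ • (WithLp.toLp 2 z : E m)) j) * ∑ i, z i ^ 2 := by
      rw [← hsq]
      simp only [Finset.sum_mul, PiLp.smul_apply, smul_eq_mul]
      refine Finset.sum_congr rfl fun i _ => Finset.sum_congr rfl fun j _ => ?_
      field_simp
    have hpos : 0 ≤ ∑ i, z i ^ 2 := by positivity
    rw [e]
    exact ⟨mul_le_mul_of_nonneg_right (H1 _ hm) hpos,
      mul_le_mul_of_nonneg_right ((le_abs_self _).trans (H2 _ hm)) hpos⟩

section Mfd

variable {X : Type} [TopologicalSpace X] {A : Atl n X} {Ω : Set X}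

/-- joint continuity on the manifold from joint continuity in the chart at `p` -/
theorem Atl.continuousAt_of_ch {Y : Type} [TopologicalSpace Y] (hΩ : IsOpen Ω) {p : X}
    (hp : p ∈ Ω) {w : Λ → X → Y} {w' : Λ → E n → Y}
    (h : ContinuousOn (fun z : Λ × E n => w' z.1 z.2) (univ ×ˢ A.tg p Ω))
    (e : ∀ l, ∀ q ∈ Ω, q ∈ (A.ch p).source → w l q = w' l (A.ch p q)) (l : Λ) :
    ContinuousAt (fun z : Λ × X => w z.1 z.2) (l, p) := by
  have h1 : ContinuousAt (fun z : Λ × E n => w' z.1 z.2) (l, A.ch p p) :=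
    h.continuousAt ((isOpen_univ.prod (A.isOpen_tg hΩ p)).mem_nhds ⟨mem_univ _, A.mem_tg_self hp⟩)
  have h2 : ContinuousAt (fun z : Λ × X => (z.1, A.ch p z.2)) (l, p) :=
    continuousAt_fst.prodMk (((A.ch p).continuousAt (A.mem p)).comp (f := fun z : Λ × X => z.2)
      continuousAt_snd)
  refine (ContinuousAt.comp (f := fun z : Λ × X => (z.1, A.ch p z.2)) h1 h2).congr ?_
  have h3 : ∀ᶠ z : Λ × X in 𝓝 (l, p), z.2 ∈ Ω ∩ (A.ch p).source :=
    continuousAt_snd.eventually ((hΩ.inter (A.ch p).open_source).mem_nhds ⟨hp, A.mem p⟩)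
  filter_upwards [h3] with z hz using (e z.1 z.2 hz.1 hz.2).symm

theorem Atl.JC.continuousAt {w : Λ → X → F} (h : A.JC Ω w) (hΩ : IsOpen Ω) {p : X} (hp : p ∈ Ω)
    (l : Λ) : ContinuousAt (fun z : Λ × X => w z.1 z.2) (l, p) :=
  Atl.continuousAt_of_ch hΩ hp (h p).continuousOn (fun l _ _ hq => (Atl.ch_apply (w l) hq).symm) l

theorem Atl.JC.smOn {w : Λ → X → F} (h : A.JC Ω w) (l : Λ) : A.SmOn Ω (w l) := fun p => (h p).1 l

theorem Atl.SmOn.jc {w : X → F} (h : A.SmOn Ω w) (hΩ : IsOpen Ω) : A.JC Ω fun _ : Λ => w :=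
  fun p => CJ.fixed (A.isOpen_tg hΩ p) (h p)

theorem Atl.JC.mono {w : Λ → X → F} (h : A.JC Ω w) {Ω' : Set X} (hs : Ω' ⊆ Ω) : A.JC Ω' w :=
  fun p => (h p).mono (A.tg_mono hs p)

theorem Atl.JC.reparam {Λ' : Type} [TopologicalSpace Λ'] {w : Λ → X → F} (h : A.JC Ω w)
    {e : Λ' → Λ} (he : Continuous e) : A.JC Ω fun l => w (e l) := fun p => (h p).reparam he

theorem Atl.JC.congr {w w' : Λ → X → F} (h : A.JC Ω w) (hΩ : IsOpen Ω)
    (e : ∀ l, ∀ q ∈ Ω, w' l q = w l q) : A.JC Ω w' :=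
  fun p => (h p).congr (A.isOpen_tg hΩ p) fun l _ hx => e l _ hx.2

/-- it is enough to look at every point in its own chart -/
theorem Atl.jc_of_self {w : Λ → X → F}
    (h : ∀ p ∈ Ω, ∃ V, IsOpen V ∧ A.ch p p ∈ V ∧ CJ V fun l => w l ∘ (A.ch p).symm) : A.JC Ω w := by
  intro p
  refine CJ.of_local fun y hy => ?_
  obtain ⟨V, hV, hq, H⟩ := h _ hy.2
  set q := (A.ch p).symm y
  have hO : IsOpen (A.tg p ((A.ch q).source ∩ A.ch q ⁻¹' V)) :=
    A.isOpen_tg ((A.ch q).isOpen_inter_preimage hV) p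
  refine ⟨_, hO, ⟨hy.1, A.mem q, hq⟩, (H.chart hV hO (ψ := A.ch q ∘ (A.ch p).symm)
    ((A.sm p q).mono fun _ hx => ⟨hx.1, hx.2.1⟩) fun _ hx => hx.2.2).congr hO fun l x hx => ?_⟩
  exact (Atl.ch_apply (w l) hx.2.1).symm

end Mfd

end Crest.Agent.N222.J
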