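import Crest.Agent.N222.F.Coord
import Crest.Agent.N222.J.Visc
import Crest.Agent.N222.A.GDefs

/-!
# Row 222: the bridge from `Imm` to the solver toolbox J, and the Jang equation (helper72)
-/

set_option autoImplicit false
set_option linter.unusedSectionVars false
open MeasureTheory Set Filter Topology Function
open scoped ContDiff
open Crest.GeometryTopology.CoordMetric Crest.Agent.R247

noncomputable section

namespace Crest.Agent.N222

variable {d : ℕ} {ι : Type} [Fintype ι] [DecidableEq ι] {X : Type} [TopologicalSpace X]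

namespace Imm

/-- the atlas of an immersed manifold -/
def atl (M : Imm d ι X) : J.Atl d X where
  ch := M.ch
  mem := M.mem
  sm p q z hz := by
    have h := (M.isChart q).trans_smooth (M.isChart p) hz.2 ((M.ch p).map_target hz.1)
    rw [(M.ch p).right_inv hz.1] at h
    exact h.contDiffWithinAt

/-- the operator `div X + b(X)` -/
def jop (M : Imm d ι X) (b : ι → X → ℝ) : J.JOp d X where
  G p := gram (M.x ∘ (M.ch p).symm)
  β p z i := ∑ a, b a ((M.ch p).symm z) * fderiv ℝ (M.x ∘ (M.ch p).symm) z (ee i) a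
  Q u := M.pre.hb b u (M.vv u)
  W u := A.ww M.pre u

theorem jop_on (M : Imm d ι X) {b : ι → X → ℝ} (hb : ∀ a, M.Sm (b a)) (A : J.Atl d X)
    (hA : A.ch = M.ch) : (M.jop b).On A univ := by
  have tg : ∀ p, A.tg p univ = (M.ch p).target := fun p => by rw [A.tg_univ, hA]
  refine ⟨fun p => ?_, fun p => ?_, fun p q _ hq u hu => ?_⟩
  · rw [tg]; exact (M.isChart p).isRiemannianOn
  · rw [tg]
    have h1 : ContDiffOn ℝ ∞ (fderiv ℝ (M.x ∘ (M.ch p).symm)) (M.ch p).target :=
      (M.isChart p).sm.fderiv_of_isOpen (M.ch p).open_target (by simp)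
    exact contDiffOn_pi.2 fun i => ContDiffOn.sum fun a _ =>
      (hb a p).mul (contDiffOn_euclidean.1 (h1.clm_apply contDiffOn_const) a)
  · obtain ⟨U, hU, hqU, hu⟩ := hu
    have hx := J.Atl.mem_tg hq hqU
    have hs := hu p
    have ho := A.isOpen_tg hU p
    have hsub : A.tg p U ⊆ (M.ch p).target := tg p ▸ A.tg_mono (subset_univ U) p
    rw [hA] at hq hs hx ⊢
    have he := M.isChart p
    have hg := J.riem_mono he.isRiemannianOn ho hsub
    have hW : ∀ q ∈ (M.ch p).source, N222.A.ww M.pre u q =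
        J.cW (gram (M.x ∘ (M.ch p).symm)) (u ∘ (M.ch p).symm) (M.ch p q) := fun q hq => by
      rw [N222.A.ww, gam_coord he hq]; rfl
    have hX : ∀ q ∈ (M.ch p).source, ∀ a, M.pre.X u (M.vv u) a q =
        fderiv ℝ (M.x ∘ (M.ch p).symm) (M.ch p q) (N346.Id.wv (gram (M.x ∘ (M.ch p).symm)) J.one
          (u ∘ (M.ch p).symm) (M.ch p q)) a := fun q hq a => by
      rw [J.wv_one, map_smul, ← grad_coord he hq, ← hW q hq]; rfl
    refine ⟨?_, hW q hq⟩
    have hV : DifferentiableAt ℝ (N346.Id.wv (gram (M.x ∘ (M.ch p).symm)) J.one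
        (u ∘ (M.ch p).symm)) (M.ch p q) := by
      rw [J.wv_one]
      exact (((J.contDiffAt_cW hg hs hx).differentiableAt (by simp)).inv
        (J.cW_pos hg hx _).ne').smul (Bo84.differentiableAt_grad hg hx ((J.jd hg hs).cf2 hx))
    change M.pre.hb b u (M.vv u) q = J.cQ (gram (M.x ∘ (M.ch p).symm)) _ _ _
    rw [J.cQ_div hg hs hx, ← dv_coord (Y := M.pre.X u (M.vv u)) he hq hV
      (by filter_upwards [(M.ch p).open_source.mem_nhds hq] with q hq using hX q hq)]
    simp only [Pre.hb, Pi.add_apply, Finset.sum_apply, Pi.mul_apply, hX q hq, jop,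
      (M.ch p).left_inv hq, Finset.sum_mul]
    congr 1
    rw [Finset.sum_comm]
    refine Finset.sum_congr rfl fun a _ => ?_
    generalize N346.Id.wv (gram (M.x ∘ (M.ch p).symm)) J.one (u ∘ (M.ch p).symm) (M.ch p q) = V
    conv_lhs => rw [eq_sum_ee V, map_sum]
    simp only [map_smul, WithLp.ofLp_sum, WithLp.ofLp_smul, Finset.sum_apply, Pi.smul_apply,
      smul_eq_mul, Finset.sum_mul]
    exact Finset.sum_congr rfl fun i _ => by ring

theorem smOn_univ (M : Imm d ι X) {A : J.Atl d X} (hA : A.ch = M.ch) {F : Type}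
    [NormedAddCommGroup F] [NormedSpace ℝ F] {f : X → F} : A.SmOn univ f ↔ M.Sm f := by
  simp only [J.Atl.SmOn, J.Atl.tg_univ, hA, SmA]

/-- existence between two constants -/
theorem exists_sol (hP : J.PerronStmt) [T2Space X] (M : Imm d ι X) {b : ι → X → ℝ}
    (hb : ∀ a, M.Sm (b a)) {P : Type} [NormedAddCommGroup P] [NormedSpace ℝ P]
    [FiniteDimensional ℝ P] {Φ : P × ℝ × ℝ → ℝ} {I : Set ℝ} {C : Set P} (hΦ : J.Good Φ I C)
    {c : X → P} (hc : M.Sm c) (hC : ∀ p, c p ∈ C) {s t : ℝ} (hs : s ∈ I) (ht : t ∈ I) (hst : s ≤ t)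
    (h1 : ∀ p, Φ (c p, s, 1) ≤ 0) (h2 : ∀ p, 0 ≤ Φ (c p, t, 1)) :
    ∃ u, M.Sm u ∧ (∀ p, M.pre.hb b u (M.vv u) p = Φ (c p, u p, M.vv u p)) ∧
      ∀ p, s ≤ u p ∧ u p ≤ t := by
  have hJ := M.jop_on hb M.atl rfl
  obtain ⟨u, ⟨hu, he⟩, hbd⟩ := hP d X M.atl P (M.jop b) Φ I c univ (fun _ => s) (fun _ => t)
    isOpen_univ hJ (hΦ.mono (by rintro _ ⟨p, -, rfl⟩; exact hC p)) ((M.smOn_univ rfl).2 hc)
    continuousOn_const continuousOn_const (fun _ _ => ⟨hs, ht, hst⟩)
    (fun p hp => J.vsub_of_sm isOpen_univ hJ hp (M.atl.smN_const s p) (by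
      rw [(hJ.const hp s).1, (hJ.const hp s).2, inv_one]; exact h1 p))
    (fun p hp => J.vsup_of_sm isOpen_univ hJ hp (M.atl.smN_const t p) (by
      rw [(hJ.const hp t).1, (hJ.const hp t).2, inv_one]; exact h2 p))
  exact ⟨u, (M.smOn_univ rfl).1 hu, fun p => he p (mem_univ p), fun p => hbd p (mem_univ p)⟩

end Imm

/-- the Jang equation -/
theorem jang (hP : J.PerronStmt) : JangStmt := by
  intro d ι _ _ X _ _ _ _ _ _ M F _ hF h τ hh hτ
  obtain ⟨C, hC⟩ := isCompact_univ.exists_bound_of_continuousOn hh.continuous.continuousOn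
  have hΦ : J.Good (fun q : ℝ × ℝ × ℝ => τ * q.2.1 - q.1) univ univ :=
    ⟨isOpen_univ, ordConnected_univ, by fun_prop, fun c _ t _ v _ => by
      rw [(((hasDerivAt_id' t).const_mul τ).sub_const c).deriv]; simpa using hτ⟩
  have hb : ∀ p, |h p| ≤ |C| := fun p => (hC p (mem_univ p)).trans (le_abs_self C)
  obtain ⟨u, hu, he, -⟩ := M.exists_sol hP (b := fun a => M.pre.D a F) (fun a => hF.D a) hΦ hh
    (fun _ => mem_univ _) (s := -|C| / τ) (t := |C| / τ) (mem_univ _) (mem_univ _)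
    (div_le_div_of_nonneg_right (neg_le_self (abs_nonneg C)) hτ.le)
    (fun p => by
      have := (abs_le.1 (hb p)).1
      simp only [mul_div_cancel₀ _ hτ.ne']; linarith)
    (fun p => by
      have := (abs_le.1 (hb p)).2
      simp only [mul_div_cancel₀ _ hτ.ne']; linarith)
  exact ⟨u, hu, he⟩

end Crest.Agent.N222

end
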