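import Crest.Agent.N222.J.LK
import Crest.Agent.NLib.Ell.Arzela
import Crest.Agent.N346.An.Per

/-!
# Row 222, toolbox J: local smooth Arzelà-Ascoli and the periodic retraction (helper37)
-/

set_option autoImplicit false

open Set Filter Topology Metric
open scoped ContDiff

noncomputable section

namespace Crest.Agent.N222.J

theorem arz_sub {n : ℕ} {F : Type} [NormedAddCommGroup F] [NormedSpace ℝ F]
    [FiniteDimensional ℝ F] {x0 : E n} {r : ℝ} (hr : 0 < r) {f : ℕ → E n → F}
    (h : LB (Bl (fun _ => x0) r) f) :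
    ∃ (ψ : ℕ → ℕ) (g : E n → F), StrictMono ψ ∧ ContDiff ℝ ∞ g ∧
      (∀ x ∈ ball x0 (r / 2), Tendsto (fun j => f (ψ j) x) atTop (𝓝 (g x))) ∧
      ∀ k : ℕ, TendstoLocallyUniformlyOn (fun j => iteratedFDeriv ℝ k (f (ψ j)))
        (iteratedFDeriv ℝ k g) atTop (ball x0 (r / 2)) := by
  let χ : ContDiffBump x0 := ⟨r / 2, 3 * r / 4, by positivity, by linarith⟩
  have hs : ∀ j, tsupport (fun x => χ x • f j x) ⊆ ball x0 r := fun j =>
    (tsupport_smul_subset_left _ _).trans (by
      rw [χ.tsupport_eq]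
      exact closedBall_subset_ball (by change 3 * r / 4 < r; linarith))
  have hb : LB (Bl (fun _ => x0) r) fun j x => χ x • f j x :=
    LB.of_lk one_pos le_rfl fun k => ((LB.single isOpen_univ χ.contDiff.contDiffOn
      (subset_univ _)).lk one_pos le_rfl k).smul (h.lk one_pos le_rfl k)
  obtain ⟨ψ, g, hψ, hg, hl⟩ := NLib.Ell.arzela n F (fun j x => χ x • f j x)
    (fun j => contDiff_iff_contDiffAt.2 fun x => by
      by_cases hx : x ∈ tsupport fun x => χ x • f j x
      · exact (hb.1 j).contDiffAt (isOpen_ball.mem_nhds (hs j hx))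
      · exact contDiffAt_const.congr_of_eventuallyEq (notMem_tsupport_iff_eventuallyEq.1 hx))
    (fun k _ => by
      obtain ⟨C, hC⟩ := hb.2 k
      refine ⟨max C 0, fun j x _ => ?_⟩
      by_cases hx : x ∈ ball x0 r
      · exact (hC j x hx).trans (le_max_left _ _)
      · rw [Function.notMem_support.1 fun h' => hx (hs j (support_iteratedFDeriv_subset k h')),
          norm_zero]
        exact le_max_right _ _)
  have key : ∀ k : ℕ, TendstoLocallyUniformlyOn (fun j => iteratedFDeriv ℝ k (f (ψ j)))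
      (iteratedFDeriv ℝ k g) atTop (ball x0 (r / 2)) := fun k => by
    refine ((hl k).tendstoLocallyUniformlyOn (s := ball x0 (r / 2))).congr fun j x hx => ?_
    refine (Filter.EventuallyEq.iteratedFDeriv ℝ ?_ k).eq_of_nhds
    filter_upwards [isOpen_ball.mem_nhds hx] with y hy
    rw [χ.one_of_mem_closedBall (ball_subset_closedBall hy), one_smul]
  refine ⟨ψ, g, hψ, hg, fun x hx => ?_, key⟩
  have := ((continuous_eval_const (0 : Fin 0 → E n)).tendsto _).comp ((key 0).tendsto_at hx)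
  simpa only [Function.comp_def, iteratedFDeriv_zero_apply] using this

theorem arz : ArzStmt := by
  intro n F _ _ _ x0 r f h
  rcases le_or_gt r 0 with hr | hr
  · have e : ball x0 (r / 2) = ∅ := ball_eq_empty.2 (by linarith)
    rw [e]
    exact ⟨⟨id, 0, strictMono_id, fun _ hx => hx.elim⟩, fun _ _ =>
      ⟨contDiffOn_empty, fun _ _ _ _ hx => hx.elim⟩⟩
  obtain ⟨ψ, g, hψ, hg, h0, -⟩ := arz_sub hr h
  refine ⟨⟨ψ, g, hψ, h0⟩, fun w hw => ⟨hg.contDiffOn.congr fun x hx =>
    tendsto_nhds_unique ((hw x hx).comp hψ.tendsto_atTop) (h0 x hx), fun k => ?_⟩⟩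
  refine (tendstoLocallyUniformlyOn_iff_forall_isCompact isOpen_ball).2 fun K hK hc u hu => ?_
  by_contra hn
  obtain ⟨φ, hφ, hφ'⟩ := extraction_of_frequently_atTop (not_eventually.1 hn)
  obtain ⟨ψ', g', hψ', -, h0', hl⟩ := arz_sub hr (h.reindex φ fun _ => Subset.rfl)
  obtain ⟨j, hj⟩ := ((tendstoLocallyUniformlyOn_iff_forall_isCompact isOpen_ball).1 (hl k) K hK hc
    u hu).exists
  refine hφ' (ψ' j) fun x hx => ?_
  have e : iteratedFDeriv ℝ k w x = iteratedFDeriv ℝ k g' x := by
    refine (Filter.EventuallyEq.iteratedFDeriv ℝ ?_ k).eq_of_nhds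
    filter_upwards [isOpen_ball.mem_nhds (hK hx)] with y hy
    exact tendsto_nhds_unique ((hw y hy).comp (hφ.comp hψ').tendsto_atTop) (h0' y hy)
  rw [e]
  exact hj x hx

theorem rho : RhoStmt := by
  intro n x0 r s hr hs
  obtain ⟨π, hπ, hp⟩ := N346.An.per n
  obtain ⟨hp, h1⟩ := hp 0
  have h2 := hπ.1 0
  let b : ContDiffBump (0 : E n) := ⟨1, s / r, one_pos, (one_lt_div hr).2 hs⟩
  have hb : ContDiff ℝ ∞ b := b.contDiff
  refine ⟨8 * r, fun x => x0 + r • b (π 0 (r⁻¹ • (x - x0))) • π 0 (r⁻¹ • (x - x0)), by positivity,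
    by fun_prop, fun x j => ?_, fun x hx => ?_, fun x => ?_⟩
  · have e : r⁻¹ • (x + EuclideanSpace.single j (8 * r) - x0)
        = r⁻¹ • (x - x0) + EuclideanSpace.single j (8 * (((0 : ℕ) : ℝ) + 1)) := by
      ext i
      by_cases hij : i = j
      · subst hij; simp; field_simp; ring
      · simp [hij]
    simp only [e, hp _ j]
  · have h3 : ‖r⁻¹ • (x - x0)‖ ≤ 1 := by
      rw [norm_smul, norm_inv, Real.norm_of_nonneg hr.le, inv_mul_le_one₀ hr]
      exact (mem_ball_iff_norm.1 hx).le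
    simp only
    rw [h1 _ (by simpa using h3), b.one_of_mem_closedBall (mem_closedBall_zero_iff.2 h3), one_smul,
      smul_inv_smul₀ hr.ne', add_sub_cancel]
  · rw [mem_closedBall_iff_norm, add_sub_cancel_left, norm_smul, norm_smul,
      Real.norm_of_nonneg hr.le, Real.norm_of_nonneg b.nonneg, ← le_div_iff₀' hr]
    set y := π 0 (r⁻¹ • (x - x0))
    rcases le_or_gt (s / r) ‖y‖ with h | h
    · rw [b.zero_of_le_dist (by rwa [dist_zero_right]), zero_mul]
      exact b.rOut_pos.le
    · exact (mul_le_of_le_one_left (norm_nonneg _) b.le_one).trans h.le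

end Crest.Agent.N222.J
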