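import Crest.Agent.N222.J.CJ
import Crest.Agent.NLib.Ell.SchAll
import Crest.Agent.N346.An.Lin

/-!
# Row 222, toolbox J (helper85): the Schauder bootstrap `boot` and its quasilinear form `qreg`
-/

set_option autoImplicit false

open Set Filter Topology Metric
open scoped ContDiff
open Crest.GeometryTopology.CoordMetric
open Crest.Agent.R247.Bo84
open Crest.Agent.R238 (Ell)
open Crest.Agent.R273.SchA_152 (HO)
open Crest.Agent.NLib.Ell (CKA)

noncomputable section

namespace Crest.Agent.N222.J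

variable {n : ℕ} {ι : Type}

/-- one step of the bootstrap -/
theorem boot_step {α lo hi s r : ℝ} {k : ℕ} {x0 : ι → E n}
    {τ : ι → E n → Matrix (Fin n) (Fin n) ℝ} {u f : ι → E n → ℝ} (hα : 0 < α) (hα1 : α < 1)
    (hlo : 0 < lo) (hs : 0 < s) (hs1 : s ≤ 1) (hsr : s < r)
    (us : ∀ i, ContDiffOn ℝ ∞ (u i) (ball (x0 i) r))
    (he : ∀ i, ∀ x ∈ ball (x0 i) r, Ell lo hi (τ i x))
    (eq : ∀ i, ∀ x ∈ ball (x0 i) r, ∑ j, ∑ l, τ i x j l * d2 (u i) x j l = f i x)
    (hτ : ∀ j l, LK α (Bl x0 s) k fun i x => τ i x j l) (hf : LK α (Bl x0 s) k f)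
    (hu : LK α (Bl x0 s) 0 u) : LK α (Bl x0 (s / 2)) (k + 2) u := by
  choose M hM using hτ
  obtain ⟨B, hB⟩ := (Set.finite_range fun p : Fin n × Fin n => M p.1 p.2).bddAbove
  obtain ⟨N, hN⟩ := hf
  obtain ⟨S, -, hS⟩ := hu.abs_le
  obtain ⟨C, -, hC⟩ := NLib.Ell.schAll n k α lo (max lo hi) (max B 0) s hα hα1 hlo
    (le_max_left _ _) hs hs1
  have hsub : ∀ i, ball (x0 i) s ⊆ ball (x0 i) r := fun i => ball_subset_ball hsr.le
  refine ⟨C * (N + S), fun i => hC (x0 i) (τ i) (fun _ _ => 0) (fun _ => 0) (u i) (f i) N S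
    (fun x hx => (he i x (hsub i hx)).sm_mono le_rfl (le_max_right _ _))
    (fun j l => (hM j l i).mono ((hB ⟨(j, l), rfl⟩).trans (le_max_left _ _)))
    (fun _ => CKA.zero.mono (le_max_right _ _)) (CKA.zero.mono (le_max_right _ _)) (hN i) ?_
    (hS i) fun x hx => ?_⟩
  · obtain ⟨V, hV⟩ := (LB.single (ι := Unit) isOpen_ball (us i)
      (closedBall_subset_ball hsr)).lk hα hα1.le 2
    exact ⟨V, hV ()⟩
  · have h2 : ContDiffAt ℝ 2 (u i) x :=
      ((us i).contDiffAt (isOpen_ball.mem_nhds (hsub i hx))).of_le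
        (WithTop.coe_le_coe.2 (le_top : (2 : ℕ∞) ≤ ⊤))
    rw [← eq i x (hsub i hx)]
    simp only [zero_mul, Finset.sum_const_zero, add_zero, R273.SchB_152.P2, d2,
      N346.An.pd2_eq_D2_at h2]

theorem boot : BootStmt := by
  intro n ι α lo hi r x0 τ u f hα hα1 hlo hr us he eq hcl h1 k
  have h0 : 0 < min (r / 2) 1 := lt_min (by positivity) one_pos
  have hp : ∀ j : ℕ, 0 < min (r / 2) 1 / 2 ^ j := fun j => by positivity
  have hle : ∀ j : ℕ, min (r / 2) 1 / 2 ^ j ≤ min (r / 2) 1 := fun j =>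
    div_le_self h0.le (one_le_pow₀ one_le_two)
  have hlt : ∀ j : ℕ, min (r / 2) 1 / 2 ^ j < r := fun j =>
    ((hle j).trans (min_le_left _ _)).trans_lt (half_lt_self hr)
  have H : ∀ j : ℕ, LK α (Bl x0 (min (r / 2) 1 / 2 ^ j)) (j + 1) u := by
    intro j
    induction j with
    | zero => exact h1.shrink (hlt 0).le
    | succ j ih =>
      obtain ⟨hτ, hf⟩ := hcl j _ (hp j) (hlt j).le ih
      have := boot_step hα hα1 hlo (hp j) ((hle j).trans (min_le_right _ _)) (hlt j) us he eq hτ hf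
        (ih.of_le (Nat.zero_le _))
      rwa [div_div, ← pow_succ] at this
  exact (H k).pred.centre hα hα1.le (hp k)

/-- lowering the Hölder exponent -/
theorem ho_lower {X Y : Type*} [NormedAddCommGroup X] [NormedAddCommGroup Y] {s : Set X}
    {f : X → Y} {a b M : ℝ} (h : HO a M s f) (hb : 0 ≤ b) (hba : b ≤ a) : HO b (2 * M) s f := by
  refine ⟨fun x hx => ?_, fun x hx y hy => ?_⟩
  · have := (norm_nonneg _).trans (h.bdd x hx)
    linarith [h.bdd x hx]
  have hM : 0 ≤ M := (norm_nonneg _).trans (h.bdd x hx)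
  have hp : 0 ≤ ‖x - y‖ ^ b := Real.rpow_nonneg (norm_nonneg _) _
  rcases le_total ‖x - y‖ 1 with hl | hl
  · have h3 : ‖x - y‖ ^ a ≤ ‖x - y‖ ^ b :=
      Real.rpow_le_rpow_of_exponent_ge' (norm_nonneg _) hl hb hba
    have h4 := mul_le_mul_of_nonneg_left h3 hM
    have h5 := mul_nonneg hM hp
    linarith [h.hol x hx y hy]
  · have h3 : 1 ≤ ‖x - y‖ ^ b := Real.one_le_rpow hl hb
    have h4 := mul_le_mul_of_nonneg_left h3 hM
    linarith [norm_sub_le (f x) (f y), h.bdd x hx, h.bdd y hy]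

/-- the norm of a differential from the partial derivatives -/
theorem norm_fderiv_le_of_d1 {u : E n → ℝ} {x : E n} {C : ℝ} (h : ‖d1 u x‖ ≤ C) :
    ‖fderiv ℝ u x‖ ≤ n * C := by
  rw [NLib.Ell.clm_eq_sum (fderiv ℝ u x)]
  refine (norm_sum_le _ _).trans ?_
  refine (Finset.sum_le_card_nsmul _ _ C fun i _ => ?_).trans (by simp)
  refine (ContinuousLinearMap.le_opNorm _ _).trans ?_
  refine (mul_le_of_le_one_left (norm_nonneg _) (NLib.Ell.norm_smulRightL_proj i)).trans ?_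
  exact (norm_le_pi_norm (d1 u x) i).trans h

/-- `C^{1,α}` bounds from bounds of the `1`-jet and a Hölder bound of the gradient -/
theorem lk_one {α M C r : ℝ} {x0 : ι → E n} {u : ι → E n → ℝ} (hα : 0 < α) (hα1 : α ≤ 1)
    (us : ∀ i, ContDiffOn ℝ ∞ (u i) (ball (x0 i) r))
    (h0 : ∀ i, ∀ x ∈ ball (x0 i) r, |u i x| ≤ C) (h1 : ∀ i, ∀ x ∈ ball (x0 i) r, ‖d1 (u i) x‖ ≤ C)
    (hH : ∀ i, ∀ x ∈ ball (x0 i) r, ∀ y ∈ ball (x0 i) r, ∀ j,
      |pderiv j (u i) x - pderiv j (u i) y| ≤ M * ‖x - y‖ ^ α) : LK α (Bl x0 r) 1 u := by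
  have hd : ∀ i, DifferentiableOn ℝ (u i) (ball (x0 i) r) := fun i =>
    (us i).differentiableOn (by simp)
  refine ⟨max (2 * max C (n * C)) (max C M), fun i => ⟨?_, hd i, fun j => ?_⟩⟩
  · refine (NLib.Ell.ho_of_lip hα.le hα1 (fun x hx => (h0 i x hx).trans (le_max_left _ _))
      fun x hx y hy => ?_).mono (le_max_left _ _)
    exact (convex_ball _ _).norm_image_sub_le_of_norm_fderiv_le
      (fun w hw => (hd i).differentiableAt (isOpen_ball.mem_nhds hw))
      (fun w hw => (norm_fderiv_le_of_d1 (h1 i w hw)).trans (le_max_right _ _)) hy hx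
  · refine HO.mono (M := max C M) ⟨fun x hx => ?_, fun x hx y hy => ?_⟩ (le_max_right _ _)
    · exact ((norm_le_pi_norm (d1 (u i) x) j).trans (h1 i x hx)).trans (le_max_left _ _)
    · exact (hH i x hx y hy j).trans (mul_le_mul_of_nonneg_right (le_max_right _ _)
        (Real.rpow_nonneg (norm_nonneg _) _))

theorem LK.lower {F : Type} [NormedAddCommGroup F] [NormedSpace ℝ F] {a b : ℝ} {k : ℕ}
    {S : ι → Set (E n)} {f : ι → E n → F} (h : LK a S k f) (hb : 0 ≤ b) (hba : b ≤ a) :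
    LK b S k f := by
  obtain ⟨M, hM⟩ := h
  refine ⟨2 * M, fun i => ?_⟩
  have key : ∀ (k : ℕ) (g : E n → F), CKA a (S i) k M g → CKA b (S i) k (2 * M) g := by
    intro k
    induction k with
    | zero => exact fun g h => ho_lower h hb hba
    | succ k ih => exact fun g h => ⟨ho_lower h.1 hb hba, h.2.1, fun j => ih _ (h.2.2 j)⟩
  exact key k _ (hM i)

theorem qreg : QRegStmt := by
  intro n ι P _ _ _ A f O K α M r x0 c u hO hK hKO hA hf hp hα hα1 hr hc us hin hH eq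
  obtain ⟨lo, hi, hlo, he⟩ := exists_ell hK (fun j l => (hA j l).continuousOn.mono hKO) hp
  obtain ⟨C, hC⟩ := hK.exists_bound_of_continuousOn continuousOn_id
  have h1 : LK (α / 2) (Bl x0 r) 1 u :=
    (lk_one hα hα1 us (fun i x hx => ((norm_fst_le _).trans (norm_snd_le _)).trans
      (hC _ (hin i x hx))) (fun i x hx => ((norm_snd_le _).trans (norm_snd_le _)).trans
      (hC _ (hin i x hx))) hH).lower (by positivity) (by linarith)
  have ha : 0 < α / 2 := by positivity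
  have ha1 : α / 2 < 1 := by linarith
  refine ⟨fun i => (us i).mono (ball_subset_ball (by linarith)), fun k => ?_⟩
  let κ := {q : ι × E n // q.2 ∈ ball (x0 q.1) (r / 2)}
  have hb : ∀ q : κ, ball q.1.2 (r / 2) ⊆ ball (x0 q.1.1) r := fun q =>
    ball_subset_ball' (by linarith [mem_ball.1 q.2])
  obtain ⟨D, hD⟩ := boot n κ (α / 2) lo hi (r / 2) (fun q => q.1.2)
    (fun q x => A (c q.1.1 x, u q.1.1 x, d1 (u q.1.1) x)) (fun q => u q.1.1)
    (fun q x => f (c q.1.1 x, u q.1.1 x, d1 (u q.1.1) x)) ha ha1 hlo (by positivity)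
    (fun q => (us _).mono (hb q)) (fun q x hx => he _ (hin _ x (hb q hx)))
    (fun q x hx => eq _ x (hb q hx)) (fun j s _ hsr hu => by
      have hb' : ∀ q : κ, ball q.1.2 s ⊆ ball (x0 q.1.1) r := fun q =>
        (ball_subset_ball hsr).trans (hb q)
      have hJ : LK (α / 2) (Bl (fun q : κ => q.1.2) s) j
          fun q x => (c q.1.1 x, u q.1.1 x, d1 (u q.1.1) x) :=
        ((hc.lk ha ha1.le j).reindex (fun q : κ => q.1.1) hb').prodMk (hu.pred.prodMk hu.d1)
      exact ⟨fun p l => hJ.comp ha ha1.le hO hK hKO (hA p l) fun q x hx => hin _ x (hb' q hx),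
        hJ.comp ha ha1.le hO hK hKO hf fun q x hx => hin _ x (hb' q hx)⟩)
    (h1.reindex (fun q : κ => q.1.1) hb) k
  exact ⟨D, fun i x hx => hD ⟨(i, x), hx⟩⟩

end Crest.Agent.N222.J
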