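import Crest.Agent.N222.J.CJ

/-!
# Row 222, toolbox J (helper29): continuity of the jets of the solution in a parameter
-/

set_option autoImplicit false

open Set Filter Topology Metric
open scoped ContDiff
open Crest.GeometryTopology.CoordMetric
open Crest.Agent.R247.Bo84
open Crest.Agent.R238 (Ell)

noncomputable section

namespace Crest.Agent.N222.J

variable {n : ℕ} {X : Type} [TopologicalSpace X] {A : Atl n X} {P : Type} [NormedAddCommGroup P]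
  [NormedSpace ℝ P] {Λ : Type} [TopologicalSpace Λ] {J : Λ → JOp n X} {Φ : P × ℝ × ℝ → ℝ}
  {I : Set ℝ} {C : Set P} {c : Λ → X → P} {Ω : Set X}

/-- `Q` and `1/W` of a jointly continuous family are jointly continuous -/
theorem contAt_QW (hΩ : IsOpen Ω) (hJ : ∀ l, (J l).On A Ω)
    (hG : ∀ p i j, CJ (A.tg p Ω) fun l x => (J l).G p x i j)
    (hβ : ∀ p, CJ (A.tg p Ω) fun l => (J l).β p) {w : Λ → X → ℝ} (hw : A.JC Ω w) {p : X}
    (hp : p ∈ Ω) (l : Λ) : ContinuousAt (fun z : Λ × X => (J z.1).Q (w z.1) z.2) (l, p) ∧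
      ContinuousAt (fun z : Λ × X => ((J z.1).W (w z.1) z.2)⁻¹) (l, p) := by
  have hU := A.isOpen_tg hΩ p
  have hr : ∀ l, IsRiemannianOn ((J l).G p) (A.tg p Ω) := fun l => (hJ l).riem p
  have e := fun l q hq hs => (hJ l).chart p q hq hs (w l) ((hw.smOn l).smN hΩ hq)
  exact ⟨Atl.continuousAt_of_ch (w := fun l q => (J l).Q (w l) q) hΩ hp
      (CJ.cQ hU hr (hG p) (hβ p) (hw p)).continuousOn (fun l q hq hs => (e l q hq hs).1) l,
    Atl.continuousAt_of_ch (w := fun l q => ((J l).W (w l) q)⁻¹)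
      (w' := fun l x => (cW ((J l).G p) (w l ∘ (A.ch p).symm) x)⁻¹) hΩ hp
      (CJ.cW_inv hU hr (hG p) (hw p)).continuousOn (fun l q hq hs => by rw [(e l q hq hs).2]) l⟩

/-- a solution for `l0`, shifted by a small constant, is a strict barrier for `l` near `l0` -/
theorem strict_near (hΩ : IsOpen Ω) (hJ : ∀ l, (J l).On A Ω) (hΦ : Good Φ I C)
    (hC : ∀ l, ∀ p ∈ Ω, c l p ∈ C) (hG : ∀ p i j, CJ (A.tg p Ω) fun l x => (J l).G p x i j)
    (hβ : ∀ p, CJ (A.tg p Ω) fun l => (J l).β p) (hc : A.JC Ω c) {l0 : Λ} {w : X → ℝ}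
    (hw : Solves A (J l0) Φ (c l0) Ω w) (hI : ∀ p ∈ Ω, w p ∈ I) {ε : ℝ} (hε : 0 < ε) {K : Set X}
    (hK : IsCompact K) (hKΩ : K ⊆ Ω) : ∀ᶠ l in 𝓝 l0, ∀ q ∈ K, ∀ t ∈ I,
      (w q + ε ≤ t → (J l).Q w q < Φ (c l q, t, ((J l).W w q)⁻¹)) ∧
      (t ≤ w q - ε → Φ (c l q, t, ((J l).W w q)⁻¹) < (J l).Q w q) := by
  refine hK.eventually_forall_of_forall_eventually fun p hp => ?_
  have hp := hKΩ hp
  obtain ⟨δ, hδ, hb⟩ := Metric.isOpen_iff.1 hΦ.isOpen _ (hI p hp)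
  obtain ⟨hQ, hW⟩ := contAt_QW hΩ hJ hG hβ (hw.1.jc hΩ) hp l0
  have hwc : ContinuousAt (fun z : Λ × X => w z.2) (l0, p) := (hw.1.jc hΩ).continuousAt hΩ hp l0
  have hm : ∀ s : ℝ, |s| < δ → w p + s ∈ I := fun s hs => hb (by simpa [Real.dist_eq] using hs)
  have hcont : ∀ s : ℝ, |s| < δ → ContinuousAt
      (fun z : Λ × X => Φ (c z.1 z.2, w z.2 + s, ((J z.1).W w z.2)⁻¹)) (l0, p) := fun s hs =>
    ContinuousAt.comp (f := fun z : Λ × X => (c z.1 z.2, w z.2 + s, ((J z.1).W w z.2)⁻¹))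
      (hΦ.at _ (hm s hs) _).continuousAt
      ((hc.continuousAt hΩ hp l0).prodMk ((hwc.add continuousAt_const).prodMk hW))
  have hmem : ∀ s : ℝ, |s| < δ → ∀ᶠ z : Λ × X in 𝓝 (l0, p), w z.2 + s ∈ I := fun s hs =>
    (hwc.add continuousAt_const).eventually (hΦ.isOpen.mem_nhds (hm s hs))
  set η := min ε (δ / 2) with hη
  have hη0 : 0 < η := lt_min hε (half_pos hδ)
  have hηε : η ≤ ε := min_le_left _ _
  have h1 : |η| < δ := by rw [abs_of_pos hη0]; exact (min_le_right _ _).trans_lt (half_lt_self hδ)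
  have h2 : |-η| < δ := by rwa [abs_neg]
  have hs := hΦ.strictMonoOn (hC l0 p hp) ((hJ l0).inv_mem hp (hw.1.smN hΩ hp))
  have hΩ' : ∀ᶠ z : Λ × X in 𝓝 (l0, p), z.2 ∈ Ω := continuousAt_snd.eventually (hΩ.mem_nhds hp)
  filter_upwards [hQ.eventually_lt (hcont η h1)
      ((hw.2 p hp).trans_lt (hs (hI p hp) (hm η h1) (by linarith))),
    (hcont (-η) h2).eventually_lt hQ
      ((hs (hm (-η) h2) (hI p hp) (by linarith)).trans_eq (hw.2 p hp).symm),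
    hmem η h1, hmem (-η) h2, hΩ'] with z e1 e2 m1 m2 hz t ht
  have hs := (hΦ.strictMonoOn (hC z.1 z.2 hz)
    ((hJ z.1).inv_mem hz (hw.1.smN hΩ hz))).monotoneOn
  exact ⟨fun h => e1.trans_le (hs m1 ht (by linarith)),
    fun h => (hs ht m2 (by linarith)).trans_lt e2⟩

/-- a function small off a compact set and large somewhere has a large local maximum -/
theorem exists_big_max (hΩ : IsOpen Ω) {f : X → ℝ} (hf : ContinuousOn f Ω) {K : Set X}
    (hK : IsCompact K) (hKΩ : K ⊆ Ω) {ε : ℝ} (h : ∀ p ∈ Ω \ K, f p ≤ ε) {p : X} (hp : p ∈ Ω)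
    (h0 : ε < f p) : ∃ q ∈ K, ε < f q ∧ IsLocalMax f q := by
  have hpK : p ∈ K := by
    by_contra hh
    linarith [h p ⟨hp, hh⟩]
  obtain ⟨q, hq, hm⟩ := hK.exists_isMaxOn ⟨p, hpK⟩ (hf.mono hKΩ)
  have h1 : f p ≤ f q := hm hpK
  refine ⟨q, hq, by linarith, ?_⟩
  filter_upwards [hΩ.mem_nhds (hKΩ hq)] with y hy
  by_cases hyK : y ∈ K
  · exact hm hyK
  · linarith [h y ⟨hy, hyK⟩]

/-- Step 1: uniform convergence -/
theorem cont_zero (hΩ : IsOpen Ω) (hJ : ∀ l, (J l).On A Ω) (hΦ : Good Φ I C)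
    (hC : ∀ l, ∀ p ∈ Ω, c l p ∈ C) (hG : ∀ p i j, CJ (A.tg p Ω) fun l x => (J l).G p x i j)
    (hβ : ∀ p, CJ (A.tg p Ω) fun l => (J l).β p) (hc : A.JC Ω c) {u : Λ → X → ℝ}
    (hu : ∀ l, Solves A (J l) Φ (c l) Ω (u l)) (hI : ∀ l, ∀ p ∈ Ω, u l p ∈ I) {l0 : Λ}
    {ε : ℝ} (hε : 0 < ε)
    (h : ∃ K ⊆ Ω, IsCompact K ∧ ∀ᶠ l in 𝓝 l0, ∀ p ∈ Ω \ K, |u l p - u l0 p| ≤ ε) :
    ∀ᶠ l in 𝓝 l0, ∀ p ∈ Ω, |u l p - u l0 p| ≤ ε := by
  obtain ⟨K, hKΩ, hK, h⟩ := h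
  filter_upwards [h, strict_near hΩ hJ hΦ hC hG hβ hc (hu l0) (hI l0) hε hK hKΩ] with l h1 h2 p hp
  have c0 := (hu l0).1.continuousOn hΩ
  have c1 := (hu l).1.continuousOn hΩ
  rw [abs_le]
  constructor
  · by_contra hh
    obtain ⟨q, hq, h0, hm⟩ := exists_big_max (f := fun q => u l0 q - u l q) hΩ (c0.sub c1) hK hKΩ
      (ε := ε) (fun q hq => by linarith [(abs_le.1 (h1 q hq)).1]) hp (by linarith [not_le.1 hh])
    obtain ⟨e1, e2⟩ := mtouch hΩ (hJ l) (hKΩ hq) ((hu l0).1.smN hΩ (hKΩ hq))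
      ((hu l).1.smN hΩ (hKΩ hq)) hm
    have := (h2 q hq _ (hI l q (hKΩ hq))).2 (by linarith)
    rw [e1, ← (hu l).2 q (hKΩ hq)] at this
    linarith
  · by_contra hh
    obtain ⟨q, hq, h0, hm⟩ := exists_big_max (f := fun q => u l q - u l0 q) hΩ (c1.sub c0) hK hKΩ
      (ε := ε) (fun q hq => (abs_le.1 (h1 q hq)).2) hp (not_le.1 hh)
    obtain ⟨e1, e2⟩ := mtouch hΩ (hJ l) (hKΩ hq) ((hu l).1.smN hΩ (hKΩ hq))
      ((hu l0).1.smN hΩ (hKΩ hq)) hm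
    have := (h2 q hq _ (hI l q (hKΩ hq))).1 (by linarith)
    rw [← e1, ← (hu l).2 q (hKΩ hq)] at this
    linarith

/-- Step 2, in coordinates: locally uniform convergence of solutions gives continuity of jets -/
theorem cj_of_zero (hE : EstStmt) (hA : ArzStmt) [FiniteDimensional ℝ P]
    [FirstCountableTopology Λ] {U : Set (E n)} (hU : IsOpen U) {γ : Λ → MetricField n}
    {β : Λ → E n → Fin n → ℝ} {c : Λ → E n → P} {u : Λ → E n → ℝ} (hΦ : Good Φ I C)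
    (hγ : ∀ l, IsRiemannianOn (γ l) U) (hG : ∀ i j, CJ U fun l x => γ l x i j) (hβ : CJ U β)
    (hc : CJ U c) (hC : ∀ l, ∀ x ∈ U, c l x ∈ C) (hs : ∀ l, ContDiffOn ℝ ∞ (u l) U)
    (hI : ∀ l, ∀ x ∈ U, u l x ∈ I)
    (he : ∀ l, ∀ x ∈ U, cQ (γ l) (β l) (u l) x = Φ (c l x, u l x, (cW (γ l) (u l) x)⁻¹))
    (h0 : ∀ l0, ∀ x ∈ U, ∀ ε > 0, ∀ᶠ z : Λ × E n in 𝓝 (l0, x), |u z.1 z.2 - u l0 x| ≤ ε) :
    CJ U u := by
  refine ⟨hs, fun k z0 hz0 => ContinuousAt.continuousWithinAt ?_⟩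
  obtain ⟨l0, y0⟩ := z0
  have hy0 : y0 ∈ U := hz0.2
  obtain ⟨δ, hδ, hb⟩ := Metric.nhds_basis_closedBall.mem_iff.1 (hΦ.isOpen.mem_nhds (hI l0 y0 hy0))
  rw [Real.closedBall_eq_Icc] at hb
  obtain ⟨N, hN, S, hS, hNS⟩ := mem_nhds_prod_iff.1 (h0 l0 y0 hy0 δ hδ)
  obtain ⟨r, hr, hrS⟩ := Metric.nhds_basis_closedBall.mem_iff.1 (inter_mem hS (hU.mem_nhds hy0))
  have hrU : closedBall y0 r ⊆ U := hrS.trans inter_subset_right
  refine tendsto_iff_seq_tendsto.2 fun z hz => ?_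
  have hz1 : Tendsto (fun j => (z j).1) atTop (𝓝 l0) := (continuous_fst.tendsto _).comp hz
  obtain ⟨m, hm⟩ := eventually_atTop.1 (hz1.eventually hN)
  rw [← tendsto_add_atTop_iff_nat m]
  have hl : Tendsto (fun j => (z (j + m)).1) atTop (𝓝 l0) := (tendsto_add_atTop_iff_nat m).2 hz1
  have hy : Tendsto (fun j => (z (j + m)).2) atTop (𝓝 y0) :=
    (tendsto_add_atTop_iff_nat m).2 ((continuous_snd.tendsto _).comp hz)
  set e : ℕ → Λ := fun j => (z (j + m)).1 with he'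
  have hL := hl.isCompact_insert_range.prod (isCompact_closedBall y0 r)
  have hsub : insert l0 (range e) ×ˢ closedBall y0 r ⊆ univ ×ˢ U := prod_mono (subset_univ _) hrU
  have hmem : ∀ j, ∀ x ∈ ball y0 r, (e j, x) ∈ insert l0 (range e) ×ˢ closedBall y0 r :=
    fun j x hx => ⟨mem_insert_of_mem _ (mem_range_self j), ball_subset_closedBall hx⟩
  have hbU : ∀ x ∈ ball y0 r, x ∈ U := fun x hx => hrU (ball_subset_closedBall hx)
  obtain ⟨lo, hi, hlo, hell⟩ := exists_ell hL (A := fun w : Λ × E n => γ w.1 w.2)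
    (fun i j => (hG i j).continuousOn.mono hsub) fun w hw => (hγ w.1).posDef _ (hsub hw).2
  have hF : Fam Φ ((fun w : Λ × E n => c w.1 w.2) '' (insert l0 (range e) ×ˢ closedBall y0 r))
      (u l0 y0 - δ) (u l0 y0 + δ) lo hi r (fun _ : ℕ => y0) (fun j => γ (e j)) (fun j => β (e j))
      (fun j => c (e j)) fun j => u (e j) :=
    ⟨hlo, hr, fun i j => (hG i j).lb hl hrU, fun j x hx => hell _ (hmem j x hx), hβ.lb hl hrU,
      hc.lb hl hrU, fun j x hx => mem_image_of_mem _ (hmem j x hx),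
      fun j => (hs _).mono hbU, fun j x hx => by
        have h1 : |u (e j) x - u l0 y0| ≤ δ := hNS (a := (e j, x))
          ⟨hm _ (Nat.le_add_left _ _), (hrS (ball_subset_closedBall hx)).1⟩
        constructor <;> linarith [(abs_le.1 h1).1, (abs_le.1 h1).2],
      fun j x hx => he _ x (hbU x hx)⟩
  have hB := hE n ℕ P Φ I _ _ _ lo hi r _ _ _ _ _
    (hΦ.mono (by rintro _ ⟨w, hw, rfl⟩; exact hC _ _ (hsub hw).2))
    (hL.image_of_continuousOn (hc.continuousOn.mono hsub)) hb hF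
  have hr4 : ball y0 (r / 2 / 2) ⊆ ball y0 r := ball_subset_ball (by linarith)
  obtain ⟨-, hT⟩ := (hA n ℝ y0 (r / 2) (fun j => u (e j)) hB).2 (u l0) fun x hx => by
    refine Metric.tendsto_nhds.2 fun ε hε => ?_
    have h1 : Tendsto (fun j => (e j, x)) atTop (𝓝 (l0, x)) := hl.prodMk_nhds tendsto_const_nhds
    filter_upwards [h1.eventually (h0 l0 x (hbU x (hr4 hx)) (ε / 2) (half_pos hε))] with j hj
    exact hj.trans_lt (half_lt_self hε)
  have hy4 : y0 ∈ ball y0 (r / 2 / 2) := mem_ball_self (by positivity)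
  exact (hT k).tendsto_comp
    (((hs l0).contDiffAt (hU.mem_nhds hy0)).continuousAt_iteratedFDeriv
      (by exact_mod_cast le_top)).continuousWithinAt hy4
    (tendsto_nhdsWithin_iff.2 ⟨hy, hy.eventually (isOpen_ball.mem_nhds hy4)⟩)

/-- **CONT** -/
theorem cont (hE : EstStmt) (hA : ArzStmt) : ContStmt := by
  intro n X _ A P _ _ _ Λ _ _ J Φ I C c Ω u hΩ hJ hΦ hC hG hβ hc hu hI h0 p
  have hU := A.isOpen_tg hΩ p
  refine cj_of_zero hE hA hU hΦ (fun l => (hJ l).riem p) (hG p) (hβ p) (hc p)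
    (fun l x hx => hC l _ hx.2) (fun l => (hu l).1 p) (fun l x hx => hI l _ hx.2)
    (fun l x hx => ?_) fun l0 x hx ε hε => ?_
  · obtain ⟨e1, e2⟩ := (hJ l).chart p _ hx.2 ((A.ch p).map_target hx.1) (u l)
      ((hu l).1.smN hΩ hx.2)
    rw [(A.ch p).right_inv hx.1] at e1 e2
    rw [← e1, ← e2]
    exact (hu l).2 _ hx.2
  · have h1 := cont_zero hΩ hJ hΦ hC hG hβ hc hu hI (half_pos hε) (h0 l0 _ (half_pos hε))
    have h2 : ∀ᶠ y in 𝓝 x, dist ((u l0 ∘ (A.ch p).symm) y) ((u l0 ∘ (A.ch p).symm) x) < ε / 2 :=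
      Metric.tendsto_nhds.1 (((hu l0).1 p).continuousOn.continuousAt (hU.mem_nhds hx)) _
        (half_pos hε)
    filter_upwards [h1.prod_nhds (h2.and (hU.mem_nhds hx))] with z hz
    have h3 := hz.1 _ hz.2.2.2
    have h4 := hz.2.1
    rw [Real.dist_eq] at h4
    simp only [Function.comp] at h4 ⊢
    rw [abs_le] at h3 ⊢
    constructor <;> linarith [(abs_lt.1 h4).1, (abs_lt.1 h4).2, h3.1, h3.2]

end Crest.Agent.N222.J
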