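import Crest.Agent.N222.J.Bd
import Crest.Agent.NLib.Ell.Mat

/-!
# Row 222, toolbox J (helper41): `C^{1,α}` estimate, higher order estimates, `EstStmt`
-/

set_option autoImplicit false

open Set Filter Topology Metric
open scoped ContDiff RealInnerProductSpace Gradient
open Crest.GeometryTopology.CoordMetric Crest.MathPhysics.ExteriorData
open Crest.Agent.R202.Tens Crest.Agent.R247.Bo84 Crest.Agent.N346.Id
open Crest.Agent.R238 (Ell)
open Crest.Agent.R273.SchA_152 (HO)
open Crest.Agent.NLib.Ell (CKA dvg mv)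

noncomputable section

namespace Crest.Agent.N222.J

variable {n : ℕ}

theorem ell_add_outer {lo hi M : ℝ} {A : Matrix (Fin n) (Fin n) ℝ} (h : Ell lo hi A)
    {p : Fin n → ℝ} (hp : ∀ i, |p i| ≤ M) :
    Ell lo (hi + n * M ^ 2) (A + Matrix.vecMulVec p p) := by
  refine ⟨fun i j => by simp [Matrix.vecMulVec_apply, h.1 i j, mul_comm], fun z => ?_⟩
  have e : ∑ i, ∑ j, (A + Matrix.vecMulVec p p) i j * z i * z j =
      ∑ i, ∑ j, A i j * z i * z j + (∑ i, p i * z i) ^ 2 := by
    rw [pow_two, Finset.sum_mul_sum, ← Finset.sum_add_distrib]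
    refine Finset.sum_congr rfl fun i _ => ?_
    rw [← Finset.sum_add_distrib]
    refine Finset.sum_congr rfl fun j _ => ?_
    rw [Matrix.add_apply, Matrix.vecMulVec_apply]; ring
  have h1 := Finset.sum_mul_sq_le_sq_mul_sq Finset.univ p z
  have h2 : ∑ i, p i ^ 2 ≤ n * M ^ 2 := by
    simpa using Finset.sum_le_sum fun i (_ : i ∈ Finset.univ) =>
      show p i ^ 2 ≤ M ^ 2 from sq_le_sq' (abs_le.1 (hp i)).1 (abs_le.1 (hp i)).2
  have h3 := mul_le_mul_of_nonneg_right h2
    (Finset.sum_nonneg fun i (_ : i ∈ Finset.univ) => sq_nonneg (z i))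
  rw [e]
  exact ⟨by linarith [(h.2 z).1, sq_nonneg (∑ i, p i * z i)], by linarith [(h.2 z).2]⟩

theorem ell_smul {lo hi s : ℝ} {A : Matrix (Fin n) (Fin n) ℝ} (h : Ell lo hi A) (hs : 0 ≤ s) :
    Ell (s * lo) (s * hi) (s • A) := by
  refine ⟨fun i j => by simp [h.1 i j], fun z => ?_⟩
  have e : ∑ i, ∑ j, (s • A) i j * z i * z j = s * ∑ i, ∑ j, A i j * z i * z j := by
    simp only [Matrix.smul_apply, smul_eq_mul, Finset.mul_sum, mul_assoc]
  rw [e, mul_assoc, mul_assoc]
  exact ⟨mul_le_mul_of_nonneg_left (h.2 z).1 hs, mul_le_mul_of_nonneg_left (h.2 z).2 hs⟩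

section Pt

variable {g : MetricField n} {u : E n → ℝ} {U : Set (E n)} {x : E n}

theorem pd_comm {f : E n → ℝ} (hf : ContDiffAt ℝ 2 f x) (i j : Fin n) :
    pderiv i (pderiv j f) x = pderiv j (pderiv i f) x := by
  have hd : DifferentiableAt ℝ (fderiv ℝ f) x :=
    (hf.fderiv_right (m := 1) (by norm_num)).differentiableAt (by norm_num)
  have h1 : ∀ i j : Fin n, pderiv i (pderiv j f) x = fderiv ℝ (fderiv ℝ f) x
      (EuclideanSpace.single i 1) (EuclideanSpace.single j 1) := fun i j => by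
    change fderiv ℝ (fun y => fderiv ℝ f y (EuclideanSpace.single j 1)) x _ = _
    rw [fderiv_clm_apply hd (differentiableAt_const _)]
    simp
  rw [h1, h1, fderiv2_symm hf]

/-- the densitised field `√g X` -/
def flx (g : MetricField n) (u : E n → ℝ) (i : Fin n) (y : E n) : ℝ :=
  √(g y).det * wv g one u y i

theorem c_flx (hg : IsRiemannianOn g U) (hu : ContDiffOn ℝ ∞ u U) (hx : x ∈ U) (i : Fin n) :
    ContDiffAt ℝ ∞ (flx g u i) x :=
  (contDiffAt_sqrt_det hg hx).mul (contDiffAt_euclidean.1 ((jd hg hu).c_wv hx) i)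

theorem sum_flx (hg : IsRiemannianOn g U) (hx : x ∈ U) :
    ∑ i, pderiv i (flx g u i) x = √(g x).det * divg g (wv g one u) x := by
  have := Real.sqrt_pos.2 (det_pos hg hx)
  rw [divg, ← mul_assoc, mul_one_div_cancel this.ne', one_mul]; rfl

/-- the flux of the differentiated equation -/
def flF (g : MetricField n) (u : E n → ℝ) (k : Fin n) (y : E n) : E n :=
  WithLp.toLp 2 fun i => pderiv k (flx g u i) y - if i = k then ∑ j, pderiv j (flx g u j) y else 0

theorem c_flF (hg : IsRiemannianOn g U) (hu : ContDiffOn ℝ ∞ u U) (hx : x ∈ U) (k : Fin n) :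
    ContDiffAt ℝ ∞ (flF g u k) x := by
  refine contDiffAt_toLp fun i => (contDiffAt_pderiv (c_flx hg hu hx i) (by simp) k).sub ?_
  split_ifs
  · exact ContDiffAt.sum fun j _ => contDiffAt_pderiv (c_flx hg hu hx j) (by simp) j
  · exact contDiffAt_const

theorem dvg_flF (hg : IsRiemannianOn g U) (hu : ContDiffOn ℝ ∞ u U) (hx : x ∈ U) (k : Fin n) :
    dvg (flF g u k) x = 0 := by
  have d1 : ∀ i j, DifferentiableAt ℝ (pderiv j (flx g u i)) x := fun i j =>
    (contDiffAt_pderiv (m := ∞) (c_flx hg hu hx i) (by simp) j).differentiableAt (by simp)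
  have h1 : ∀ i, fderiv ℝ (fun y => flF g u k y i) x (EuclideanSpace.single i 1) =
      pderiv i (pderiv k (flx g u i)) x
        - if i = k then ∑ j, pderiv k (pderiv j (flx g u j)) x else 0 := by
    intro i
    simp only [flF]
    split_ifs with h
    · subst h
      rw [fderiv_fun_sub (d1 _ _) (DifferentiableAt.fun_sum fun j _ => d1 j j),
        fderiv_fun_sum fun j _ => d1 j j]
      simp only [sub_apply, sum_apply]; rfl
    · simp only [sub_zero]; rfl
  simp only [dvg, h1, Finset.sum_sub_distrib, Finset.sum_ite_eq', Finset.mem_univ, if_true]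
  rw [sub_eq_zero]
  exact Finset.sum_congr rfl fun i _ => pd_comm ((c_flx hg hu hx i).of_le (by norm_cast)) i k

/-- the bounded part of the flux -/
def flR (g : MetricField n) (u : E n → ℝ) (k : Fin n) (y : E n) (i : Fin n) : ℝ :=
  pderiv k (fun z => √(g z).det) y * wv g one u y i
    - √(g y).det * ((cW g u y)⁻¹ * ∑ j, inverseField (N346.Id.gb g one u) y i j *
        ∑ l, christoffel g y l j k * d1 u y l
      + ∑ j, christoffel g y i k j * wv g one u y j)
    - if i = k then √(g y).det * H0 g one u y else 0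

theorem flF_eq (hg : IsRiemannianOn g U) (hu : ContDiffOn ℝ ∞ u U) (hx : x ∈ U) (k : Fin n) :
    flF g u k x = mv ((√(g x).det * (cW g u x)⁻¹) • jA (g x) (d1 u x)) (∇ (pderiv k u) x)
      + WithLp.toLp 2 (flR g u k x) := by
  have hd := jd hg hu
  have dw := ((hd.c_wv hx).differentiableAt (by simp)).hasFDerivAt
  ext i
  have dwi := (EuclideanSpace.proj i : E n →L[ℝ] ℝ).hasFDerivAt.comp x dw
  have ds := ((contDiffAt_sqrt_det hg hx).differentiableAt (by simp)).hasFDerivAt
  have h1 : pderiv k (flx g u i) x = √(g x).det * fderiv ℝ (wv g one u) x (ee k) i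
      + wv g one u x i * pderiv k (fun z => √(g z).det) x :=
    congrArg (fun L : E n →L[ℝ] ℝ => L (ee k)) (ds.mul dwi).fderiv
  have h2 : fderiv ℝ (wv g one u) x (ee k) i =
      (cW g u x)⁻¹ * ∑ j, inverseField (N346.Id.gb g one u) x i j *
        (d2 u x j k - ∑ l, christoffel g x l j k * d1 u x l)
      - ∑ j, christoffel g x i k j * wv g one u x j := by
    have h3 := congrArg (fun L : E n →L[ℝ] E n => L (ee k) i) (hd.cov_wv hx)
    simp only [cov_apply, Vv_one, sub_apply, ContinuousLinearMap.smulRight_apply, smul_zero,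
      sub_zero, PiLp.add_apply, Gam_apply, shp, mat_ee, Matrix.mul_apply] at h3
    have h4 : ∑ a, ∑ j, christoffel g x i a j * (ee k : E n) a * wv g one u x j =
        ∑ j, christoffel g x i k j * wv g one u x j := by
      rw [Finset.sum_eq_single k (fun a _ ha => by simp [ee, ha]) (by simp)]
      simp [ee]
    rw [h4] at h3
    rw [eq_sub_iff_add_eq, h3, Finset.mul_sum]
    refine Finset.sum_congr rfl fun j _ => ?_
    rw [← hessM_eq g (hd.cf2 hx), hh, Matrix.of_apply, gm_one, inverseField]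
    simp only [pderiv, fderiv_fun_const, Pi.zero_apply, zero_apply]
    ring
  simp only [flF, flR, mv, PiLp.add_apply, Matrix.smul_apply, smul_eq_mul,
    NLib.Ell.gradient_apply]
  rw [h1, h2, sum_flx hg hx, hd.divg_wv hx, aa_one, mul_zero, sub_zero, ← inv_gb_one]
  simp only [mul_sub, Finset.sum_sub_distrib, mul_assoc, ← Finset.mul_sum]
  have : ∀ j, fderiv ℝ (pderiv k u) x (EuclideanSpace.single j 1) = d2 u x j k := fun j => rfl
  simp only [this]
  ring

end Pt

namespace Fam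

variable {ι P : Type} [NormedAddCommGroup P] [NormedSpace ℝ P] {Φ : P × ℝ × ℝ → ℝ} {I : Set ℝ}
  {K : Set P} {a b lo hi r : ℝ} {x0 : ι → E n} {γ : ι → MetricField n}
  {β : ι → E n → Fin n → ℝ} {c : ι → E n → P} {u : ι → E n → ℝ}

theorem bd_d1 (h : Fam Φ K a b lo hi r x0 γ β c u) {C : ℝ}
    (hC : ∀ i, ∀ x ∈ ball (x0 i) r, cW (γ i) (u i) x ≤ C) (j : Fin n) :
    Bd (Bl x0 r) fun i x => d1 (u i) x j := by
  have hW : Bd (Bl x0 r) fun i x => cW (γ i) (u i) x := Bd.of_le (C := C) fun i x hx => by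
    rw [Real.norm_eq_abs, abs_of_pos (cW_pos (h.riem i) hx _)]; exact hC i x hx
  refine (hW.mul (Bd.sum fun l => (h.lkg 0 l j).bd.mul (h.bd_wv.coord l))).congr fun i x hx => ?_
  have h1 := (h.jd' i).phi_df hx (ee j)
  rw [one_mul, gm_one, bil_apply] at h1
  refine h1.trans ?_
  congr 1
  refine Finset.sum_congr rfl fun l _ => ?_
  rw [Finset.sum_eq_single j (fun a _ ha => by simp [ee, ha]) (by simp)]
  simp [ee]

theorem ell_jA (h : Fam Φ K a b lo hi r x0 γ β c u)
    (hd : ∀ j, Bd (Bl x0 r) fun i x => d1 (u i) x j) : ∃ H, lo ≤ H ∧ ∀ i, ∀ x ∈ ball (x0 i) r,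
      Ell lo H (γ i x + Matrix.vecMulVec (d1 (u i) x) (d1 (u i) x)) ∧
      Ell (1 / H) (1 / lo) (jA (γ i x) (d1 (u i) x)) := by
  choose M _ hM using hd
  obtain ⟨B, hB⟩ := (Set.finite_range M).bddAbove
  refine ⟨max lo (hi + n * B ^ 2), le_max_left _ _, fun i x hx => ?_⟩
  have h1 := (ell_add_outer (h.ell i x hx) fun j => (hM j i x hx).trans (hB ⟨j, rfl⟩)).sm_mono
    le_rfl (le_max_right lo _)
  exact ⟨h1, h1.sm_inv h.lo_pos (le_max_left _ _)⟩

end Fam

theorem hol (h0 : Hol0Stmt) : HolStmt := by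
  intro n ι P _ _ _ Φ I K a b lo hi r x0 g β c u hΦ hK hab h ⟨C, hC⟩
  have hlo := h.lo_pos
  have bd := h.bd_d1 hC
  obtain ⟨H, hH, hA⟩ := h.ell_jA bd
  obtain ⟨c0, hc0, hdet⟩ := LK.det_ge hlo (h.lkg 0) h.ell
  have ls := LK.sqrt_det one_pos le_rfl hlo (h.lkg 1) h.ell
  have bw := h.bd_wv
  have bR : ∀ k j, Bd (Bl x0 r) fun i x => flR (g i) (u i) k x j := fun k j => by
    refine (((ls.pd k).bd.mul (bw.coord j)).sub (ls.bd.mul ((h.bd_om.mul (Bd.sum fun l =>
      (h.bd_invb j l).mul (Bd.sum fun m => (h.bd_chris m l k).mul (bd m)))).add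
      (Bd.sum fun l => (h.bd_chris j k l).mul (bw.coord l))))).sub ?_
    split_ifs
    · exact ls.bd.mul (h.bd_H0 hΦ hK hab)
    · exact Bd.const _
  have bR' : Bd (Bl x0 r) fun i x => ∑ k, ∑ j, ‖flR (g i) (u i) k x j‖ :=
    Bd.sum fun k => Bd.sum fun j => (bR k j).mono fun _ _ _ => (norm_norm _).le
  obtain ⟨R, hR0, hR⟩ := bR'
  have hR' : ∀ i, ∀ x ∈ ball (x0 i) r, ∀ k,
      ‖(WithLp.toLp 2 (flR (g i) (u i) k x) : E n)‖ ≤ R := fun i x hx k => by
    refine le_trans ?_ ((le_abs_self _).trans (hR i x hx))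
    refine le_trans ?_ (Finset.single_le_sum (f := fun k => ∑ j, ‖flR (g i) (u i) k x j‖)
      (fun k _ => Finset.sum_nonneg fun j _ => norm_nonneg _) (Finset.mem_univ k))
    rw [EuclideanSpace.norm_eq, Real.sqrt_le_left (Finset.sum_nonneg fun j _ => norm_nonneg _)]
    exact Finset.sum_sq_le_sq_sum_of_nonneg fun j _ => norm_nonneg _
  obtain ⟨S, hS0, hS⟩ := ls.bd
  obtain ⟨D, hD0, hD⟩ := (Bd.sum fun k => (bd k).mono (w := fun i x => |d1 (u i) x k|)
    fun _ _ _ => (abs_abs _).le)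
  have hD' : ∀ i, ∀ x ∈ ball (x0 i) r, ∀ k, |pderiv k (u i) x| ≤ D := fun i x hx k =>
    (Finset.single_le_sum (f := fun k => |d1 (u i) x k|) (fun k _ => abs_nonneg _)
      (Finset.mem_univ k)).trans ((le_abs_self _).trans (hD i x hx))
  set C' := max C 1
  have hC' : 0 < C' := one_pos.trans_le (le_max_right _ _)
  have hH0 : 0 < H := hlo.trans_le hH
  set l1 := √c0 * C'⁻¹ * (1 / H)
  have hl1 : 0 < l1 := by positivity
  set L := (S + 1) * (1 / lo) + R + R ^ 2 / (2 * l1) + D
  have hEll : ∀ i, ∀ x ∈ ball (x0 i) r, Ell l1 ((S + 1) * (1 / lo))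
      ((√(g i x).det * (cW (g i) (u i) x)⁻¹) • jA (g i x) (d1 (u i) x)) := fun i x hx => by
    have h1 := cW_inv_mem (h.riem i) hx (u i)
    have h2 : C'⁻¹ ≤ (cW (g i) (u i) x)⁻¹ :=
      inv_anti₀ (cW_pos (h.riem i) hx _) ((hC i x hx).trans (le_max_left _ _))
    have h3 := (le_abs_self _).trans (hS i x hx)
    refine (ell_smul (hA i x hx).2 (mul_nonneg (Real.sqrt_nonneg _) h1.1)).sm_mono ?_ ?_
    · have := Real.sqrt_le_sqrt (hdet i x hx)
      simp only [l1]; gcongr
    · refine mul_le_mul_of_nonneg_right ?_ (by positivity)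
      nlinarith [mul_le_mul_of_nonneg_left h1.2 (Real.sqrt_nonneg (g i x).det)]
  obtain ⟨α, M, hα, hα1, HH⟩ := h0 n (l1 / 2) L r (by positivity) h.r_pos
  have k1 : 0 ≤ (S + 1) * (1 / lo) := by positivity
  have k2 : 0 ≤ R ^ 2 / (2 * l1) := by positivity
  have key : ∀ i k, HO α M (ball (x0 i) (r / 2)) (pderiv k (u i)) := fun i k => by
    refine HH (x0 i) _ (flF (g i) (u i) k) (fun x hx => ((contDiffAt_pderiv (m := ∞)
        ((h.jd' i).cf hx) (by simp) k).of_le (by norm_cast)).contDiffWithinAt)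
      (fun x hx => ((c_flF (h.riem i) (h.us i) hx k).of_le (by norm_cast)).contDiffWithinAt)
      (fun x hx => (hD' i x hx k).trans (by simp only [L]; linarith)) (fun x hx => ?_)
      (fun x hx => ?_) fun x hx => dvg_flF (h.riem i) (h.us i) hx k
    · rw [flF_eq (h.riem i) (h.us i) hx, inner_add_left]
      have h1 := NLib.Ell.low_mv (hEll i x hx) (∇ (pderiv k (u i)) x)
      have h2 := (neg_le_neg ((abs_real_inner_le_norm (WithLp.toLp 2 (flR (g i) (u i) k x) : E n)
        (∇ (pderiv k (u i)) x)).trans (mul_le_mul_of_nonneg_right (hR' i x hx k)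
          (norm_nonneg _)))).trans (neg_abs_le _)
      have h3 : R * ‖∇ (pderiv k (u i)) x‖ ≤ l1 / 2 * ‖∇ (pderiv k (u i)) x‖ ^ 2
          + R ^ 2 / (2 * l1) := by
        have : 0 ≤ (l1 * ‖∇ (pderiv k (u i)) x‖ - R) ^ 2 / (2 * l1) := by positivity
        refine le_of_sub_nonneg (this.trans_eq ?_)
        field_simp; ring
      simp only [L]; linarith
    · rw [flF_eq (h.riem i) (h.us i) hx]
      have h1 := NLib.Ell.up_mv (hEll i x hx) hl1.le (by positivity) (∇ (pderiv k (u i)) x)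
      refine (norm_add_le _ _).trans (add_le_add (h1.trans ?_) ((hR' i x hx k).trans ?_))
      · exact mul_le_mul_of_nonneg_right (by simp only [L]; linarith) (norm_nonneg _)
      · simp only [L]; linarith
  obtain ⟨C0, -, hdict⟩ := NLib.Ell.ckaDict n 0 α hα hα1.le
  have hsub : ∀ i, ball (x0 i) (r / 2) ⊆ ball (x0 i) r := fun i =>
    ball_subset_ball (half_le_self h.r_pos.le)
  have key0 : ∀ i, HO α (C0 * max (max |a| |b|) (n * D)) (ball (x0 i) (r / 2)) (u i) := fun i => by
    refine (hdict ℝ _ (u i) _ isOpen_ball).2.2 (convex_ball _ _)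
      (((h.us i).mono (hsub i)).of_le (by exact_mod_cast le_top)) fun j hj x hx => ?_
    interval_cases j
    · rw [norm_iteratedFDeriv_zero]
      exact (abs_le_max_abs_abs (h.uI i x (hsub i hx)).1 (h.uI i x (hsub i hx)).2).trans
        (le_max_left _ _)
    · rw [norm_iteratedFDeriv_one]
      refine le_trans ?_ (le_max_right _ _)
      refine ContinuousLinearMap.opNorm_le_bound _ (by positivity) fun Y => ?_
      rw [clm_eq_sum]
      refine (norm_sum_le _ _).trans ((Finset.sum_le_sum (g := fun _ => D * ‖Y‖)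
        fun k _ => ?_).trans (by simp [mul_assoc]))
      rw [norm_mul, mul_comm]
      exact mul_le_mul (hD' i x (hsub i hx) k) (PiLp.norm_apply_le Y k) (norm_nonneg _) hD0
  exact ⟨α, hα, hα1, max M (C0 * max (max |a| |b|) (n * D)), fun i =>
    ⟨(key0 i).mono (le_max_right _ _), ((h.us i).mono (hsub i)).differentiableOn (by simp),
      fun k => (key i k).mono (le_max_left _ _)⟩⟩

theorem up (hB : BootStmt) : UpStmt := by
  intro n ι P _ _ _ Φ I K a b lo hi r x0 g β c u hΦ hK hab h α hα hα1 hu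
  have hlo := h.lo_pos
  obtain ⟨H, hH, hA⟩ := h.ell_jA fun j => (hu.pd j).bd
  refine hB n ι α (1 / H) (1 / lo) r x0 (fun i x => jA (g i x) (d1 (u i) x)) u
    (fun i x => cW (g i) (u i) x * Φ (c i x, u i x, (cW (g i) (u i) x)⁻¹)
      - ∑ j, β i x j * ∑ l, (g i x)⁻¹ j l * d1 (u i) x l
      + ∑ j, ∑ l, jA (g i x) (d1 (u i) x) j l * ∑ k, christoffel (g i) x k j l * d1 (u i) x k)
    hα hα1 (one_div_pos.2 (hlo.trans_le hH)) h.r_pos h.us (fun i x hx => (hA i x hx).2)
    (fun i x hx => ?_) (fun k s _ hs hk => ?_) hu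
  · rw [← h.eq i x hx, nd n _ _ _ _ (h.riem i) (h.us i) x hx, jQ, ← cW_eq,
      mul_div_cancel₀ _ (cW_pos (h.riem i) hx _).ne']
    simp only [mul_sub, Finset.sum_sub_distrib]
    ring
  · have sb : ∀ i, ball (x0 i) s ⊆ ball (x0 i) r := fun i => ball_subset_ball hs
    have lg : ∀ m j l, LK α (Bl x0 s) m fun i x => g i x j l := fun m j l =>
      ((h.gb j l).shrink hs).lk hα hα1.le m
    have he : ∀ i, ∀ x ∈ ball (x0 i) s, Ell lo hi (g i x) := fun i x hx => h.ell i x (sb i hx)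
    have lp : ∀ j, LK α (Bl x0 s) k fun i x => d1 (u i) x j := fun j => hk.pd j
    have li := LK.matInv hα hα1.le hlo (lg k) he
    have lA : ∀ j l, LK α (Bl x0 s) k fun i x => jA (g i x) (d1 (u i) x) j l :=
      LK.matInv (A := fun i x => g i x + Matrix.vecMulVec (d1 (u i) x) (d1 (u i) x)) hα hα1.le hlo
        (fun j l => (lg k j l).add ((lp j).mul (lp l))) fun i x hx => (hA i x (sb i hx)).1
    have lW : LK α (Bl x0 s) k fun i x => cW (g i) (u i) x :=
      LK.sqrt (u := fun i x => 1 + gam (g i) (u i) (u i) x) hα hα1.le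
        ((LK.const 1).add (LK.sum fun j => LK.sum fun l => ((li j l).mul (lp j)).mul (lp l)))
        one_pos fun i x hx => le_add_of_nonneg_right (gam_self_nonneg (h.riem i) (sb i hx) _)
    have lo' := lW.inv hα hα1.le one_pos fun i x hx => one_le_cW (h.riem i) (sb i hx) _
    have lΦ := LK.comp hα hα1.le hΦ.isOpen' (hK.prod (isCompact_Icc.prod isCompact_Icc))
      (fun z hz => ⟨mem_univ _, hab hz.2.1, mem_univ _⟩) hΦ.sm
      (((h.cb.shrink hs).lk hα hα1.le k).prodMk (hk.pred.prodMk lo'))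
      fun i x hx => h.state i x (sb i hx)
    exact ⟨lA, ((lW.mul lΦ).sub (LK.sum fun j => (((h.βb.shrink hs).lk hα hα1.le k).apply j).mul
      (LK.sum fun l => (li j l).mul (lp l)))).add (LK.sum fun j => LK.sum fun l => (lA j l).mul
        (LK.sum fun m => (LK.chris hα hα1.le hlo (lg (k + 1)) he m j l).mul (lp m)))⟩

theorem est (hG : GradStmt) (hH : HolStmt) (hU : UpStmt) : EstStmt := by
  intro n ι P _ _ _ Φ I K a b lo hi r x0 g β c u hΦ hK hab h
  have hr := h.r_pos
  have h1 := h.recentre (κ := Σ i : ι, ball (x0 i) (r / 2)) (fun j => j.1) (y0 := fun j => j.2)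
    (half_pos hr) fun j => ball_subset_ball' (by linarith [mem_ball.1 j.2.2])
  have h2 := h1.recentre id (s := r / 2 / 2) (by positivity)
    fun j => ball_subset_ball (by linarith)
  have h3 := h1.recentre id (s := r / 2 / 2 / 2) (by positivity)
    fun j => ball_subset_ball (by linarith)
  obtain ⟨α, hα, hα1, hL⟩ := hH n _ P Φ I K a b lo hi _ _ _ _ _ _ hΦ hK hab h2
    (hG n _ P Φ I K a b lo hi _ _ _ _ _ _ hΦ hK hab h1)
  refine ⟨fun i => (h.us i).mono (ball_subset_ball (by linarith)), fun k => ?_⟩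
  obtain ⟨C, hC⟩ := hU n _ P Φ I K a b lo hi _ _ _ _ _ _ hΦ hK hab h3 α hα hα1 hL k
  exact ⟨C, fun i x hx => hC ⟨i, x, hx⟩⟩

end Crest.Agent.N222.J
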