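import Crest.Agent.N222.J.Defs

/-! # Row 222, toolbox J: the De Giorgi-Nash Hölder estimate (helper64) -/

set_option autoImplicit false

open Set Filter Topology Metric MeasureTheory
open scoped ContDiff RealInnerProductSpace Gradient
open Crest.Agent.R273.SchA_152 (HO)
open Crest.Agent.NLib.Ell

noncomputable section

namespace Crest.Agent.N222.J

namespace H0

variable {n : ℕ}

/-- the statement in one dimension -/
def Hol (n : ℕ) : Prop := ∀ (lam Lam r : ℝ), 0 < lam → 0 < r → ∃ α C : ℝ, 0 < α ∧ α < 1 ∧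
  ∀ (x0 : E n) (w : E n → ℝ) (F : E n → E n), ContDiffOn ℝ 1 w (ball x0 r) →
    ContDiffOn ℝ 1 F (ball x0 r) → (∀ x ∈ ball x0 r, |w x| ≤ Lam) →
    (∀ x ∈ ball x0 r, lam * ‖∇ w x‖ ^ 2 - Lam ≤ ⟪F x, ∇ w x⟫) →
    (∀ x ∈ ball x0 r, ‖F x‖ ≤ Lam * ‖∇ w x‖ + Lam) → (∀ x ∈ ball x0 r, dvg F x = 0) →
    HO α C (ball x0 (r / 2)) w

theorem sub_of {lam Lam : ℝ} {U : Set (E n)} (hU : IsOpen U) {w : E n → ℝ} {F : E n → E n}
    (hw : ContDiffOn ℝ 1 w U) (hF : ContDiffOn ℝ 1 F U)
    (low : ∀ x ∈ U, lam * ‖∇ w x‖ ^ 2 - Lam ≤ ⟪F x, ∇ w x⟫)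
    (up : ∀ x ∈ U, ‖F x‖ ≤ Lam * ‖∇ w x‖ + Lam) (hd : ∀ x ∈ U, dvg F x = 0) :
    Sub lam Lam (|Lam| + 1) 0 U w (fun _ => 1) F where
  cu := hw
  cm := continuousOn_const
  cF := hF.continuousOn
  m0 _ _ := zero_le_one
  low x hx := by nlinarith [low x hx, le_abs_self Lam, abs_nonneg Lam]
  up x hx := by linarith [up x hx, le_abs_self Lam]
  weak φ hφ := by
    have := weak_of_div_le hU hF (G := fun _ => |Lam| + 1) continuousOn_const
      (fun x hx => by rw [hd x hx, neg_zero]; positivity) hφ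
    simpa using this

/-- the values of `w` on a ball lie in an interval of length `os` -/
def Osc (w : E n → ℝ) (y : E n) (ρ os : ℝ) : Prop := ∃ m, ∀ x ∈ ball y ρ, m ≤ w x ∧ w x ≤ m + os

theorem Osc.mono {w : E n → ℝ} {y : E n} {ρ os os' : ℝ} (h : Osc w y ρ os) (h' : os ≤ os') :
    Osc w y ρ os' := by
  obtain ⟨m, hm⟩ := h
  exact ⟨m, fun x hx => ⟨(hm x hx).1, by linarith [(hm x hx).2]⟩⟩

theorem Osc.norm_le {w : E n → ℝ} {y x : E n} {ρ os : ℝ} (h : Osc w y ρ os) (hx : x ∈ ball y ρ) :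
    ‖w x - w y‖ ≤ os := by
  obtain ⟨m, hm⟩ := h
  have h1 := hm x hx
  have h2 := hm y (mem_ball_self (pos_of_mem_ball hx))
  rw [Real.norm_eq_abs, abs_le]
  constructor <;> linarith [h1.1, h1.2, h2.1, h2.2]

/-- decay of the oscillation -/
theorem decay (hn : 3 ≤ n) {lam : ℝ} (hlam : 0 < lam) (Lam : ℝ) {a : ℝ} (ha : 0 ≤ a) :
    ∃ γ : ℝ, 1 / 2 ≤ γ ∧ γ < 1 ∧ ∀ (w : E n → ℝ) (F : E n → E n) (y : E n) (ρ os : ℝ), 0 < ρ →
      ρ ≤ 1 → Sub lam Lam a 0 (ball y (4 * ρ)) w (fun _ => 1) F →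
      Sub lam Lam a 0 (ball y (4 * ρ)) (fun x => -w x) (fun _ => 1) (fun x => -F x) →
      Osc w y (4 * ρ) os → Osc w y ρ (γ * os + ρ) := by
  have hv : 0 < volume.real (ball (0 : E n) 2) :=
    ENNReal.toReal_pos (measure_ball_pos _ _ two_pos).ne' measure_ball_lt_top.ne
  obtain ⟨c, hc, hc1, H⟩ := growth hn hlam Lam ha le_rfl (half_pos hv)
  refine ⟨1 - c / 2, by linarith, by linarith, fun w F y ρ os hρ hρ1 h1 h2 ⟨m, hm⟩ => ?_⟩
  have hvol : volume.real (ball (0 : E n) 2) * ρ ^ n = volume.real (ball y (2 * ρ)) := by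
    have := volume_aff y hρ (S := ball y (2 * ρ)) measurableSet_ball
    rw [preimage_aff_ball y hρ] at this
    rw [this]; field_simp
  have hfin : ∀ S : Set (E n), volume (ball y (2 * ρ) ∩ S) ≠ ⊤ := fun S =>
    ((measure_mono inter_subset_left).trans_lt measure_ball_lt_top).ne
  have hcov : volume.real (ball y (2 * ρ)) ≤
      volume.real (ball y (2 * ρ) ∩ {x | os / 2 ≤ w x - m}) +
        volume.real (ball y (2 * ρ) ∩ {x | os / 2 ≤ m + os - w x}) := by
    refine (measureReal_mono (fun x hx => ?_) (measure_union_ne_top (hfin _) (hfin _))).trans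
      (measureReal_union_le _ _)
    rcases le_total (os / 2) (w x - m) with h | h
    · exact Or.inl ⟨hx, h⟩
    · exact Or.inr ⟨hx, by change os / 2 ≤ m + os - w x; linarith⟩
  have hsub : ball y ρ ⊆ ball y (4 * ρ) := ball_subset_ball (by linarith)
  rcases le_total (volume.real (ball (0 : E n) 2) / 2 * ρ ^ n)
    (volume.real (ball y (2 * ρ) ∩ {x | os / 2 ≤ w x - m})) with h | h
  · have h3 : Sup lam Lam a 0 (ball y (4 * ρ)) (fun x => w x - m) (fun _ => 1) F := by
      have e : (fun x => -(w x - m)) = fun x => -w x + m := funext fun x => by ring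
      rw [Sup, e]; exact h2.add_const m
    have h4 := H _ _ F y ρ 1 (os / 2) hρ hρ1 h3 zero_le_one
      (fun x hx => by linarith [(hm x hx).1]) (fun x hx => by linarith [(hm x hx).1]) h
    exact ⟨m + c * (os / 2) - ρ, fun x hx =>
      ⟨by linarith [h4 x hx], by linarith [(hm x (hsub hx)).2]⟩⟩
  · have h3 : Sup lam Lam a 0 (ball y (4 * ρ)) (fun x => m + os - w x) (fun _ => 1)
        (fun x => -F x) := by
      have e : (fun x => -(m + os - w x)) = fun x => w x + -(m + os) := funext fun x => by ring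
      rw [Sup, e]
      simpa only [neg_neg] using h1.add_const (-(m + os))
    have h4 := H _ _ _ y ρ 1 (os / 2) hρ hρ1 h3 zero_le_one
      (fun x hx => by linarith [(hm x hx).2]) (fun x hx => by linarith [(hm x hx).2])
      (by linarith)
    exact ⟨m, fun x hx => ⟨(hm x (hsub hx)).1, by linarith [h4 x hx]⟩⟩

theorem hol_of_three_le (hn : 3 ≤ n) : Hol n := by
  intro lam Lam r hlam hr
  obtain ⟨γ, hγ, hγ1, H⟩ := decay hn hlam Lam (a := |Lam| + 1) (by positivity)
  have hγ0 : 0 < γ := by linarith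
  set R := min (r / 2) 1 with hR
  have hR0 : 0 < R := lt_min (half_pos hr) one_pos
  have hR1 : R ≤ 1 := min_le_right _ _
  set α := Real.logb (1 / 4) γ with hα
  have hα0 : 0 < α := Real.logb_pos_of_base_lt_one (by norm_num) (by norm_num) hγ0 hγ1
  have hα1 : α < 1 := (Real.logb_lt_iff_lt_rpow_of_base_lt_one (by norm_num) (by norm_num) hγ0).2
    (by rw [Real.rpow_one]; linarith)
  have hαγ : (1 / 4 : ℝ) ^ α = γ := Real.rpow_logb (by norm_num) (by norm_num) hγ0
  set K := 2 * |Lam| + 1 with hK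
  have hK0 : 0 < K := by positivity
  have hP : 1 ≤ (2 / R) ^ α := Real.one_le_rpow (by rw [le_div_iff₀ hR0]; linarith) hα0.le
  refine ⟨α, 2 * K * (2 / R) ^ α, hα0, hα1, fun x0 w F hw hF hb low up hd => ?_⟩
  have hsub : ball x0 (r / 2) ⊆ ball x0 r := ball_subset_ball (by linarith)
  have S1 := sub_of isOpen_ball hw hF low up hd
  have S2 := sub_of (lam := lam) (Lam := Lam) isOpen_ball hw.neg hF.neg
    (fun x hx => by rw [gradient_neg, norm_neg, inner_neg_neg]; exact low x hx)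
    (fun x hx => by rw [gradient_neg, norm_neg, norm_neg]; exact up x hx)
    (fun x hx => by rw [dvg_neg, hd x hx, neg_zero])
  refine ⟨fun x hx => ?_, fun x hx y hy => ?_⟩
  · have := hb x (hsub hx)
    rw [Real.norm_eq_abs]
    nlinarith [le_abs_self Lam, abs_nonneg Lam]
  have hB : ball y R ⊆ ball x0 r := ball_subset_ball' (by
    have := min_le_left (r / 2) 1
    linarith [mem_ball.1 hy])
  have it : ∀ j : ℕ, Osc w y (R * (1 / 4) ^ j) (K * γ ^ j - (1 / 4) ^ j) := fun j => by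
    induction j with
    | zero =>
      refine ⟨-|Lam|, fun z hz => ?_⟩
      have h1 := abs_le.1 ((hb z (hB (by simpa using hz))).trans (le_abs_self Lam))
      constructor
      · exact h1.1
      · simp only [pow_zero]; linarith [h1.2]
    | succ j ih =>
      have h0 : (0 : ℝ) < (1 / 4) ^ j := by positivity
      have h1 : ((1 : ℝ) / 4) ^ j ≤ 1 := pow_le_one₀ (by norm_num) (by norm_num)
      have e : 4 * (R * (1 / 4) ^ (j + 1)) = R * (1 / 4) ^ j := by ring
      have h2 : ball y (4 * (R * (1 / 4) ^ (j + 1))) ⊆ ball x0 r :=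
        (ball_subset_ball (by rw [e]; nlinarith)).trans hB
      refine (H w F y (R * (1 / 4) ^ (j + 1)) _ (by positivity) (by nlinarith) (S1.restrict h2)
        (S2.restrict h2) (e ▸ ih)).mono ?_
      rw [pow_succ, pow_succ]
      nlinarith [mul_le_mul_of_nonneg_right hγ h0.le, mul_le_mul_of_nonneg_right hR1 h0.le]
  have e : 2 * K * (2 / R) ^ α * ‖x - y‖ ^ α = 2 * K * (2 * ‖x - y‖ / R) ^ α := by
    rw [mul_assoc, ← Real.mul_rpow (by positivity) (norm_nonneg _)]
    congr 2; ring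
  rw [e]
  rcases (norm_nonneg (x - y)).eq_or_lt with h0 | h0
  · rw [norm_sub_eq_zero_iff.1 h0.symm, sub_self, norm_zero]
    positivity
  rcases le_total (2 * ‖x - y‖ / R) 1 with h1 | h1
  · obtain ⟨j, h2, h3⟩ := exists_nat_pow_near_of_lt_one (x := 2 * ‖x - y‖ / R) (y := 1 / 4)
      (by positivity) h1 (by norm_num) (by norm_num)
    have h4 : x ∈ ball y (R * (1 / 4) ^ j) := by
      rw [div_le_iff₀ hR0] at h3
      rw [mem_ball_iff_norm]; linarith
    have h5 : γ ^ (j + 1) ≤ (2 * ‖x - y‖ / R) ^ α := by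
      rw [← hαγ, Real.rpow_pow_comm (by norm_num)]
      exact Real.rpow_le_rpow (by positivity) h2.le hα0.le
    have h6 : γ ^ j ≤ 2 * γ ^ (j + 1) := by
      rw [pow_succ]; nlinarith [pow_pos hγ0 j]
    have h7 : (0 : ℝ) < (1 / 4) ^ j := by positivity
    nlinarith [(it j).norm_le h4]
  · have h2 := Real.one_le_rpow h1 hα0.le
    have h3 := abs_le.1 (hb x (hsub hx))
    have h4 := abs_le.1 (hb y (hsub hy))
    have h5 : ‖w x - w y‖ ≤ K := by
      rw [Real.norm_eq_abs, abs_le]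
      constructor <;> linarith [h3.1, h3.2, h4.1, h4.2, le_abs_self Lam]
    nlinarith

/-! ### a dummy variable -/

/-- forget the first coordinate -/
def pr (n : ℕ) : E (n + 1) →L[ℝ] E n :=
  LinearMap.toContinuousLinearMap
    { toFun := fun z => WithLp.toLp 2 fun i => z i.succ
      map_add' := fun _ _ => rfl
      map_smul' := fun _ _ => rfl }

/-- extend by zero -/
def io (n : ℕ) : E n →L[ℝ] E (n + 1) :=
  LinearMap.toContinuousLinearMap
    { toFun := fun z => WithLp.toLp 2 (Fin.cons 0 z.ofLp)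
      map_add' := fun _ _ => by
        ext i; exact Fin.cases (add_zero (0 : ℝ)).symm (fun _ => rfl) i
      map_smul' := fun c _ => by
        ext i; exact Fin.cases (mul_zero c).symm (fun _ => rfl) i }

theorem pr_apply (z : E (n + 1)) (i : Fin n) : pr n z i = z i.succ := rfl
theorem io_zero (z : E n) : io n z 0 = 0 := rfl
theorem io_succ (z : E n) (i : Fin n) : io n z i.succ = z i := rfl
theorem pr_io (z : E n) : pr n (io n z) = z := rfl

theorem inner_io (v : E n) (z : E (n + 1)) : ⟪io n v, z⟫ = ⟪v, pr n z⟫ := by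
  rw [inner_eq_sum, inner_eq_sum, Fin.sum_univ_succ, io_zero, zero_mul, zero_add]
  rfl

theorem norm_io (v : E n) : ‖io n v‖ = ‖v‖ := by
  rw [← sq_eq_sq₀ (norm_nonneg _) (norm_nonneg _), ← real_inner_self_eq_norm_sq, inner_io, pr_io,
    real_inner_self_eq_norm_sq]

theorem norm_pr_le (z : E (n + 1)) : ‖pr n z‖ ≤ ‖z‖ := by
  refine le_of_sq_le_sq ?_ (norm_nonneg _)
  rw [norm_sq_eq_sum, norm_sq_eq_sum, Fin.sum_univ_succ]
  exact le_add_of_nonneg_left (sq_nonneg _)

theorem inner_gradient (w : E n → ℝ) (x h : E n) : ⟪∇ w x, h⟫ = fderiv ℝ w x h :=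
  InnerProductSpace.toDual_symm_apply

theorem gradient_pr {w : E n → ℝ} {z : E (n + 1)} (hw : DifferentiableAt ℝ w (pr n z)) :
    ∇ (fun z => w (pr n z)) z = io n (∇ w (pr n z)) := by
  refine ext_inner_right ℝ fun h => ?_
  rw [inner_io, inner_gradient, inner_gradient]
  exact congrArg (fun T : E (n + 1) →L[ℝ] ℝ => T h)
    (hw.hasFDerivAt.comp z (pr n).hasFDerivAt).fderiv

theorem dvg_pr {F : E n → E n} {z : E (n + 1)} (hF : DifferentiableAt ℝ F (pr n z)) :
    dvg (fun z => io n (F (pr n z))) z = dvg F (pr n z) := by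
  rw [dvg, dvg, Fin.sum_univ_succ]
  simp only [io_zero, io_succ, fderiv_fun_const, Pi.zero_apply, zero_apply,
    zero_add]
  refine Finset.sum_congr rfl fun i _ => ?_
  have h1 := ((differentiableAt_euclidean.1 hF i).hasFDerivAt.comp z (pr n).hasFDerivAt).fderiv
  have h2 : pr n (EuclideanSpace.single i.succ 1) = EuclideanSpace.single i 1 := by
    ext k; simp [pr_apply]
  rw [← h2]
  exact congrArg (fun T : E (n + 1) →L[ℝ] ℝ => T (EuclideanSpace.single i.succ 1)) h1

theorem Hol.down (h : Hol (n + 1)) : Hol n := by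
  intro lam Lam r hlam hr
  obtain ⟨α, C, h0, h1, H⟩ := h lam Lam r hlam hr
  refine ⟨α, C, h0, h1, fun x0 w F hw hF hb low up hd => ?_⟩
  have hm : ∀ z ∈ ball (io n x0) r, pr n z ∈ ball x0 r := fun z hz => by
    rw [mem_ball_iff_norm] at hz ⊢
    have := norm_pr_le (z - io n x0)
    rw [map_sub, pr_io] at this
    linarith
  have hg : ∀ z ∈ ball (io n x0) r, ∇ (fun z => w (pr n z)) z = io n (∇ w (pr n z)) :=
    fun z hz => gradient_pr (diffAt isOpen_ball hw (hm z hz))
  have h2 := H (io n x0) (fun z => w (pr n z)) (fun z => io n (F (pr n z)))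
    (hw.comp (pr n).contDiff.contDiffOn hm)
    ((io n).contDiff.comp_contDiffOn (hF.comp (pr n).contDiff.contDiffOn hm))
    (fun z hz => hb _ (hm z hz))
    (fun z hz => by rw [hg z hz, norm_io, inner_io, pr_io]; exact low _ (hm z hz))
    (fun z hz => by rw [hg z hz, norm_io, norm_io]; exact up _ (hm z hz))
    (fun z hz => by
      rw [dvg_pr ((hF.contDiffAt (isOpen_ball.mem_nhds (hm z hz))).differentiableAt (by simp))]
      exact hd _ (hm z hz))
  have hi : ∀ x ∈ ball x0 (r / 2), io n x ∈ ball (io n x0) (r / 2) := fun x hx => by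
    rwa [mem_ball_iff_norm, ← map_sub, norm_io, ← mem_ball_iff_norm]
  refine ⟨fun x hx => h2.bdd _ (hi x hx), fun x hx y hy => ?_⟩
  have h3 := h2.hol _ (hi x hx) _ (hi y hy)
  rwa [← map_sub, norm_io] at h3

end H0

theorem hol0 : Hol0Stmt := fun n => (H0.hol_of_three_le (n := n + 3) (by omega)).down.down.down

end Crest.Agent.N222.J

end
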