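import Crest.Agent.N222.J.Visc
import Crest.Agent.N346.An.Per

/-!
# Row 222, toolbox J: the penalised local problem (typed by helper66 after helper41's sketch)
-/

set_option autoImplicit false

open Set Filter Topology Metric
open scoped ContDiff
open Crest.GeometryTopology.CoordMetric
open Crest.Agent.R247.Bo84
open Crest.Agent.N346.An (Per)

noncomputable section

namespace Crest.Agent.N222.J

namespace Pen

variable {n : ℕ} {L : ℝ} {g : MetricField n} {β : E n → Fin n → ℝ}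

/-- the ball that contains a period cell -/
abbrev cell (n : ℕ) (L : ℝ) : Set (E n) := closedBall 0 (√(n * L ^ 2))

theorem exists_max_cell {u : E n → ℝ} (h : Per L u) (hL : 0 < L) (hc : Continuous u) :
    ∃ x0 ∈ cell n L, ∀ x, u x ≤ u x0 := by
  obtain ⟨x0, hx0, h0⟩ := (isCompact_closedBall (0 : E n) (√(n * L ^ 2))).exists_isMaxOn
    ⟨0, mem_closedBall_self (Real.sqrt_nonneg _)⟩ hc.continuousOn
  refine ⟨x0, hx0, fun x => ?_⟩
  obtain ⟨y, hy, e⟩ := h.reduce hL x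
  exact e ▸ h0 hy

theorem continuous_cQ (hg : IsRiemannianOn g univ) (hβ : ContDiff ℝ ∞ β) {u : E n → ℝ}
    (hu : ContDiff ℝ ∞ u) : Continuous (cQ g β u) := by
  have hd := jd hg hu.contDiffOn
  have e : cQ g β u = fun x => N346.Id.H0 g one u x + ∑ i, β x i * N346.Id.wv g one u x i :=
    funext fun x => cQ_H0 hg hu.contDiffOn (mem_univ x)
  have h1 : Continuous (N346.Id.H0 g one u) :=
    continuous_iff_continuousAt.2 fun x => (hd.c_H0 (mem_univ x)).continuousAt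
  have h2 : Continuous (N346.Id.wv g one u) :=
    continuous_iff_continuousAt.2 fun x => (hd.c_wv (mem_univ x)).continuousAt
  have h3 := hβ.continuous
  rw [e]
  exact h1.add (continuous_finsetSum _ fun i _ => ((continuous_apply i).comp h3).mul
    ((EuclideanSpace.proj (𝕜 := ℝ) i).continuous.comp h2))

theorem exists_bd_cQ (hg : IsRiemannianOn g univ) (hβ : ContDiff ℝ ∞ β) {u : E n → ℝ}
    (hu : ContDiff ℝ ∞ u) (L : ℝ) : ∃ M, ∀ x ∈ cell n L, |cQ g β u x| ≤ M :=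
  (isCompact_closedBall _ _).exists_bound_of_continuousOn (continuous_cQ hg hβ hu).continuousOn

/-- comparison on the torus -/
theorem tor_le (hg : IsRiemannianOn g univ) (hL : 0 < L) {u ψ : E n → ℝ} (hu : ContDiff ℝ ∞ u)
    (hψ : ContDiff ℝ ∞ ψ) (pu : Per L u) (pψ : Per L ψ)
    (h : ∀ x ∈ cell n L, ψ x < u x → cW g u x = cW g ψ x → cQ g β ψ x < cQ g β u x) (x : E n) :
    u x ≤ ψ x := by
  obtain ⟨y, hy, hm⟩ := exists_max_cell (u := fun x => u x - ψ x) (pu.comp₂ pψ fun a b => a - b) hL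
    (hu.continuous.sub hψ.continuous)
  by_contra hh
  obtain ⟨e1, e2⟩ := touch n g β u ψ univ hg hu.contDiffOn hψ.contDiffOn y (mem_univ y)
    (Eventually.of_forall hm)
  linarith [h y hy (by linarith [hm x, not_le.1 hh]) e1]

section Tor

variable {P : Type} [NormedAddCommGroup P] [NormedSpace ℝ P]

theorem mono_of_deriv {Φ : P × ℝ × ℝ → ℝ} (hΦ : ContDiff ℝ ∞ Φ) {κ : ℝ} {c : P} {v : ℝ}
    (h : ∀ t, κ ≤ deriv (fun s => Φ (c, s, v)) t) {s t : ℝ} (hst : s ≤ t) :
    κ * (t - s) ≤ Φ (c, t, v) - Φ (c, s, v) :=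
  mul_sub_le_image_sub_of_le_deriv (f := fun s => Φ (c, s, v))
    ((hΦ.differentiable (by simp)).comp (by fun_prop)) h hst

/-- the penalised problem on the torus -/
theorem pen_tor [FiniteDimensional ℝ P] (hT : TorStmt) {Φ : P × ℝ × ℝ → ℝ} {κ ε : ℝ} {c : E n → P}
    {V k z : E n → ℝ} (hL : 0 < L) (hκ : 0 < κ) (hε : 0 < ε) (hg : IsRiemannianOn g univ)
    (hβ : ContDiff ℝ ∞ β) (hc : ContDiff ℝ ∞ c) (hV : ContDiff ℝ ∞ V) (hk : ContDiff ℝ ∞ k)
    (hz : ContDiff ℝ ∞ z) (pg : Per L g) (pβ : Per L β) (pc : Per L c) (pV : Per L V)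
    (pk : Per L k) (pz : Per L z) (hΦ : ContDiff ℝ ∞ Φ)
    (hd : ∀ x t, ∀ v ∈ Icc (0 : ℝ) 1, κ ≤ deriv (fun s => Φ (c x, s, v)) t)
    (k0 : ∀ x, 0 ≤ k x) (z0 : ∀ x, 0 ≤ z x) (hkz : ∀ x, (∀ᶠ y in 𝓝 x, z y = 1) ∨ k x = 1) :
    ∃ (w : E n → ℝ) (K : ℝ), 0 ≤ K ∧ ContDiff ℝ ∞ w ∧
      (∀ x, cQ g β w x = Φ (c x, w x, (cW g w x)⁻¹) + K * k x * (w x - V x)) ∧
      ∀ x, z x = 0 → |w x - V x| ≤ ε := by
  have h0 : (0 : E n) ∈ cell n L := mem_closedBall_self (Real.sqrt_nonneg _)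
  obtain ⟨M0, hM0⟩ := exists_bd_cQ hg hβ hV L
  obtain ⟨M1, hM1⟩ : ∃ M, ∀ y ∈ cell n L ×ˢ Icc (0 : ℝ) 1, |Φ (c y.1, V y.1, y.2)| ≤ M := by
    have h1 := hc.continuous
    have h2 := hV.continuous
    exact ((isCompact_closedBall _ _).prod isCompact_Icc).exists_bound_of_continuousOn
      (hΦ.continuous.comp (by fun_prop)).continuousOn
  have M00 : 0 ≤ M0 := (abs_nonneg _).trans (hM0 0 h0)
  have M10 : 0 ≤ M1 := (abs_nonneg _).trans (hM1 (0, 0) ⟨h0, left_mem_Icc.2 zero_le_one⟩)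
  obtain ⟨A, hA⟩ : ∃ A, κ * A = M0 + M1 := ⟨(M0 + M1) / κ, by field_simp⟩
  have A0 : 0 ≤ A := by
    by_contra hh
    nlinarith [not_le.1 hh]
  have sp : ContDiff ℝ ∞ fun x => V x + (ε + A * z x) := by fun_prop
  have sm : ContDiff ℝ ∞ fun x => V x + -(ε + A * z x) := by fun_prop
  obtain ⟨Mp, hMp⟩ := exists_bd_cQ hg hβ sp L
  obtain ⟨Mm, hMm⟩ := exists_bd_cQ hg hβ sm L
  have Mp0 : 0 ≤ Mp := (abs_nonneg _).trans (hMp 0 h0)
  have Mm0 : 0 ≤ Mm := (abs_nonneg _).trans (hMm 0 h0)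
  obtain ⟨K, hK⟩ : ∃ K, K * ε = Mp + Mm + M1 := ⟨(Mp + Mm + M1) / ε, by field_simp⟩
  have K0 : 0 ≤ K := by
    by_contra hh
    nlinarith [not_le.1 hh]
  obtain ⟨w, hw, pw, hQ⟩ := hT n (P × ℝ × ℝ)
    (fun y => Φ (y.1.1, y.2.1, y.2.2) + y.1.2.1 * (y.2.1 - y.1.2.2)) L κ g β
    (fun x => (c x, K * k x, V x)) hL hκ hg hβ (by fun_prop) pg pβ
    (pc.prodMk ((pk.comp fun t => K * t).prodMk pV))
    ((hΦ.comp (by fun_prop)).add (by fun_prop)) (fun x t v hv => by
      have h1 : DifferentiableAt ℝ (fun s => Φ (c x, s, v)) t :=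
        ((hΦ.differentiable (by simp)).comp (by fun_prop) : Differentiable ℝ
          fun s => Φ (c x, s, v)) t
      have h2 : HasDerivAt (fun s => K * k x * (s - V x)) (K * k x) t := by
        simpa using ((hasDerivAt_id t).sub_const (V x)).const_mul (K * k x)
      have h3 := (h1.hasDerivAt.fun_add h2).deriv
      simp only
      rw [h3]
      linarith [hd x t v hv, mul_nonneg K0 (k0 x)])
  have hQ' : ∀ x, cQ g β w x = Φ (c x, w x, (cW g w x)⁻¹) + K * k x * (w x - V x) := hQ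
  have hv : ∀ x, (cW g w x)⁻¹ ∈ Icc (0 : ℝ) 1 := fun x => cW_inv_mem hg (mem_univ x) w
  have up : ∀ x, w x ≤ V x + (ε + A * z x) := by
    refine tor_le (β := β) hg hL hw sp pw (pV.comp₂ pz fun a b => a + (ε + A * b))
      fun x hx hlt _ => ?_
    have hAz := mul_nonneg A0 (z0 x)
    have hKk := mul_nonneg K0 (k0 x)
    have a1 := mono_of_deriv hΦ (fun t => hd x t _ (hv x)) (s := V x) (t := w x) (by linarith)
    have a2 := (abs_le.1 (hM1 (x, (cW g w x)⁻¹) ⟨hx, hv x⟩)).1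
    have a3 : κ * (ε + A * z x) < κ * (w x - V x) := mul_lt_mul_of_pos_left (by linarith) hκ
    have a4 : 0 ≤ K * k x * (w x - V x) := mul_nonneg hKk (by linarith)
    have a5 := mul_pos hκ hε
    simp only at a2
    rw [hQ' x]
    rcases hkz x with h | h
    · rw [cQ_congr (φ := fun y => V y + (ε + A)) (h.mono fun y hy => by simp only [hy, mul_one]),
        cQ_add_const]
      rw [h.self_of_nhds] at a3
      nlinarith [(abs_le.1 (hM0 x hx)).2]
    · have a6 : K * ε ≤ K * (w x - V x) := mul_le_mul_of_nonneg_left (by linarith) K0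
      have a7 := mul_nonneg hκ.le hAz
      rw [h]
      nlinarith [(abs_le.1 (hMp x hx)).2]
  have lo : ∀ x, V x + -(ε + A * z x) ≤ w x := by
    refine tor_le (β := β) hg hL sm hw (pV.comp₂ pz fun a b => a + -(ε + A * b)) pw
      fun x hx hlt _ => ?_
    have hAz := mul_nonneg A0 (z0 x)
    have hKk := mul_nonneg K0 (k0 x)
    have a1 := mono_of_deriv hΦ (fun t => hd x t _ (hv x)) (s := w x) (t := V x) (by linarith)
    have a2 := (abs_le.1 (hM1 (x, (cW g w x)⁻¹) ⟨hx, hv x⟩)).2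
    have a3 : κ * (ε + A * z x) < κ * (V x - w x) := mul_lt_mul_of_pos_left (by linarith) hκ
    have a4 : 0 ≤ K * k x * (V x - w x) := mul_nonneg hKk (by linarith)
    have a5 := mul_pos hκ hε
    simp only at a2
    rw [hQ' x]
    rcases hkz x with h | h
    · rw [cQ_congr (u := fun y => V y + -(ε + A * z y)) (φ := fun y => V y + -(ε + A))
        (h.mono fun y hy => by simp only [hy, mul_one]), cQ_add_const]
      rw [h.self_of_nhds] at a3
      nlinarith [(abs_le.1 (hM0 x hx)).1]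
    · have a6 : K * ε ≤ K * (V x - w x) := mul_le_mul_of_nonneg_left (by linarith) K0
      have a7 := mul_nonneg hκ.le hAz
      rw [h]
      nlinarith [(abs_le.1 (hMm x hx)).1]
  refine ⟨w, K, K0, hw, hQ', fun x hx => abs_le.2 ⟨?_, ?_⟩⟩
  · have := lo x
    rw [hx] at this
    linarith
  · have := up x
    rw [hx] at this
    linarith

end Tor

/-- a smooth retraction of the line into an open interval -/
theorem exists_sigma {I : Set ℝ} (hI : IsOpen I) (ho : I.OrdConnected) {a b : ℝ} (hab : a ≤ b)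
    (h : Icc a b ⊆ I) : ∃ (σ : ℝ → ℝ) (a' b' : ℝ), ContDiff ℝ ∞ σ ∧ Icc a' b' ⊆ I ∧
      (∀ t, σ t ∈ Icc a' b') ∧ (∀ t ∈ Icc a b, σ t = t) ∧ ∀ t, deriv σ t ∈ Icc (0 : ℝ) 1 := by
  obtain ⟨δ1, h1, H1⟩ := Metric.isOpen_iff.1 hI a (h (left_mem_Icc.2 hab))
  obtain ⟨δ2, h2, H2⟩ := Metric.isOpen_iff.1 hI b (h (right_mem_Icc.2 hab))
  obtain ⟨δ, hδ, d1, d2⟩ : ∃ δ, 0 < δ ∧ δ < δ1 ∧ δ < δ2 :=
    ⟨min δ1 δ2 / 2, by positivity, by linarith [min_le_left δ1 δ2], by linarith [min_le_right δ1 δ2]⟩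
  have ha : a - δ ∈ I := H1 (by rw [mem_ball, Real.dist_eq, abs_lt]; constructor <;> linarith)
  have hb : b + δ ∈ I := H2 (by rw [mem_ball, Real.dist_eq, abs_lt]; constructor <;> linarith)
  let χ : ContDiffBump ((a + b) / 2) :=
    ⟨(b - a) / 2 + δ / 2, (b - a) / 2 + δ, by linarith, by linarith⟩
  have hc : Continuous χ := χ.continuous
  have hd : ∀ t, HasDerivAt (fun t => a + ∫ s in a..t, χ s) (χ t) t := fun t =>
    (intervalIntegral.integral_hasDerivAt_right (hc.intervalIntegrable _ _)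
      (hc.stronglyMeasurableAtFilter _ _) hc.continuousAt).const_add a
  obtain ⟨σ, hσ, σa⟩ : ∃ σ : ℝ → ℝ, (∀ t, HasDerivAt σ (χ t) t) ∧ σ a = a := ⟨_, hd, by simp⟩
  have df : Differentiable ℝ σ := fun t => (hσ t).differentiableAt
  have e : deriv σ = χ := funext fun t => (hσ t).deriv
  have hτ : ∀ t, HasDerivAt (fun t => t - σ t) (1 - χ t) t := fun t =>
    (hasDerivAt_id t).fun_sub (hσ t)
  have dτ : Differentiable ℝ fun t => t - σ t := fun t => (hτ t).differentiableAt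
  have m1 : Monotone σ := monotone_of_deriv_nonneg df fun t => by rw [e]; exact χ.nonneg
  have m2 : Monotone fun t => t - σ t := monotone_of_deriv_nonneg dτ fun t => by
    rw [(hτ t).deriv]; linarith [χ.le_one (x := t)]
  have a1 : AntitoneOn σ (Ici (b + δ)) :=
    antitoneOn_of_deriv_nonpos (convex_Ici _) df.continuous.continuousOn df.differentiableOn
      fun t ht => by
        have ht' : b + δ ≤ t := mem_Ici.1 (interior_subset ht)
        rw [e, χ.zero_of_le_dist (by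
          rw [Real.dist_eq]; exact le_abs.2 (Or.inl (by simp only [χ]; linarith)))]
  have a2 : AntitoneOn σ (Iic (a - δ)) :=
    antitoneOn_of_deriv_nonpos (convex_Iic _) df.continuous.continuousOn df.differentiableOn
      fun t ht => by
        have ht' : t ≤ a - δ := mem_Iic.1 (interior_subset ht)
        rw [e, χ.zero_of_le_dist (by
          rw [Real.dist_eq]; exact le_abs.2 (Or.inr (by simp only [χ]; linarith)))]
  have a3 : AntitoneOn (fun t => t - σ t) (Icc a b) :=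
    antitoneOn_of_deriv_nonpos (convex_Icc _ _) dτ.continuous.continuousOn dτ.differentiableOn
      fun t ht => by
        have ht' : t ∈ Icc a b := interior_subset ht
        rw [(hτ t).deriv, χ.one_of_mem_closedBall (by
          rw [mem_closedBall, Real.dist_eq, abs_le]
          simp only [χ]
          constructor <;> linarith [ht'.1, ht'.2]), sub_self]
  refine ⟨σ, a - δ, b + δ, contDiff_infty_iff_deriv.2 ⟨df, e ▸ χ.contDiff⟩, ho.out ha hb,
    fun t => ⟨?_, ?_⟩, fun t ht => ?_, fun t => by rw [e]; exact ⟨χ.nonneg, χ.le_one⟩⟩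
  · have b1 := m2 (show a - δ ≤ a by linarith)
    simp only [σa] at b1
    rcases le_total t (a - δ) with hh | hh
    · linarith [a2 hh self_mem_Iic hh]
    · linarith [m1 hh]
  · have b1 := m2 (show a ≤ b + δ by linarith)
    simp only [σa] at b1
    rcases le_total t (b + δ) with hh | hh
    · linarith [m1 hh]
    · linarith [a1 self_mem_Ici hh hh]
  · have b1 := m2 ht.1
    have b2 := a3 (left_mem_Icc.2 hab) ht ht.1
    simp only [σa] at b1 b2
    linarith

/-- a globally smooth, uniformly increasing modification of `Φ` -/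
theorem exists_ext {P : Type} [NormedAddCommGroup P] [NormedSpace ℝ P] {Φ : P × ℝ × ℝ → ℝ}
    {I : Set ℝ} {K : Set P} (h : Good Φ I K) (hK : IsCompact K) {a b : ℝ} (hab : a ≤ b)
    (hI : Icc a b ⊆ I) : ∃ (Ψ : P × ℝ × ℝ → ℝ) (κ : ℝ), 0 < κ ∧ ContDiff ℝ ∞ Ψ ∧
      (∀ c ∈ K, ∀ t, ∀ v ∈ Icc (0 : ℝ) 1, κ ≤ deriv (fun s => Ψ (c, s, v)) t) ∧
      ∀ c, ∀ t ∈ Icc a b, ∀ v, Ψ (c, t, v) = Φ (c, t, v) := by
  obtain ⟨σ, a', b', hσ, hI', hr, hid, hd⟩ := exists_sigma h.isOpen h.ord hab hI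
  have hD : ∀ c, ∀ t ∈ I, ∀ v, HasDerivAt (fun s => Φ (c, s, v))
      (fderiv ℝ Φ (c, t, v) (0, 1, 0)) t := fun c t ht v =>
    ((h.at c ht v).differentiableAt (by simp)).hasFDerivAt.comp_hasDerivAt t
      ((hasDerivAt_const t c).prodMk ((hasDerivAt_id t).prodMk (hasDerivAt_const t v)))
  obtain ⟨κ, hκ, H⟩ := (hK.prod ((isCompact_Icc (a := a') (b := b')).prod
    (isCompact_Icc (a := (0 : ℝ)) (b := 1)))).exists_forall_le'
    (f := fun z => fderiv ℝ Φ z (0, 1, 0)) (a := 0)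
    (((h.sm.continuousOn_fderiv_of_isOpen h.isOpen' (by simp)).clm_apply continuousOn_const).mono
      fun z hz => ⟨mem_univ _, hI' hz.2.1, mem_univ _⟩) fun z hz => by
      have := h.pos z.1 hz.1 z.2.1 (hI' hz.2.1) z.2.2 hz.2.2
      rwa [(hD z.1 z.2.1 (hI' hz.2.1) z.2.2).deriv] at this
  refine ⟨fun z => Φ (z.1, σ z.2.1, z.2.2) + (z.2.1 - σ z.2.1), min κ 1, lt_min hκ one_pos,
    (h.sm.comp_contDiff (f := fun z : P × ℝ × ℝ => (z.1, σ z.2.1, z.2.2)) (by fun_prop)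
      fun z => ⟨mem_univ _, hI' (hr _), mem_univ _⟩).add (by fun_prop), fun c hc t v hv => ?_,
    fun c t ht v => by simp only [hid t ht, sub_self, add_zero]⟩
  have h1 := (hσ.differentiable (by simp) t).hasDerivAt
  have h2 := (((hD c (σ t) (hI' (hr t)) v).comp t h1).fun_add ((hasDerivAt_id t).fun_sub h1)).deriv
  have h3 := H (c, σ t, v) ⟨hc, hr t, hv⟩
  refine le_of_le_of_eq ?_ h2.symm
  nlinarith [min_le_left κ 1, min_le_right κ 1, (hd t).1, (hd t).2]

end Pen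

open Pen in
theorem pen (hT : TorStmt) (hR : RhoStmt) : PenStmt := by
  intro n P _ _ _ Φ I U g β c x0 r a b ε v hΦ hg hβ hc hr hU hab hI hε hv
  obtain ⟨L, ρ, hL, hρ, pρ, hid, hm⟩ := hR n x0 (7 * r / 2) (4 * r) (by positivity) (by linarith)
  have hmU : ∀ x, ρ x ∈ U := fun x => hU (hm x)
  obtain ⟨Ψ, κ, hκ, hΨ, hd, hΨΦ⟩ := exists_ext (hΦ.mono (image_mono hU))
    ((isCompact_closedBall x0 (4 * r)).image_of_continuousOn (hc.continuousOn.mono hU)) hab hI
  obtain ⟨vt, hvt, happ, -⟩ := (hv.comp_continuous hρ.continuous hmU).exists_contDiff_approx ⊤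
    (ε := fun _ => ε) continuous_const fun _ => hε
  let χ1 : ContDiffBump x0 := ⟨r, 5 * r / 4, hr, by linarith⟩
  let χ2 : ContDiffBump x0 := ⟨4 * r / 3, 3 * r / 2, by positivity, by linarith⟩
  have hg' : IsRiemannianOn (fun x => g (ρ x)) univ :=
    ⟨isOpen_univ, fun i j => ((hg.contDiffOn i j).comp_contDiff hρ hmU).contDiffOn,
      fun x _ => hg.posDef _ (hmU x)⟩
  obtain ⟨w, K, K0, hw, hQ, hz⟩ := pen_tor hT (g := fun x => g (ρ x)) (β := fun x => β (ρ x))
    (c := fun x => c (ρ x)) (V := fun x => vt (ρ x)) (k := fun x => 1 - χ1 (ρ x))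
    (z := fun x => χ2 (ρ x)) hL hκ hε hg' (hβ.comp_contDiff hρ hmU) (hc.comp_contDiff hρ hmU)
    (hvt.comp hρ) (contDiff_const.sub (χ1.contDiff.comp hρ)) (χ2.contDiff.comp hρ) (pρ.comp g)
    (pρ.comp β) (pρ.comp c) (pρ.comp vt) (pρ.comp fun y => 1 - χ1 y) (pρ.comp χ2) hΨ
    (fun x => hd _ (mem_image_of_mem c (hm x))) (fun x => sub_nonneg.2 χ1.le_one)
    (fun x => χ2.nonneg) fun x => by
      by_cases hx : ρ x ∈ ball x0 (4 * r / 3)
      · left
        filter_upwards [hρ.continuous.continuousAt.eventually (isOpen_ball.mem_nhds hx)] with y hy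
        exact χ2.one_of_mem_closedBall (ball_subset_closedBall hy)
      · right
        rw [χ1.zero_of_le_dist (by
          rw [mem_ball, not_lt] at hx; simp only [χ1]; linarith), sub_zero]
  refine ⟨w, hw, fun x hx => ?_⟩
  have hx' : x ∈ ball x0 (7 * r / 2) := closedBall_subset_ball (by linarith) hx
  have e0 := hid x hx'
  have e1 : (fun x => g (ρ x)) =ᶠ[𝓝 x] g := by
    filter_upwards [isOpen_ball.mem_nhds hx'] with y hy
    rw [hid y hy]
  have hQx := hQ x
  have hzx := hz x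
  rw [cQ_congr_g e1 (β' := β) (by simp only [e0]), cW_congr_g e1.eq_of_nhds] at hQx
  simp only [e0] at hQx hzx
  have hxc : x ∈ closedBall x0 (4 * r) := closedBall_subset_closedBall (by linarith) hx
  have hW := cW_inv_mem hg (hU hxc) w
  have hmono : ∀ {s t : ℝ}, s ≤ t →
      κ * (t - s) ≤ Ψ (c x, t, (cW g w x)⁻¹) - Ψ (c x, s, (cW g w x)⁻¹) := fun hst =>
    mono_of_deriv hΨ (fun t => hd _ (mem_image_of_mem c hxc) t _ hW) hst
  have hap := happ x
  rw [Function.comp, e0, Real.dist_eq, abs_lt] at hap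
  have hKk : 0 ≤ K * (1 - χ1 x) := mul_nonneg K0 (sub_nonneg.2 χ1.le_one)
  refine ⟨fun t ht h1 h2 => ?_, fun t ht h1 h2 => ?_, fun h1 h2 => ?_, fun h1 => ?_⟩
  · have a1 := hmono h1.le
    have a2 := mul_pos hκ (sub_pos.2 h1)
    have a3 := mul_nonneg hKk (show 0 ≤ w x - vt x by linarith [hap.2])
    rw [hQx, ← hΨΦ _ t ht]
    linarith
  · have a1 := hmono h1.le
    have a2 := mul_pos hκ (sub_pos.2 h1)
    have a3 := mul_nonneg hKk (show 0 ≤ vt x - w x by linarith [hap.1])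
    rw [hQx, ← hΨΦ _ t ht]
    linarith
  · rw [hQx, χ1.one_of_mem_closedBall (ball_subset_closedBall h1), hΨΦ _ _ h2]
    ring
  · have := abs_le.1 (hzx (χ2.zero_of_le_dist (by
      rw [mem_ball, not_lt] at h1; simp only [χ2]; linarith)))
    exact abs_le.2 ⟨by linarith [hap.1, this.1], by linarith [hap.2, this.2]⟩

end Crest.Agent.N222.J
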