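import Crest.Agent.N222.J.Jet

/-!
# Row 222, toolbox J (helper41): Perron's method
-/

set_option autoImplicit false

open Set Filter Topology Metric
open scoped ContDiff
open Crest.GeometryTopology.CoordMetric

noncomputable section

namespace Crest.Agent.N222.J

variable {n : ℕ} {X : Type} [TopologicalSpace X] {A : Atl n X} {J : JOp n X} {Ω : Set X} {p : X}
  {P : Type} {Φ : P × ℝ × ℝ → ℝ} {c : X → P}

theorem test_of_ch (hJ : J.On A Ω) {w : E n → ℝ} (hw : ContDiff ℝ ∞ w) {x : E n}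
    (hx : x ∈ A.tg p Ω) : A.SmN (fun q => w (A.ch p q)) ((A.ch p).symm x) ∧
    J.Q (fun q => w (A.ch p q)) ((A.ch p).symm x) = cQ (J.G p) (J.β p) w x ∧
    J.W (fun q => w (A.ch p q)) ((A.ch p).symm x) = cW (J.G p) w x := by
  have hs := (A.ch p).map_target hx.1
  have h1 : A.SmN (fun q => w (A.ch p q)) ((A.ch p).symm x) :=
    Atl.smN_of_ch isOpen_univ hw.contDiffOn hs (mem_univ _)
  obtain ⟨e1, e2⟩ := hJ.chart p _ hx.2 hs _ h1
  have h2 : (fun q => w (A.ch p q)) ∘ (A.ch p).symm =ᶠ[𝓝 x] w := by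
    filter_upwards [(A.ch p).open_target.mem_nhds hx.1] with y hy
    rw [Function.comp, (A.ch p).right_inv hy]
  rw [(A.ch p).right_inv hx.1] at e1 e2
  exact ⟨h1, e1.trans (cQ_congr h2), e2.trans (cW_congr h2)⟩

theorem max_of_ch {v : X → ℝ} {w : E n → ℝ} {x : E n} (hx : x ∈ (A.ch p).target)
    (h : IsLocalMax (fun y => v ((A.ch p).symm y) - w y) x) :
    IsLocalMax (fun q => v q - w (A.ch p q)) ((A.ch p).symm x) := by
  refine Atl.isLocalMax_of_ch (p := p) ((A.ch p).map_target hx) ?_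
  rw [(A.ch p).right_inv hx]
  refine h.congr ?_
  filter_upwards [(A.ch p).open_target.mem_nhds hx] with y hy
  rw [Function.comp, (A.ch p).right_inv hy]

theorem VSub.ch (hJ : J.On A Ω) {v : X → ℝ} {w : E n → ℝ} (hw : ContDiff ℝ ∞ w) {x : E n}
    (hx : x ∈ A.tg p Ω) (hv : VSub A J Φ c v ((A.ch p).symm x))
    (h : IsLocalMax (fun y => v ((A.ch p).symm y) - w y) x) :
    Φ (c ((A.ch p).symm x), v ((A.ch p).symm x), (cW (J.G p) w x)⁻¹) ≤ cQ (J.G p) (J.β p) w x := by
  obtain ⟨h1, h2, h3⟩ := test_of_ch hJ hw hx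
  rw [← h2, ← h3]
  exact hv _ h1 (max_of_ch hx.1 h)

theorem VSup.ch (hJ : J.On A Ω) {v : X → ℝ} {w : E n → ℝ} (hw : ContDiff ℝ ∞ w) {x : E n}
    (hx : x ∈ A.tg p Ω) (hv : VSup A J Φ c v ((A.ch p).symm x))
    (h : IsLocalMax (fun y => w y - v ((A.ch p).symm y)) x) :
    cQ (J.G p) (J.β p) w x ≤ Φ (c ((A.ch p).symm x), v ((A.ch p).symm x), (cW (J.G p) w x)⁻¹) := by
  obtain ⟨h1, h2, h3⟩ := test_of_ch hJ hw hx
  rw [← h2, ← h3]
  have h4 := max_of_ch (v := fun q => -v q) (w := fun y => -w y) hx.1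
    (h.congr (Eventually.of_forall fun y => by ring))
  exact hv _ h1 (h4.neg.congr (Eventually.of_forall fun y => by ring))

/-- the Perron class -/
structure PS (A : Atl n X) (J : JOp n X) (Φ : P × ℝ × ℝ → ℝ) (c : X → P) (Ω : Set X)
    (wm wp v : X → ℝ) : Prop where
  cont : ContinuousOn v Ω
  sub : ∀ p ∈ Ω, VSub A J Φ c v p
  lo : ∀ p ∈ Ω, wm p ≤ v p
  hi : ∀ p ∈ Ω, v p ≤ wp p

variable {wm wp v : X → ℝ}

theorem PS.max {v' : X → ℝ} (h : PS A J Φ c Ω wm wp v) (h' : PS A J Φ c Ω wm wp v') :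
    PS A J Φ c Ω wm wp fun q => max (v q) (v' q) :=
  ⟨h.cont.sup h'.cont, fun p hp => (h.sub p hp).max (h'.sub p hp),
    fun p hp => (h.lo p hp).trans (le_max_left _ _), fun p hp => max_le (h.hi p hp) (h'.hi p hp)⟩

/-- a continuous function that is `≤ m` off the ball and has no local maximum above `m` -/
theorem le_of_no_max {f : E n → ℝ} {z : E n} {r s m : ℝ} (hrs : r ≤ s)
    (hf : ContinuousOn f (closedBall z s)) (h1 : ∀ x ∈ closedBall z s, x ∉ ball z r → f x ≤ m)
    (h2 : ∀ x ∈ closedBall z s, IsLocalMax f x → f x ≤ m) : ∀ x ∈ closedBall z s, f x ≤ m := by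
  intro x hx
  obtain ⟨y, hy, hm⟩ := (isCompact_closedBall z s).exists_isMaxOn ⟨x, hx⟩ hf
  refine (hm hx).trans ?_
  by_cases hb : y ∈ ball z r
  · exact h2 y hy (hm.isLocalMax (mem_of_superset (isOpen_ball.mem_nhds hb)
      (ball_subset_closedBall.trans (closedBall_subset_closedBall hrs))))
  · exact h1 y hy hb

variable [NormedAddCommGroup P] [NormedSpace ℝ P] [FiniteDimensional ℝ P] {I : Set ℝ}

theorem lift [T2Space X] (hP : PenStmt) (hΩ : IsOpen Ω) (hJ : J.On A Ω) (hΦ : Good Φ I (c '' Ω))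
    (hc : A.SmOn Ω c) (hwp : ContinuousOn wp Ω) (hsup : ∀ p ∈ Ω, VSup A J Φ c wp p) {z : E n}
    {r a b η ε : ℝ} (hr : 0 < r) (hz : closedBall z (4 * r) ⊆ A.tg p Ω) (hab : Icc a b ⊆ I)
    (hb : ∀ x ∈ closedBall z (4 * r), a + η ≤ wm ((A.ch p).symm x) ∧ wp ((A.ch p).symm x) + η ≤ b)
    (hε : 0 < ε) (hη : 3 * ε ≤ η) (hv : PS A J Φ c Ω wm wp v) :
    ∃ (w : E n → ℝ) (v' : X → ℝ), ContDiff ℝ ∞ w ∧ PS A J Φ c Ω wm wp v' ∧ ∀ x ∈ ball z r,
      v ((A.ch p).symm x) - 3 * ε ≤ w x ∧ w x - 3 * ε ≤ v' ((A.ch p).symm x) ∧ w x ∈ Icc a b ∧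
      cQ (J.G p) (J.β p) w x = Φ (c ((A.ch p).symm x), w x, (cW (J.G p) w x)⁻¹) := by
  classical
  set e := A.ch p with he
  have h34 : closedBall z (3 * r) ⊆ closedBall z (4 * r) :=
    closedBall_subset_closedBall (by linarith)
  have h3 : closedBall z (3 * r) ⊆ A.tg p Ω := h34.trans hz
  have hvI : ∀ x ∈ closedBall z (3 * r), a + η ≤ v (e.symm x) ∧ v (e.symm x) ≤ wp (e.symm x) ∧
      wp (e.symm x) + η ≤ b := fun x hx =>
    ⟨(hb x (h34 hx)).1.trans (hv.lo _ (h3 hx).2), hv.hi _ (h3 hx).2, (hb x (h34 hx)).2⟩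
  have hz0 := hvI z (mem_closedBall_self (by linarith))
  obtain ⟨w, hw, H⟩ := hP n P Φ I (A.tg p Ω) (J.G p) (J.β p) (c ∘ e.symm) z r a b ε (v ∘ e.symm)
    (hΦ.mono fun _ ⟨y, hy, h⟩ => ⟨_, hy.2, h⟩) (hJ.riem p) (hJ.βs p) (hc p) hr hz (by linarith)
    hab hε (A.continuousOn_ch hv.cont p)
  simp only [Function.comp] at H
  have hd : ∀ x ∈ closedBall z (3 * r), w x - wp (e.symm x) ≤ 3 * ε := by
    refine le_of_no_max (r := 2 * r) (by linarith)
      (hw.continuous.continuousOn.sub ((A.continuousOn_ch hwp p).mono h3)) (fun x hx hb => ?_)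
      fun x hx hm => ?_
    · linarith [(abs_le.1 ((H x hx).2.2.2 hb)).2, (hvI x hx).2.1]
    · by_contra hh
      obtain ⟨k1, k2, k3⟩ := hvI x hx
      have := (H x hx).1 (wp (e.symm x)) ⟨by linarith, by linarith⟩ (by linarith) (by linarith)
      linarith [VSup.ch hJ hw (h3 hx) (hsup _ (h3 hx).2) hm]
  have hl : ∀ x ∈ closedBall z (3 * r), v (e.symm x) - w x ≤ 3 * ε := by
    refine le_of_no_max (r := 2 * r) (by linarith)
      (((A.continuousOn_ch hv.cont p).mono h3).sub hw.continuous.continuousOn) (fun x hx hb => ?_)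
      fun x hx hm => ?_
    · linarith [(abs_le.1 ((H x hx).2.2.2 hb)).1]
    · by_contra hh
      obtain ⟨k1, k2, k3⟩ := hvI x hx
      have := (H x hx).2.1 (v (e.symm x)) ⟨by linarith, by linarith⟩ (by linarith) (by linarith)
      linarith [VSub.ch hJ hw (h3 hx) (hv.sub _ (h3 hx).2) hm]
  let O : Set X := e.source ∩ e ⁻¹' ball z (3 * r)
  have hO : IsOpen O := e.isOpen_inter_preimage isOpen_ball
  let ψ : X → ℝ := fun q => w (e q) + -(3 * ε)
  let v' : X → ℝ := fun q => if q ∈ O then max (v q) (ψ q) else v q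
  have hle : ∀ q, v q ≤ v' q := fun q => by
    simp only [v']; split_ifs
    exacts [le_max_left _ _, le_rfl]
  have hin : ∀ q ∈ O, v' q = max (v q) (ψ q) := fun q hq => if_pos hq
  let K : Set X := e.symm '' closedBall z (2 * r)
  have h23 : closedBall z (2 * r) ⊆ ball z (3 * r) := closedBall_subset_ball (by linarith)
  have hK : IsClosed K := ((isCompact_closedBall z _).image_of_continuousOn
    (e.continuousOn_symm.mono fun y hy => (h3 (ball_subset_closedBall (h23 hy))).1)).isClosed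
  have hKO : K ⊆ O := by
    rintro _ ⟨y, hy, rfl⟩
    have := (h3 (ball_subset_closedBall (h23 hy))).1
    exact ⟨e.map_target this, by rw [mem_preimage, e.right_inv this]; exact h23 hy⟩
  have hout : ∀ q, q ∉ K → v' q = v q := fun q hq => by
    by_cases hqO : q ∈ O
    · have h1 : e q ∉ ball z (2 * r) := fun h =>
        hq ⟨e q, ball_subset_closedBall h, e.left_inv hqO.1⟩
      have h2 := (abs_le.1 ((H _ (ball_subset_closedBall hqO.2)).2.2.2 h1)).2
      rw [e.left_inv hqO.1] at h2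
      rw [hin q hqO, max_eq_left (by simp only [ψ]; linarith)]
    · exact if_neg hqO
  refine ⟨w, v', hw, ⟨fun q hq => ?_, fun q hq => ?_, fun q hq => (hv.lo q hq).trans (hle q),
    fun q hq => ?_⟩, fun x hx => ?_⟩
  · have hvq := hv.cont.continuousAt (hΩ.mem_nhds hq)
    refine ContinuousAt.continuousWithinAt ?_
    by_cases hqO : q ∈ O
    · have hψ : ContinuousAt ψ q :=
        (hw.continuous.continuousAt.comp (e.continuousAt hqO.1)).add continuousAt_const
      have hm : ContinuousAt (fun y => max (v y) (ψ y)) q := hvq.max hψ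
      refine hm.congr ?_
      filter_upwards [hO.mem_nhds hqO] with y hy using (hin y hy).symm
    · refine hvq.congr ?_
      filter_upwards [hK.isOpen_compl.mem_nhds fun h => hqO (hKO h)] with y hy
        using (hout y hy).symm
  · rcases (hle q).eq_or_lt with h | h
    · exact (hv.sub q hq).of_le h (Eventually.of_forall hle)
    · have hqO : q ∈ O := by
        by_contra hh
        exact h.ne' (if_neg hh)
      have h1 : v q < ψ q := by
        rw [hin q hqO] at h
        exact (lt_max_iff.1 h).resolve_left (lt_irrefl _)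
      have hx := ball_subset_closedBall hqO.2
      obtain ⟨t1, t2, t3⟩ := test_of_ch hJ (hw.add (contDiff_const (c := -(3 * ε)))) (h3 hx)
      obtain ⟨k1, k2, k3⟩ := hvI _ hx
      have k4 := hd _ hx
      have k5 := (H _ hx).1 (ψ q)
      rw [← he, e.left_inv hqO.1] at t1 t2 t3
      rw [e.left_inv hqO.1] at k1 k2 k3 k4 k5
      rw [cQ_add_const] at t2
      rw [cW_add_const] at t3
      simp only [ψ] at h1
      refine (vsub_of_sm hΩ hJ hq t1 ?_).of_le ((hin q hqO).trans (max_eq_right h1.le)).symm ?_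
      · rw [t2, t3]
        exact (k5 ⟨by simp only [ψ]; linarith, by simp only [ψ]; linarith⟩
          (by simp only [ψ]; linarith) (by linarith)).le
      · filter_upwards [hO.mem_nhds hqO] with y hy
        rw [hin y hy]; exact le_max_right _ _
  · by_cases hqO : q ∈ O
    · have k4 := hd _ (ball_subset_closedBall hqO.2)
      rw [e.left_inv hqO.1] at k4
      rw [hin q hqO]
      exact max_le (hv.hi q hq) (by simp only [ψ]; linarith)
    · rw [show v' q = v q from if_neg hqO]; exact hv.hi q hq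
  · have hx3 : x ∈ ball z (3 * r) := ball_subset_ball (by linarith) hx
    have hx' := ball_subset_closedBall hx3
    have ht := (h3 hx').1
    obtain ⟨k1, k2, k3⟩ := hvI _ hx'
    have hI : w x ∈ Icc a b := ⟨by linarith [hl x hx'], by linarith [hd x hx']⟩
    refine ⟨by linarith [hl x hx'], ?_, hI, (H x hx').2.2.1 hx hI⟩
    rw [hin _ ⟨e.map_target ht, by rw [mem_preimage, e.right_inv ht]; exact hx3⟩]
    refine le_trans (le_of_eq ?_) (le_max_right _ _)
    simp only [ψ, e.right_inv ht]; ring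

theorem perron (hP : PenStmt) (hE : EstStmt) (hA : ArzStmt) : PerronStmt := by
  intro n X _ _ A P _ _ _ J Φ I c Ω wm wp hΩ hJ hΦ hc hwm hwp hI hsub hsup
  have h0 : PS A J Φ c Ω wm wp wm := ⟨hwm, hsub, fun _ _ => le_rfl, fun p hp => (hI p hp).2.2⟩
  let u : X → ℝ := fun q => sSup ((fun v => v q) '' {v | PS A J Φ c Ω wm wp v})
  have hne : ∀ q, ((fun v => v q) '' {v | PS A J Φ c Ω wm wp v}).Nonempty :=
    fun q => ⟨_, wm, h0, rfl⟩
  have hup : ∀ q ∈ Ω, ∀ t ∈ (fun v => v q) '' {v | PS A J Φ c Ω wm wp v}, t ≤ wp q :=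
    fun q hq _ ⟨v, hv, h⟩ => h ▸ hv.hi q hq
  have le_u : ∀ v, PS A J Φ c Ω wm wp v → ∀ q ∈ Ω, v q ≤ u q := fun v hv q hq =>
    le_csSup ⟨_, hup q hq⟩ ⟨v, hv, rfl⟩
  have key : ∀ p ∈ Ω, ∃ s > 0, ball (A.ch p p) s ⊆ A.tg p Ω ∧
      ContDiffOn ℝ ∞ (u ∘ (A.ch p).symm) (ball (A.ch p p) s) ∧
      cQ (J.G p) (J.β p) (u ∘ (A.ch p).symm) (A.ch p p) =
        Φ (c p, u p, (cW (J.G p) (u ∘ (A.ch p).symm) (A.ch p p))⁻¹) := by
    intro p hp
    set e := A.ch p with he
    set z := e p with hz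
    have hT := A.isOpen_tg hΩ p
    obtain ⟨R, hR, hRT⟩ := nhds_basis_closedBall.mem_iff.1 (hT.mem_nhds (A.mem_tg_self hp))
    obtain ⟨r, rfl⟩ : ∃ r, R = 4 * r := ⟨R / 4, by ring⟩
    have hr : 0 < r := by linarith
    have hB := isCompact_closedBall z (4 * r)
    have hBn : (closedBall z (4 * r)).Nonempty := ⟨z, mem_closedBall_self hR.le⟩
    obtain ⟨x1, hx1, m1⟩ := hB.exists_isMinOn hBn ((A.continuousOn_ch hwm p).mono hRT)
    obtain ⟨x2, hx2, m2⟩ := hB.exists_isMaxOn hBn ((A.continuousOn_ch hwp p).mono hRT)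
    obtain ⟨η1, hη1, k1⟩ := nhds_basis_closedBall.mem_iff.1
      (hΦ.isOpen.mem_nhds (hI _ (hRT hx1).2).1)
    obtain ⟨η2, hη2, k2⟩ := nhds_basis_closedBall.mem_iff.1
      (hΦ.isOpen.mem_nhds (hI _ (hRT hx2).2).2.1)
    set η := min η1 η2
    have hη : 0 < η := lt_min hη1 hη2
    set a := wm (e.symm x1) - η with ha
    set b := wp (e.symm x2) + η with hb
    have hab : Icc a b ⊆ I := hΦ.ord.out
      (k1 (mem_closedBall_iff_norm.2 (by
        rw [ha, sub_sub_cancel_left, norm_neg, Real.norm_eq_abs, abs_of_pos hη]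
        exact min_le_left _ _)))
      (k2 (mem_closedBall_iff_norm.2 (by
        rw [hb, add_sub_cancel_left, Real.norm_eq_abs, abs_of_pos hη]
        exact min_le_right _ _)))
    have hbd : ∀ x ∈ closedBall z (4 * r), a + η ≤ wm (e.symm x) ∧ wp (e.symm x) + η ≤ b :=
      fun x hx => ⟨by have : wm (e.symm x1) ≤ wm (e.symm x) := m1 hx; linarith,
        by have : wp (e.symm x) ≤ wp (e.symm x2) := m2 hx; linarith⟩
    have hrT : ball z r ⊆ closedBall z (4 * r) :=
      ball_subset_closedBall.trans (closedBall_subset_closedBall (by linarith))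
    let y : ℕ → E n := TopologicalSpace.denseSeq (E n)
    let ε : ℕ → ℝ := fun j => η / 3 * (1 / ((j : ℝ) + 1))
    have hε : ∀ j, 0 < ε j := fun j => by positivity
    have hεη : ∀ j, 3 * ε j ≤ η := fun j => by
      have : 1 / ((j : ℝ) + 1) ≤ 1 := Nat.one_div_le_one_div (Nat.zero_le j) |>.trans (by simp)
      simp only [ε]; nlinarith
    have hε0 : Tendsto ε atTop (𝓝 0) := by
      simpa only [mul_zero] using tendsto_one_div_add_atTop_nhds_zero_nat.const_mul (η / 3)
    have happ : ∀ δ > 0, ∀ m : ℕ, ∃ v, PS A J Φ c Ω wm wp v ∧ ∀ k < m,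
        u (e.symm (y k)) - δ ≤ v (e.symm (y k)) := fun δ hδ m => by
      induction m with
      | zero => exact ⟨wm, h0, fun k hk => absurd hk (Nat.not_lt_zero k)⟩
      | succ m ih =>
        obtain ⟨v, hv, H⟩ := ih
        obtain ⟨_, ⟨v', hv', rfl⟩, H'⟩ := exists_lt_of_lt_csSup (hne (e.symm (y m)))
          (sub_lt_self _ hδ)
        refine ⟨_, hv.max hv', fun k hk => ?_⟩
        rcases Nat.lt_succ_iff_lt_or_eq.1 hk with h | rfl
        · exact (H k h).trans (le_max_left _ _)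
        · exact H'.le.trans (le_max_right _ _)
    choose v hv Hv using fun j => happ (ε j) (hε j) j
    choose w v' hw hv' Hw using fun j =>
      lift hP hΩ hJ hΦ hc hwp hsup hr hRT hab hbd (hε j) (hεη j) (hv j)
    obtain ⟨lo, hi, hlo, -, hell⟩ := exists_ell2 hB
      (fun i j => ((hJ.riem p).contDiffOn i j).continuousOn.mono hRT)
      fun x hx => (hJ.riem p).posDef x (hRT hx)
    have h1T : closedBall z r ⊆ A.tg p Ω := (closedBall_subset_closedBall (by linarith)).trans hRT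
    have hF : Fam Φ ((c ∘ e.symm) '' closedBall z (4 * r)) a b lo hi r (fun _ : ℕ => z)
        (fun _ => J.G p) (fun _ => J.β p) (fun _ => c ∘ e.symm) w :=
      ⟨hlo, hr, fun i j => LB.single hT ((hJ.riem p).contDiffOn i j) h1T,
        fun _ x hx => hell x (hrT hx), LB.single hT (hJ.βs p) h1T, LB.single hT (hc p) h1T,
        fun _ x hx => mem_image_of_mem _ (hrT hx), fun j => (hw j).contDiffOn,
        fun j x hx => (Hw j x hx).2.2.1, fun j x hx => (Hw j x hx).2.2.2⟩
    have hL := hE n ℕ P Φ I _ a b lo hi r _ _ _ _ _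
      (hΦ.mono (by rintro _ ⟨x, hx, rfl⟩; exact ⟨_, (hRT hx).2, rfl⟩))
      (hB.image_of_continuousOn ((hc p).continuousOn.mono hRT)) hab hF
    obtain ⟨ψ, h, hψ, hlim⟩ := (hA n ℝ z (r / 2) w hL).1
    obtain ⟨hh, hjet⟩ := (hA n ℝ z (r / 2) (fun j => w (ψ j))
      (hL.reindex ψ fun _ => subset_rfl)).2 h hlim
    have hs : ball z (r / 2 / 2) ⊆ ball z r := ball_subset_ball (by linarith)
    have hsT : ball z (r / 2 / 2) ⊆ A.tg p Ω := hs.trans (hrT.trans hRT)
    have hεψ := hε0.comp hψ.tendsto_atTop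
    have e1 : ∀ x ∈ ball z (r / 2 / 2), h x ≤ u (e.symm x) := fun x hx => by
      have := le_of_tendsto' ((hlim x hx).sub (hεψ.const_mul 3)) fun j =>
        (Hw (ψ j) x (hs hx)).2.1.trans (le_u _ (hv' _) _ (hsT hx).2)
      simpa using this
    have e2 : ∀ k, y k ∈ ball z (r / 2 / 2) → u (e.symm (y k)) ≤ h (y k) := fun k hk => by
      have := ge_of_tendsto ((hlim _ hk).add (hεψ.const_mul 4)) (b := u (e.symm (y k))) (by
        filter_upwards [hψ.tendsto_atTop.eventually_gt_atTop k] with j hj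
        have := Hv (ψ j) k hj
        have := (Hw (ψ j) _ (hs hk)).1
        simp only [Function.comp]; linarith)
      simpa using this
    have e3 : ∀ x ∈ ball z (r / 2 / 2), (u ∘ e.symm) x = h x := fun x hx => by
      refine le_antisymm (csSup_le (hne _) ?_) (e1 x hx)
      rintro _ ⟨f, hf, rfl⟩
      by_contra hh'
      have hcx : ContinuousAt (fun x => (f ∘ e.symm) x - h x) x :=
        (((A.continuousOn_ch hf.cont p).mono hsT).sub hh.continuousOn).continuousAt
          (isOpen_ball.mem_nhds hx)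
      obtain ⟨k, hk1, hk2⟩ := (TopologicalSpace.denseRange_denseSeq (E n)).mem_nhds
        ((hcx.eventually (lt_mem_nhds (sub_pos.2 (not_le.1 hh')))).and (isOpen_ball.mem_nhds hx))
      have := le_u f hf _ (hsT hk2).2
      have := e2 k hk2
      simp only [Function.comp] at hk1
      linarith
    have hzb : z ∈ ball z (r / 2 / 2) := mem_ball_self (by positivity)
    have e4 : u ∘ e.symm =ᶠ[𝓝 z] h := by
      filter_upwards [isOpen_ball.mem_nhds hzb] with x hx using e3 x hx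
    have e5 : e.symm z = p := e.left_inv (A.mem p)
    have e6 : u p = h z := by rw [← e3 z hzb, Function.comp, e5]
    refine ⟨r / 2 / 2, by positivity, hsT, hh.congr e3, ?_⟩
    obtain ⟨t1, t2⟩ := tendsto_cQ (β := J.β p) (riem_mono (hJ.riem p) isOpen_ball hsT)
      (fun j => (hw (ψ j)).contDiffOn) hh hzb fun k => (hjet k).tendsto_at hzb
    have hzI : h z ∈ I := by
      rw [← e6]
      exact hΦ.ord.out (hI p hp).1 (hI p hp).2.1 ⟨le_u _ h0 p hp, csSup_le (hne p) (hup p hp)⟩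
    have t3 := (hΦ.at (c p) hzI _).continuousAt.tendsto.comp
      (tendsto_const_nhds.prodMk_nhds ((hlim z hzb).prodMk_nhds
        (t2.inv₀ (cW_pos (hJ.riem p) (hsT hzb) h).ne')))
    rw [cQ_congr e4, cW_congr e4, e6]
    refine tendsto_nhds_unique t1 (t3.congr fun j => ?_)
    rw [(Hw (ψ j) z (hs hzb)).2.2.2, ← he, e5]; rfl
  have hsm : A.SmOn Ω u := Atl.smOn_of_local fun p hp => by
    obtain ⟨s, hs, -, h2, -⟩ := key p hp
    exact ⟨_, (A.ch p).isOpen_inter_preimage isOpen_ball, ⟨A.mem p, mem_ball_self hs⟩,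
      (A.smOn_of_ch h2 p).congr fun q hq => (Atl.ch_apply u hq.1).symm⟩
  refine ⟨u, ⟨hsm, fun p hp => ?_⟩, fun p hp => ⟨le_u _ h0 p hp, csSup_le (hne p) (hup p hp)⟩⟩
  obtain ⟨e1, e2⟩ := hJ.chart p p hp (A.mem p) u (hsm.smN hΩ hp)
  obtain ⟨s, -, -, -, h3⟩ := key p hp
  rw [e1, e2, h3]

end Crest.Agent.N222.J
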