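import Crest.Agent.N222.J.Defs
import Crest.Agent.N346.Bd.Lin

/-!
# Row 222, toolbox J (helper41): bridge to `N346.Id` (`φ = 1`), nondivergence form, touching
-/

set_option autoImplicit false

open Set Filter Topology Metric
open scoped ContDiff
open Crest.GeometryTopology.CoordMetric Crest.MathPhysics.ExteriorData
open Crest.Agent.R202.Tens Crest.Agent.R247.Bo84 Crest.Agent.N346.Id

noncomputable section

namespace Crest.Agent.N222.J

variable {n : ℕ} {g : MetricField n} {β : E n → Fin n → ℝ} {u φ : E n → ℝ} {U : Set (E n)}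
  {x : E n}

/-- the constant warping factor -/
abbrev one : E n → ℝ := fun _ => 1

theorem jd (hg : IsRiemannianOn g U) (hu : ContDiffOn ℝ ∞ u U) : Jd g one u U :=
  ⟨hg, contDiffOn_const, hu, fun _ _ => one_pos⟩

theorem gm_one (g : MetricField n) (u : E n → ℝ) : gm g one u = cW g u := by
  funext x; simp [gm, N346.Id.sq, cW]

theorem wv_one (g : MetricField n) (u : E n → ℝ) :
    wv g one u = fun x => (cW g u x)⁻¹ • grad g u x := by
  funext x; simp [wv, gm_one]

theorem lv_one : lv (one : E n → ℝ) = fun _ => 0 := by funext x; simp [lv]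

theorem aa_one (g : MetricField n) (u : E n → ℝ) (x : E n) : aa g one u x = 0 := by
  simp [aa, lv_one]

theorem Vv_one (g : MetricField n) (u : E n → ℝ) (x : E n) : Vv g one u x = 0 := by
  rw [Vv, lv_one, grad_const]

theorem Pv_one (g : MetricField n) (u : E n → ℝ) (x : E n) : Pv g one u x = 0 := by
  rw [Pv, lv_one, grad_const, aa_one]; simp

theorem gb_one (g : MetricField n) (u : E n → ℝ) (x : E n) :
    gb g one u x = g x + Matrix.vecMulVec (d1 u x) (d1 u x) := by
  ext i j; simp [gb, XX, d1, Matrix.vecMulVec_apply]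

theorem inv_gb_one (g : MetricField n) (u : E n → ℝ) (x : E n) :
    inverseField (gb g one u) x = jA (g x) (d1 u x) := by
  rw [inverseField, gb_one, jA]

theorem one_le_cW (hg : IsRiemannianOn g U) (hx : x ∈ U) (u : E n → ℝ) : 1 ≤ cW g u x :=
  Real.one_le_sqrt.2 (by linarith [gam_self_nonneg hg hx u])

theorem cW_pos (hg : IsRiemannianOn g U) (hx : x ∈ U) (u : E n → ℝ) : 0 < cW g u x :=
  one_pos.trans_le (one_le_cW hg hx u)

theorem cW_inv_mem (hg : IsRiemannianOn g U) (hx : x ∈ U) (u : E n → ℝ) :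
    (cW g u x)⁻¹ ∈ Icc (0 : ℝ) 1 :=
  ⟨(inv_pos.2 (cW_pos hg hx u)).le, inv_le_one_of_one_le₀ (one_le_cW hg hx u)⟩

theorem cW_sq (hg : IsRiemannianOn g U) (hx : x ∈ U) (u : E n → ℝ) :
    cW g u x ^ 2 = 1 + gam g u u x :=
  Real.sq_sqrt (by linarith [gam_self_nonneg hg hx u])

theorem contDiffAt_cW (hg : IsRiemannianOn g U) (hu : ContDiffOn ℝ ∞ u U) (hx : x ∈ U) :
    ContDiffAt ℝ ∞ (cW g u) x := gm_one g u ▸ (jd hg hu).c_gm hx

/-- `Q = div X + β(X)` -/
theorem cQ_div (hg : IsRiemannianOn g U) (hu : ContDiffOn ℝ ∞ u U) (hx : x ∈ U) :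
    cQ g β u x = divg g (wv g one u) x + ∑ i, β x i * wv g one u x i := by
  have hW := cW_pos hg hx u
  have h1 : DifferentiableAt ℝ (fun y => (cW g u y)⁻¹) x :=
    ((contDiffAt_cW hg hu hx).differentiableAt (by simp)).inv hW.ne'
  rw [wv_one, divg_smul hg hx h1 (differentiableAt_grad hg hx ((jd hg hu).cf2 hx)), divg_grad, cQ,
    gam_eq_fderiv_grad' hg hx, Finset.sum_div]
  simp only [PiLp.smul_apply, smul_eq_mul]
  congr 1
  · rw [div_eq_inv_mul]
  · exact Finset.sum_congr rfl fun i _ => by rw [div_eq_inv_mul]; ring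

/-- `Q = H₀ + β(X)` -/
theorem cQ_H0 (hg : IsRiemannianOn g U) (hu : ContDiffOn ℝ ∞ u U) (hx : x ∈ U) :
    cQ g β u x = H0 g one u x + ∑ i, β x i * wv g one u x i := by
  rw [cQ_div hg hu hx, (jd hg hu).divg_wv hx, aa_one, mul_zero, sub_zero]

theorem H0_one (hg : IsRiemannianOn g U) (hu : ContDiffOn ℝ ∞ u U) (hx : x ∈ U) :
    H0 g one u x = traceK (gb g one u) (hessM g u) x / cW g u x := by
  rw [(jd hg hu).H0_eq hx, aa_one, gm_one]; ring

theorem hessM_eq (g : MetricField n) (hu : ContDiffAt ℝ 2 u x) (i j : Fin n) :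
    hessM g u x i j = d2 u x i j - ∑ k, christoffel g x k i j * d1 u x k := by
  have hd : DifferentiableAt ℝ (fderiv ℝ u) x :=
    (hu.fderiv_right (m := 1) (by norm_num)).differentiableAt (by norm_num)
  have h1 : d2 u x i j = fderiv ℝ (fderiv ℝ u) x (EuclideanSpace.single i 1)
      (EuclideanSpace.single j 1) := by
    change fderiv ℝ (fun y => fderiv ℝ u y (EuclideanSpace.single j 1)) x _ = _
    rw [fderiv_clm_apply hd (differentiableAt_const _)]
    simp
  rw [hessM, Matrix.of_apply, hess_apply, h1, clm_eq_sum (fderiv ℝ u x)]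
  congr 1
  refine Finset.sum_congr rfl fun k _ => ?_
  rw [Gam_apply]
  simp [d1, pderiv, ee]

theorem nd : NdStmt := by
  intro n g β u U hg hu x hx
  rw [cQ_H0 hg hu hx, H0_one hg hu hx, jQ, add_div, ← cW_eq, traceK, inv_gb_one, wv_one]
  congr 1
  · simp only [hessM_eq g ((jd hg hu).cf2 hx)]
  · rw [Finset.sum_div]
    refine Finset.sum_congr rfl fun i _ => ?_
    rw [PiLp.smul_apply, smul_eq_mul, grad_apply, div_eq_inv_mul]
    simp only [inverseField, d1]
    ring

theorem d1_congr (h : fderiv ℝ u x = fderiv ℝ φ x) : d1 u x = d1 φ x := by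
  funext i; simp only [d1, pderiv, h]

theorem touch : TouchStmt := by
  intro n g β u φ U hg hu hφ x hx h
  have hu2 := (jd hg hu).cf2 hx
  have hφ2 := (jd hg hφ).cf2 hx
  have h1 := d1_congr (N346.Bd.touch_of_max hu2 hφ2 h).1
  have hW : cW g u x = cW g φ x := by rw [cW_eq, cW_eq, h1]
  refine ⟨hW, ?_⟩
  have h2 := N346.Bd.traceK_hessM_le_of_max (jd hg hu).riemb hx g hu2 hφ2 h
  have h3 : traceK (gb g one u) (hessM g φ) x = traceK (gb g one φ) (hessM g φ) x := by
    rw [traceK, traceK, inv_gb_one, inv_gb_one, h1]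
  have h4 : grad g u x = grad g φ x := by
    rw [grad_eq_sharp, grad_eq_sharp, (N346.Bd.touch_of_max hu2 hφ2 h).1]
  rw [cQ_H0 hg hu hx, cQ_H0 hg hφ hx, H0_one hg hu hx, H0_one hg hφ hx, wv_one, wv_one, ← h3]
  simp only [hW, h4]
  gcongr
  exact (cW_pos hg hx φ).le

theorem cW_congr (h : u =ᶠ[𝓝 x] φ) : cW g u x = cW g φ x := by
  rw [cW, cW, gam_congr h h]

theorem cQ_congr (h : u =ᶠ[𝓝 x] φ) : cQ g β u x = cQ g β φ x := by
  have h1 : (fun y => (cW g u y)⁻¹) =ᶠ[𝓝 x] fun y => (cW g φ y)⁻¹ :=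
    h.eventuallyEq_nhds.mono fun y hy => by simp only [cW_congr hy]
  rw [cQ, cQ, lap_congr h, cW_congr h, gam_congr h h1, grad_congr h]

theorem cW_add_const (g : MetricField n) (u : E n → ℝ) (s : ℝ) :
    cW g (fun y => u y + s) = cW g u := by
  funext x; simp only [cW, gam, pderiv, fderiv_add_const]

theorem cQ_add_const (g : MetricField n) (β : E n → Fin n → ℝ) (u : E n → ℝ) (s : ℝ) :
    cQ g β (fun y => u y + s) = cQ g β u := by
  funext x
  simp only [cQ, cW_add_const, laplaceBeltrami, gam, grad, pderiv, fderiv_add_const]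

theorem cW_const (g : MetricField n) (s : ℝ) (x : E n) : cW g (fun _ => s) x = 1 := by
  simp [cW, gam_const_left]

theorem cQ_const (g : MetricField n) (β : E n → Fin n → ℝ) (s : ℝ) (x : E n) :
    cQ g β (fun _ => s) x = 0 := by
  simp [cQ, lap_const, gam_const_left, grad_const]

/-- the operator and the tilt only see the germs of the data -/
theorem cW_congr_g {g' : MetricField n} (h : g x = g' x) (u : E n → ℝ) :
    cW g u x = cW g' u x := by rw [cW_eq, cW_eq, h]

theorem cQ_congr_g {g' : MetricField n} {β' : E n → Fin n → ℝ} (h : g =ᶠ[𝓝 x] g')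
    (hβ : β x = β' x) (u : E n → ℝ) : cQ g β u x = cQ g' β' u x := by
  have h0 := h.eq_of_nhds
  have h1 : (fun y => (cW g u y)⁻¹) =ᶠ[𝓝 x] fun y => (cW g' u y)⁻¹ :=
    h.mono fun y hy => by simp only [cW_congr_g hy]
  have h2 : laplaceBeltrami g u x = laplaceBeltrami g' u x := by
    simp only [laplaceBeltrami, h0, pderiv]
    congr 1
    refine Finset.sum_congr rfl fun i _ => ?_
    congr 1
    exact Filter.EventuallyEq.fderiv_eq (h.mono fun y hy => by simp only [inverseField, hy])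
  rw [cQ, cQ, h2, cW_congr_g h0, gam_congr (EventuallyEq.refl _ u) h1, hβ]
  simp only [gam, grad, inverseField, h0]

end Crest.Agent.N222.J
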