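import Crest.Agent.N222.J.LK
import Crest.Agent.N222.J.Nd
import Crest.Agent.N346.An.Ex
import Crest.Agent.N346.An.Lin

/-!
# Row 222, toolbox J, leaf Tor (helper62): existence on a torus from `EstStmt`, `NdStmt` and the
Leray-Schauder theorem `N346.An.ex2'`.
-/

set_option autoImplicit false

open Set Filter Topology Metric
open scoped ContDiff
open Crest.GeometryTopology.CoordMetric
open Crest.Agent.R247.Bo84
open Crest.Agent.R238 (Ell)
open Crest.Agent.N346.An (Per UB UB1 UC UPos Sys Adm SysCont APri Y0 Y1 N0 N1 st xi aD2 Pol)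

noncomputable section

namespace Crest.Agent.N222.J

namespace Tor

variable {n : ℕ}

/-! ### matrices -/

section mat

variable {lo : ℝ} {A : Matrix (Fin n) (Fin n) ℝ}

/-- symmetric and elliptic from below -/
def Lo (lo : ℝ) (A : Matrix (Fin n) (Fin n) ℝ) : Prop :=
  (∀ i j, A i j = A j i) ∧ ∀ z : Fin n → ℝ, lo * ∑ i, z i ^ 2 ≤ ∑ i, ∑ j, A i j * z i * z j

theorem sq_nn (z : Fin n → ℝ) : 0 ≤ ∑ i, z i ^ 2 := Finset.sum_nonneg fun _ _ => sq_nonneg _

theorem Lo.ell {C : ℝ} (h : Lo lo A) (hC : ∀ i j, |A i j| ≤ C) : Ell lo (max (C * n) lo) A :=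
  ⟨h.1, fun z => ⟨h.2 z, ((le_abs_self _).trans (R238.sm_quad_abs_le hC z)).trans
    (mul_le_mul_of_nonneg_right (le_max_left _ _) (sq_nn z))⟩⟩

theorem Lo.ex (h : Lo lo A) : ∃ hi, lo ≤ hi ∧ Ell lo hi A :=
  ⟨_, le_max_right _ _, h.ell (C := ∑ i, ∑ j, |A i j|) fun i j =>
    (Finset.single_le_sum (f := fun j => |A i j|) (fun _ _ => abs_nonneg _)
      (Finset.mem_univ j)).trans (Finset.single_le_sum (f := fun i => ∑ j, |A i j|)
        (fun _ _ => Finset.sum_nonneg fun _ _ => abs_nonneg _) (Finset.mem_univ i))⟩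

theorem Lo.posDef (hlo : 0 < lo) (h : Lo lo A) : A.PosDef :=
  let ⟨_, _, h⟩ := h.ex; h.sm_posDef hlo

theorem Lo.graph (h : Lo lo A) (p : Fin n → ℝ) : Lo lo (A + Matrix.vecMulVec p p) := by
  refine ⟨fun i j => by simp only [Matrix.add_apply, Matrix.vecMulVec_apply, h.1 i j, mul_comm],
    fun z => ?_⟩
  have e : ∑ i, ∑ j, (A + Matrix.vecMulVec p p) i j * z i * z j
      = ∑ i, ∑ j, A i j * z i * z j + (∑ i, p i * z i) ^ 2 := by
    rw [sq, Finset.sum_mul_sum, ← Finset.sum_add_distrib]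
    refine Finset.sum_congr rfl fun i _ => ?_
    rw [← Finset.sum_add_distrib]
    refine Finset.sum_congr rfl fun j _ => ?_
    rw [Matrix.add_apply, Matrix.vecMulVec_apply]
    ring
  rw [e]
  exact (h.2 z).trans (le_add_of_nonneg_right (sq_nonneg _))

theorem quad_one (z : Fin n → ℝ) :
    ∑ i, ∑ j, (1 : Matrix (Fin n) (Fin n) ℝ) i j * z i * z j = ∑ i, z i ^ 2 := by
  simp [Matrix.one_apply, sq]

theorem ell_one : Ell 1 1 (1 : Matrix (Fin n) (Fin n) ℝ) :=
  ⟨fun i j => by simp [Matrix.one_apply, eq_comm], fun z => by simp only [quad_one, one_mul, le_refl,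
    and_self]⟩

theorem Lo.mix (h : Lo lo A) {t : ℝ} (ht : t ∈ Icc (0 : ℝ) 1) :
    Lo (min lo 1) (t • A + (1 - t) • (1 : Matrix (Fin n) (Fin n) ℝ)) := by
  refine ⟨fun i j => by
    simp only [Matrix.add_apply, Matrix.smul_apply, h.1 i j, ell_one.1 i j], fun z => ?_⟩
  have e : ∑ i, ∑ j, (t • A + (1 - t) • (1 : Matrix (Fin n) (Fin n) ℝ)) i j * z i * z j
      = t * ∑ i, ∑ j, A i j * z i * z j + (1 - t) * ∑ i, z i ^ 2 := by
    rw [← quad_one]
    simp only [Finset.mul_sum, ← Finset.sum_add_distrib]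
    refine Finset.sum_congr rfl fun i _ => Finset.sum_congr rfl fun j _ => ?_
    simp only [Matrix.add_apply, Matrix.smul_apply, smul_eq_mul]
    ring
  rw [e]
  have h1 := mul_le_mul_of_nonneg_right (min_le_left lo 1) (sq_nn z)
  have h2 := mul_le_mul_of_nonneg_right (min_le_right lo 1) (sq_nn z)
  have h3 := mul_le_mul_of_nonneg_left (h1.trans (h.2 z)) ht.1
  have h4 := mul_le_mul_of_nonneg_left h2 (sub_nonneg.2 ht.2)
  linarith

theorem Lo.inv0 (hlo : 0 < lo) (h : Lo lo A) : Ell 0 (1 / lo) A⁻¹ := by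
  obtain ⟨hi, h1, h2⟩ := h.ex
  exact (h2.sm_inv hlo h1).sm_mono (one_div_pos.2 (hlo.trans_le h1)).le le_rfl

theorem Lo.one_le (hlo : 0 < lo) (h : Lo lo A) (p : Fin n → ℝ) :
    1 ≤ 1 + ∑ i, ∑ j, A⁻¹ i j * p i * p j :=
  le_add_of_nonneg_right (by simpa using ((h.inv0 hlo).2 p).1)

theorem Lo.one_le_jW (hlo : 0 < lo) (h : Lo lo A) (p : Fin n → ℝ) : 1 ≤ jW A p :=
  Real.one_le_sqrt.2 (h.one_le hlo p)

end mat

theorem exists_lo {g : MetricField n} {L : ℝ} (hg : IsRiemannianOn g univ) (hL : 0 < L)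
    (hp : Per L g) : ∃ lo, 0 < lo ∧ ∀ x, Lo lo (g x) := by
  have hc : ∀ i j, Continuous fun x => g x i j := fun i j =>
    (contDiffOn_univ.1 (hg.contDiffOn i j)).continuous
  have hQ : Continuous fun w : E n × E n => ∑ i, ∑ j, g w.1 i j * w.2 i * w.2 j :=
    continuous_finsetSum _ fun i _ => continuous_finsetSum _ fun j _ =>
      (((hc i j).comp continuous_fst).mul (by fun_prop)).mul (by fun_prop)
  obtain ⟨c, hc0, H⟩ := ((isCompact_closedBall (0 : E n) (√(n * L ^ 2))).prod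
    (isCompact_sphere (0 : E n) 1)).exists_forall_le' hQ.continuousOn (a := 0) (by
      rintro ⟨x, v⟩ ⟨-, hv⟩
      have h0 : (fun i => v i) ≠ 0 := fun h => by
        have : v = 0 := by ext i; exact congrFun h i
        simp [this] at hv
      have := (hg.posDef x trivial).dotProduct_mulVec_pos h0
      rw [star_trivial, R238.sm_quad_eq] at this
      exact this)
  refine ⟨c, hc0, fun x => ⟨fun i j => ?_, fun z => ?_⟩⟩
  · simpa using (hg.posDef x trivial).1.apply j i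
  obtain ⟨y, hy, e⟩ := hp.reduce hL x
  rw [← e]
  set v : E n := WithLp.toLp 2 z with hv
  have hn : ∑ i, z i ^ 2 = ‖v‖ ^ 2 := (EuclideanSpace.real_norm_sq_eq v).symm
  rcases eq_or_ne v 0 with h0 | h0
  · have : ∀ i, z i = 0 := fun i => congrArg (fun w : E n => w i) h0
    simp [this]
  have hn0 : 0 < ‖v‖ := norm_pos_iff.2 h0
  have h1 := H (y, ‖v‖⁻¹ • v) ⟨hy, by simp [norm_smul, hn0.ne']⟩
  have e2 : ∑ i, ∑ j, g y i j * z i * z j
      = (∑ i, ∑ j, g y i j * (‖v‖⁻¹ • v) i * (‖v‖⁻¹ • v) j) * ‖v‖ ^ 2 := by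
    simp only [Finset.sum_mul]
    refine Finset.sum_congr rfl fun i _ => Finset.sum_congr rfl fun j _ => ?_
    have : ∀ i, (‖v‖⁻¹ • v) i = ‖v‖⁻¹ * z i := fun _ => rfl
    rw [this, this]
    field_simp
  rw [hn, e2]
  exact mul_le_mul_of_nonneg_right h1 (sq_nonneg _)

/-! ### the coefficients on jets -/

/-- the right hand side of the nondivergence form -/
def rhs {P : Type} (Φ : P × ℝ × ℝ → ℝ) (G : Matrix (Fin n) (Fin n) ℝ)
    (Γ : Fin n → Fin n → Fin n → ℝ) (b p : Fin n → ℝ) (c : P) (f : ℝ) : ℝ :=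
  jW G p * Φ (c, f, (jW G p)⁻¹) - ∑ i, b i * ∑ j, G⁻¹ i j * p j
    + ∑ i, ∑ j, jA G p i j * ∑ k, Γ k i j * p k

theorem rhs_zero {P : Type} (Φ : P × ℝ × ℝ → ℝ) (G : Matrix (Fin n) (Fin n) ℝ)
    (Γ : Fin n → Fin n → Fin n → ℝ) (b : Fin n → ℝ) {p : Fin n → ℝ} (hp : ∀ i, p i = 0) (c : P)
    (f : ℝ) : rhs Φ G Γ b p c f = Φ (c, f, 1) := by
  simp [rhs, jW, hp]

section gen

variable {ι Y : Type} [NormedAddCommGroup Y] [NormedSpace ℝ Y] {N : Y → ℝ} {lo : ℝ}
  {G : ι → Y → Matrix (Fin n) (Fin n) ℝ} {p b : ι → Y → Fin n → ℝ}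

theorem ub_ent (hG : ∀ k l, UB N fun i y => G i y k l) (M : ℝ) :
    ∃ C, ∀ i y, N y ≤ M → ∀ k l, |G i y k l| ≤ C := by
  obtain ⟨C, -, hC⟩ :=
    (UB.pi (w := fun i y k l => G i y k l) fun k => UB.pi fun l => hG k l).bdd M
  exact ⟨C, fun i y hy k l => ((norm_le_pi_norm (fun l => G i y k l) l).trans
    (norm_le_pi_norm (fun k l => G i y k l) k)).trans (hC i y hy)⟩

theorem ub_graph (hG : ∀ k l, UB N fun i y => G i y k l) (hp : ∀ k, UB N fun i y => p i y k)
    (k l : Fin n) : UB N fun i y => (G i y + Matrix.vecMulVec (p i y) (p i y)) k l :=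
  ((hG k l).add ((hp k).mul (hp l))).congr fun _ _ => by
    rw [Matrix.add_apply, Matrix.vecMulVec_apply]

variable (hlo : 0 < lo) (hG : ∀ k l, UB N fun i y => G i y k l) (he : ∀ i y, Lo lo (G i y))

include hlo hG he

theorem ub_inv (k l : Fin n) : UB N fun i y => (G i y)⁻¹ k l := by
  refine UB.matInv hG ⟨fun i y => ((he i y).posDef hlo).det_pos, fun M => ?_⟩ k l
  obtain ⟨C, hC⟩ := ub_ent hG M
  obtain ⟨c, hc, H⟩ := det_lower n hlo (max (C * n) lo) C
  exact ⟨c, hc, fun i y hy => H _ ((he i y).ell (hC i y hy)) (hC i y hy)⟩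

variable (hp : ∀ k, UB N fun i y => p i y k)

include hp

theorem ub_jA (k l : Fin n) : UB N fun i y => jA (G i y) (p i y) k l :=
  ub_inv hlo (ub_graph hG hp) (fun i y => (he i y).graph _) k l

theorem ell_jA (M : ℝ) : ∃ lo' hi' : ℝ, 0 < lo' ∧ lo' ≤ 1 ∧ 1 ≤ hi' ∧
    ∀ i y, N y ≤ M → Ell lo' hi' (jA (G i y) (p i y)) := by
  obtain ⟨C, hC⟩ := ub_ent (ub_graph hG hp) M
  have h1 : 0 < max (C * n) lo := hlo.trans_le (le_max_right _ _)
  exact ⟨min (1 / max (C * n) lo) 1, max (1 / lo) 1, by positivity, min_le_right _ _,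
    le_max_right _ _, fun i y hy => ((((he i y).graph _).ell (hC i y hy)).sm_inv hlo
      (le_max_right _ _)).sm_mono (min_le_left _ _) (le_max_left _ _)⟩

theorem ub_jW : UB N fun i y => jW (G i y) (p i y) :=
  ((UB.const' 1).add (UB.sum _ fun k _ => UB.sum _ fun l _ =>
    ((ub_inv hlo hG he k l).mul (hp k)).mul (hp l))).sqrt
    (UPos.of_le one_pos fun i y => (he i y).one_le hlo _)

theorem ub_rhs {P : Type} [NormedAddCommGroup P] [NormedSpace ℝ P] [FiniteDimensional ℝ P]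
    {Φ : P × ℝ × ℝ → ℝ} (hΦ : ContDiff ℝ ∞ Φ) {Γ : ι → Y → Fin n → Fin n → Fin n → ℝ}
    (hΓ : ∀ k j l, UB N fun i y => Γ i y k j l) (hb : ∀ k, UB N fun i y => b i y k)
    {c : ι → Y → P} (hc : UB N c) {f : ι → Y → ℝ} (hf : UB N f) :
    UB N fun i y => rhs Φ (G i y) (Γ i y) (b i y) (p i y) (c i y) (f i y) := by
  have hW := ub_jW hlo hG he hp
  have hW' := hW.inv (UPos.of_le one_pos fun i y => (he i y).one_le_jW hlo _)
  exact ((hW.mul ((hc.prodMk (hf.prodMk hW')).comp_smooth hΦ)).sub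
    (UB.sum _ fun k _ => (hb k).mul (UB.sum _ fun l _ => (ub_inv hlo hG he k l).mul (hp l)))).add
    (UB.sum _ fun j _ => UB.sum _ fun l _ => (ub_jA hlo hG he hp j l).mul
      (UB.sum _ fun k _ => (hΓ k j l).mul (hp k)))

end gen

/-! ### the periodic maximum principle -/

section maxp

variable {L κ B : ℝ} {f : E n → ℝ} {A : E n → Matrix (Fin n) (Fin n) ℝ} {ψ : E n → ℝ → ℝ}

theorem c0_up (hL : 0 < L) (hf : ContDiff ℝ 2 f) (hp : Per L f) (hκ : 0 < κ) (hB : 0 ≤ B)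
    (hA : ∀ x, ∃ hi, Ell 0 hi (A x))
    (he : ∀ x, (∀ i, pderiv i f x = 0) → aD2 A f x = ψ x (f x))
    (hψ : ∀ x s, 0 ≤ s → κ * s - B ≤ ψ x s) (x : E n) : f x ≤ B / κ := by
  obtain ⟨x0, h0⟩ := hp.exists_max hL hf.continuous
  have hm : IsLocalMax f x0 := Eventually.of_forall h0
  obtain ⟨hi, hA⟩ := hA x0
  have h1 := NLib.Ell.contr_le le_rfl le_rfl hA (R238.Sch.D2 f x0)
    (NLib.Ell.D2_symm hf.contDiffAt) fun v => by
      rw [zero_mul]
      exact R238.MaxP.second_deriv_nonpos_of_isLocalMax hf hm v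
  have h2 := he x0 fun i => by simp [pderiv, hm.fderiv_eq_zero]
  rw [N346.An.aD2_eq_P2_fun hf] at h2
  refine (h0 x).trans ?_
  rcases le_total (f x0) 0 with h | h
  · exact h.trans (by positivity)
  · rw [le_div_iff₀ hκ]
    have h3 := hψ x0 _ h
    rw [← h2] at h3
    unfold R273.SchB_152.P2 at h3
    linarith

theorem c0 (hL : 0 < L) (hf : ContDiff ℝ 2 f) (hp : Per L f) (hκ : 0 < κ) (hB : 0 ≤ B)
    (hA : ∀ x, ∃ hi, Ell 0 hi (A x))
    (he : ∀ x, (∀ i, pderiv i f x = 0) → aD2 A f x = ψ x (f x))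
    (hψ : ∀ x s, 0 ≤ s → κ * s - B ≤ ψ x s ∧ ψ x (-s) ≤ B - κ * s) (x : E n) :
    |f x| ≤ B / κ := by
  refine abs_le'.2 ⟨c0_up hL hf hp hκ hB hA he (fun x s hs => (hψ x s hs).1) x, ?_⟩
  refine c0_up (f := fun x => -f x) (ψ := fun x s => -ψ x (-s)) hL hf.neg (hp.comp fun t => -t)
    hκ hB hA (fun y hy => ?_) (fun y s hs => by linarith [(hψ y s hs).2]) x
  have := he y fun i => by simpa [N346.Bs.pd_neg] using hy i
  rw [N346.An.aD2_eq_P2_fun hf.neg, NLib.Ell.P2_neg_fun, ← N346.An.aD2_eq_P2_fun hf, this, neg_neg]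

theorem eq_zero (hL : 0 < L) (hf : ContDiff ℝ 2 f) (hp : Per L f)
    (hA : ∀ x, ∃ hi, Ell 0 hi (A x))
    (he : ∀ x, (∀ i, pderiv i f x = 0) → aD2 A f x = f x) : f = fun _ => 0 :=
  funext fun x => by
    simpa using c0 (ψ := fun _ s => s) hL hf hp one_pos le_rfl hA he
      (fun _ s _ => ⟨by linarith, by linarith⟩) x

end maxp

/-! ### the system and the homotopy -/

variable {P : Type} {Φ : P × ℝ × ℝ → ℝ} {g : MetricField n} {β : E n → Fin n → ℝ} {c : E n → P}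

/-- the equation as a triangular system -/
def sys (Φ : P × ℝ × ℝ → ℝ) (g : MetricField n) (β : E n → Fin n → ℝ) (c : E n → P) : Sys n where
  a1 y := jA (g y.1) y.2.2.2
  b1 _ := 0
  c1 y := rhs Φ (g y.1) (christoffel g y.1) (β y.1) y.2.2.2 (c y.1) y.2.1
  a2 _ := 1
  F2 y := y.1.2.2.1

theorem sys_sol (hN : NdStmt) (hg : IsRiemannianOn g univ) {lo : ℝ} (hlo : 0 < lo)
    (he : ∀ x, Lo lo (g x)) {f z : E n → ℝ} (h : (sys Φ g β c).Sol f z) (x : E n) :
    cQ g β f x = Φ (c x, f x, (cW g f x)⁻¹) := by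
  have hW : jW (g x) (d1 f x) ≠ 0 := (one_pos.trans_le ((he x).one_le_jW hlo _)).ne'
  have e : ∑ i, ∑ j, jA (g x) (d1 f x) i j * d2 f x i j
      = rhs Φ (g x) (christoffel g x) (β x) (d1 f x) (c x) (f x) := by
    have := h.e1 x
    simp only [sys, Pi.zero_apply, zero_mul, Finset.sum_const_zero, add_zero] at this
    exact this
  rw [hN n g β f univ hg h.sf.contDiffOn x trivial, cW_eq, jQ, div_eq_iff hW]
  simp only [mul_sub, Finset.sum_sub_distrib]
  rw [e, rhs]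
  ring

theorem per_chr {L : ℝ} (hg : Per L g) : Per L (christoffel g) :=
  Per.pi fun k => Per.pi fun i => Per.pi fun j => fun x m => by
    have h : ∀ a b d, pderiv a (fun y => g y b d) (x + EuclideanSpace.single m L)
        = pderiv a (fun y => g y b d) x := fun a b d => (hg.comp fun G => G b d).pderiv a x m
    simp only [christoffel, inverseField, h, hg x m]

theorem sys_per {L : ℝ} (hg : Per L g) (hβ : Per L β) (hc : Per L c) : (sys Φ g β c).Per L :=
  ⟨fun s => hg.comp fun G => jA G s.2.2, fun _ => Per.const _, fun s x j => by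
    simp only [sys, hg x j, per_chr hg x j, hβ x j, hc x j], fun _ => Per.const _,
    fun s _ => Per.const s.2.1⟩

/-- the homotopy of metrics -/
def gt (g : MetricField n) (t : ℝ) : MetricField n := fun x => t • g x + (1 - t) • 1

/-- the homotopy of right hand sides -/
def Φt (Φ : P × ℝ × ℝ → ℝ) (w : (P × ℝ) × ℝ × ℝ) : ℝ :=
  w.1.2 * Φ (w.1.1, w.2) + (1 - w.1.2) * w.2.1

/-- the homotopy of systems -/
def hom (Φ : P × ℝ × ℝ → ℝ) (g : MetricField n) (β : E n → Fin n → ℝ) (c : E n → P) (t : ℝ) :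
    Sys n := sys (Φt Φ) (gt g t) (fun x => t • β x) fun x => (c x, t)

theorem gt_apply (t : ℝ) (x : E n) (k l : Fin n) :
    gt g t x k l = t * g x k l + (1 - t) * (1 : Matrix (Fin n) (Fin n) ℝ) k l := rfl

theorem chr_gt (hg : ∀ k l, ContDiff ℝ ∞ fun x => g x k l) (t : ℝ) (x : E n) (k i j : Fin n) :
    christoffel (gt g t) x k i j = 1 / 2 * ∑ l, (gt g t x)⁻¹ k l * (t *
      (pderiv i (fun y => g y j l) x + pderiv j (fun y => g y i l) x
        - pderiv l (fun y => g y i j) x)) := by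
  have h : ∀ a b d, pderiv a (fun y => gt g t y b d) x = t * pderiv a (fun y => g y b d) x :=
    fun a b d => by
      simp only [gt_apply, pderiv, fderiv_add_const]
      rw [fderiv_const_mul ((hg b d).differentiable (by simp) x)]
      rfl
  simp only [christoffel, inverseField, h, mul_add, mul_sub]

theorem riem_gt (hg : ∀ k l, ContDiff ℝ ∞ fun x => g x k l) {lo : ℝ} (hlo : 0 < lo)
    (he : ∀ x, Lo lo (g x)) {t : ℝ} (ht : t ∈ Icc (0 : ℝ) 1) : IsRiemannianOn (gt g t) univ :=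
  ⟨isOpen_univ, fun k l => ((contDiff_const.mul (hg k l)).add contDiff_const).contDiffOn,
    fun x _ => ((he x).mix ht).posDef (lt_min hlo one_pos)⟩

/-- size on the space of parameters and states -/
def NT (w : ℝ × Y0 n) : ℝ := max ‖w.1‖ (N0 w.2)

section joint

variable {F : Type} [NormedAddCommGroup F] [NormedSpace ℝ F]

theorem jb_up {Θ : Y0 n → F} (h : UB N0 fun _ : Unit => Θ) :
    UB NT fun (_ : Unit) (w : ℝ × Y0 n) => Θ w.2 :=
  h.comp (UB1.clm (ContinuousLinearMap.snd ℝ ℝ (Y0 n))) fun M =>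
    ⟨M, fun _ _ hy => (le_max_right _ _).trans hy⟩

theorem jb_σ : UB NT fun (_ : Unit) (w : ℝ × Y0 n) => Real.smoothTransition w.1 :=
  ((UB1.clm (ContinuousLinearMap.fst ℝ ℝ (Y0 n))).ub fun M =>
    ⟨M, fun _ _ hy => (le_max_left _ _).trans hy⟩).comp_smooth Real.smoothTransition.contDiff

theorem nt_le {M : ℝ} (t : Icc (0 : ℝ) 1) {y : Y0 n} (hy : N0 y ≤ M) : NT (t.1, y) ≤ max 1 M :=
  max_le_max (abs_le.2 ⟨by linarith [t.2.1], t.2.2⟩) hy

theorem jb_ub {Θ : ℝ × Y0 n → F} (h : UB NT fun _ : Unit => Θ) :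
    UB N0 fun (t : Icc (0 : ℝ) 1) y => Θ (t.1, y) :=
  (h.reindex fun _ : Icc (0 : ℝ) 1 => ()).comp
    ((UB.const ⟨1, fun t : Icc (0 : ℝ) 1 =>
      (abs_le.2 ⟨by linarith [t.2.1], t.2.2⟩ : ‖t.1‖ ≤ 1)⟩).ub1.prodMk UB1.id)
    fun M => ⟨max 1 M, fun t _ hy => nt_le t hy⟩

theorem jb_cont {Θ : ℝ × Y0 n → F} (h : UB NT fun _ : Unit => Θ) (y : Y0 n) :
    ContinuousOn (fun t => Θ (t, y)) (Icc 0 1) :=
  ((h.1 ()).continuous.comp (continuous_id.prodMk continuous_const)).continuousOn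

end joint

theorem σ_mem (t : ℝ) : Real.smoothTransition t ∈ Icc (0 : ℝ) 1 :=
  ⟨Real.smoothTransition.nonneg t, Real.smoothTransition.le_one t⟩

variable [NormedAddCommGroup P] [NormedSpace ℝ P]

theorem Φt_smooth (hΦ : ContDiff ℝ ∞ Φ) : ContDiff ℝ ∞ (Φt Φ) := by
  unfold Φt
  fun_prop

variable [FiniteDimensional ℝ P] {L κ lo : ℝ}

theorem adm_cont (hL : 0 < L) (hlo : 0 < lo) (hg : ∀ k l, ContDiff ℝ ∞ fun x => g x k l)
    (he : ∀ x, Lo lo (g x)) (hβ : ContDiff ℝ ∞ β) (hc : ContDiff ℝ ∞ c) (pg : Per L g)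
    (pβ : Per L β) (pc : Per L c) (hΦ : ContDiff ℝ ∞ Φ) :
    Adm (fun t : Icc (0 : ℝ) 1 => hom Φ g β c (Real.smoothTransition t)) ∧
      SysCont fun t => hom Φ g β c (Real.smoothTransition t) := by
  have ug : ∀ k l, UC fun (_ : Unit) x => g x k l := fun k l =>
    (pg.comp fun G => G k l).uc hL (hg k l)
  have hG : ∀ k l, UB NT fun (_ : Unit) (w : ℝ × Y0 n) =>
      gt g (Real.smoothTransition w.1) w.2.1 k l := fun k l =>
    (jb_σ.mul (jb_up (ug k l).lift)).add (((UB.const' 1).sub jb_σ).mul (UB.const' _))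
  have hl : 0 < min lo 1 := lt_min hlo one_pos
  have hE : ∀ (_ : Unit) (w : ℝ × Y0 n), Lo (min lo 1) (gt g (Real.smoothTransition w.1) w.2.1) :=
    fun _ w => (he _).mix (σ_mem _)
  have hp : ∀ k, UB NT fun (_ : Unit) (w : ℝ × Y0 n) => w.2.2.2.2 k := fun k =>
    jb_up (N346.An.ub_p k)
  have hd : ∀ a b d, UB NT fun (_ : Unit) (w : ℝ × Y0 n) => pderiv a (fun y => g y b d) w.2.1 :=
    fun a b d => jb_up (UC.lift ((ug b d).pd a))
  have hΓ : ∀ k i j, UB NT fun (_ : Unit) (w : ℝ × Y0 n) =>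
      christoffel (gt g (Real.smoothTransition w.1)) w.2.1 k i j := fun k i j =>
    ((UB.sum _ fun l _ => (ub_inv hl hG hE k l).mul (jb_σ.mul
      (((hd i j l).add (hd j i l)).sub (hd l i j)))).const_mul (1 / 2)).congr
      fun _ _ => chr_gt hg _ _ k i j
  have h1 := ub_jA hl hG hE hp
  have h2 := ub_rhs hl hG hE hp (Φt_smooth hΦ) hΓ
    (b := fun _ w => Real.smoothTransition w.1 • β w.2.1)
    (fun k => (jb_σ.smul (jb_up (pβ.uc hL hβ).lift)).apply k)
    ((jb_up (pc.uc hL hc).lift).prodMk jb_σ) (jb_up N346.An.ub_f)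
  refine ⟨⟨fun k l => jb_ub (h1 k l), fun _ => UB.const' 0, jb_ub h2, fun _ _ => UB.const' _,
    Pol.coef' N346.An.ub_z 2, fun M => ?_⟩, fun y k l => jb_cont (h1 k l) y,
    fun _ _ => continuousOn_const, jb_cont h2, fun _ _ _ => continuousOn_const,
    fun _ => continuousOn_const⟩
  obtain ⟨a, b, ha, ha1, hb, H⟩ := ell_jA hl hG hE hp (max 1 M)
  exact ⟨a, b, ha, ha1.trans hb, fun t y hy => ⟨H () (t.1, y) (nt_le t hy), ell_one.sm_mono ha1 hb⟩⟩

theorem two_le : (2 : WithTop ℕ∞) ≤ ∞ := N346.An.nat_le_inf 2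

omit [NormedAddCommGroup P] [NormedSpace ℝ P] [FiniteDimensional ℝ P] in
theorem sch_bound (hL : 0 < L) (hlo : 0 < lo) (he : ∀ x, Lo lo (g x)) :
    APri L (hom Φ g β c 0).sch := by
  refine ⟨0, fun s _ f z h pf pz x => ?_⟩
  have hz : z = fun _ => 0 := eq_zero (A := fun _ => 1) hL (h.sz.of_le two_le) pz
    (fun _ => ⟨1, ell_one.sm_mono zero_le_one le_rfl⟩) fun y _ => by
      have := h.e2 y
      simp only [Sys.sch, hom, sys, st] at this
      rw [this]
      ring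
  have hf : f = fun _ => 0 := eq_zero (A := fun y => jA (gt g 0 y) (d1 f y)) hL
    (h.sf.of_le two_le) pf (fun y => ⟨_, (((he y).mix (left_mem_Icc.2 zero_le_one)).graph _).inv0
      (lt_min hlo one_pos)⟩) fun y hy => by
      have := h.e1 y
      simp only [Sys.sch, hom, sys, st, rhs_zero _ _ _ _ hy, Φt, Pi.zero_apply, mul_zero, zero_mul,
        Finset.sum_const_zero] at this
      refine Eq.trans this ?_
      ring
  subst hf hz
  have e0 : ∀ i : Fin n, pderiv i (fun _ : E n => (0 : ℝ)) = fun _ => 0 := fun i => by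
    funext x; simp [pderiv]
  simp [N1, st, xi, e0, Prod.norm_def, funext_iff]

theorem lb_of_uc {ι F : Type} [NormedAddCommGroup F] [NormedSpace ℝ F] {u : ι → E n → F}
    (h : UC u) (S : ι → Set (E n)) : LB S u :=
  ⟨fun i => (h.1 i).contDiffOn, fun k => (h.2 k 0).imp fun _ hC i x _ => hC i x le_rfl⟩

omit [FiniteDimensional ℝ P] in
theorem good (hκ : 0 < κ) (hΦ : ContDiff ℝ ∞ Φ)
    (hd : ∀ x t, ∀ v ∈ Icc (0 : ℝ) 1, κ ≤ deriv (fun s => Φ (c x, s, v)) t) :
    Good (Φt Φ) univ (range c ×ˢ Icc 0 1) := by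
  refine ⟨isOpen_univ, ordConnected_univ, (Φt_smooth hΦ).contDiffOn, ?_⟩
  rintro ⟨_, τ⟩ ⟨⟨x, rfl⟩, hτ⟩ t - v hv
  have h1 : DifferentiableAt ℝ (fun s => Φ (c x, s, v)) t :=
    (hΦ.differentiable (by simp) _).comp t (by fun_prop)
  have h2 := (h1.hasDerivAt.const_mul τ).add ((hasDerivAt_id t).const_mul (1 - τ))
  have h3 : deriv (fun s => Φt Φ ((c x, τ), s, v)) t = _ := h2.deriv
  rw [h3]
  have h4 := mul_le_mul_of_nonneg_left (hd x t v hv) hτ.1
  rcases hτ.1.eq_or_lt with h | h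
  · have : τ = 0 := h.symm
    subst this
    norm_num
  · have : τ ≤ 1 := hτ.2
    nlinarith [mul_pos h hκ]

theorem apri (hE : EstStmt) (hN : NdStmt) (hL : 0 < L) (hκ : 0 < κ) (hlo : 0 < lo)
    (hg : ∀ k l, ContDiff ℝ ∞ fun x => g x k l) (he : ∀ x, Lo lo (g x)) (hβ : ContDiff ℝ ∞ β)
    (hc : ContDiff ℝ ∞ c) (pg : Per L g) (pβ : Per L β) (pc : Per L c) (hΦ : ContDiff ℝ ∞ Φ)
    (hd : ∀ x t, ∀ v ∈ Icc (0 : ℝ) 1, κ ≤ deriv (fun s => Φ (c x, s, v)) t) :
    APri L fun t => hom Φ g β c (Real.smoothTransition t) := by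
  have hl : 0 < min lo 1 := lt_min hlo one_pos
  have hk : 0 < min κ 1 := lt_min hκ one_pos
  obtain ⟨B, hB⟩ := (pc.comp fun q => Φ (q, 0, 1)).bdd hL
    (hΦ.continuous.comp (hc.continuous.prodMk continuous_const))
  have hB0 : 0 ≤ B := (norm_nonneg _).trans (hB 0)
  -- the `C⁰` bound
  have h0 : ∀ τ ∈ Icc (0 : ℝ) 1, ∀ f z, (hom Φ g β c τ).Sol f z → Per L f →
      ∀ x, |f x| ≤ B / min κ 1 := fun τ hτ f z h pf =>
    c0 (A := fun y => jA (gt g τ y) (d1 f y)) (ψ := fun y s => Φt Φ ((c y, τ), s, 1)) hL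
      (h.sf.of_le two_le) pf hk hB0 (fun y => ⟨_, (((he y).mix hτ).graph _).inv0 hl⟩)
      (fun y hy => by
        have := h.e1 y
        simp only [hom, sys, st, rhs_zero _ _ _ _ hy, Pi.zero_apply, zero_mul,
          Finset.sum_const_zero, add_zero] at this
        exact this) fun y s hs => by
      have h1 : Differentiable ℝ fun s => Φ (c y, s, 1) :=
        (hΦ.differentiable (by simp)).comp (by fun_prop)
      have h2 := mul_sub_le_image_sub_of_le_deriv h1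
        (fun t => hd y t 1 (right_mem_Icc.2 zero_le_one))
      have h3 := h2 hs
      have h4 := h2 (neg_nonpos.2 hs)
      have h5 := abs_le.1 (hB y)
      have h6 := mul_le_mul_of_nonneg_right (min_le_left κ 1) hs
      have h7 := mul_le_mul_of_nonneg_right (min_le_right κ 1) hs
      have h8 := mul_nonneg (sub_nonneg.2 hτ.2) hB0
      have a1 : min κ 1 * s - B ≤ Φ (c y, s, 1) := by linarith [h5.1]
      have a2 : Φ (c y, -s, 1) ≤ B - min κ 1 * s := by linarith [h5.2]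
      have a3 := mul_le_mul_of_nonneg_left a1 hτ.1
      have a4 := mul_le_mul_of_nonneg_left a2 hτ.1
      have a5 := mul_le_mul_of_nonneg_left h7 (sub_nonneg.2 hτ.2)
      simp only [Φt]
      constructor <;> linarith
  -- the family of all solutions
  let ι : Type := {q : ℝ × (E n → ℝ) × E n // q.1 ∈ Icc (0 : ℝ) 1 ∧ Per L q.2.1 ∧
    ∃ z, (hom Φ g β c q.1).Sol q.2.1 z}
  have ut : UC fun (i : ι) (_ : E n) => i.1.1 :=
    UB.const ⟨1, fun i => abs_le.2 ⟨by linarith [i.2.1.1], i.2.1.2⟩⟩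
  have uG : ∀ k l, UC fun (i : ι) x => gt g i.1.1 x k l := fun k l =>
    (ut.mul ((pg.comp fun G => G k l).uc hL (hg k l))).add
      (((UB.const' 1).sub ut).mul (UB.const' _))
  obtain ⟨C, hC⟩ := ub_ent uG 0
  have hK : IsCompact (range c) := by
    have : range c = c '' closedBall 0 (√(n * L ^ 2)) :=
      Subset.antisymm (by rintro _ ⟨x, rfl⟩; exact pc.reduce hL x) (image_subset_range _ _)
    rw [this]
    exact (isCompact_closedBall _ _).image hc.continuous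
  have hF : Fam (Φt Φ) (range c ×ˢ Icc 0 1) (-(B / min κ 1)) (B / min κ 1) (min lo 1)
      (max (C * n) (min lo 1)) 1 (fun i : ι => i.1.2.2) (fun i => gt g i.1.1)
      (fun i x => i.1.1 • β x) (fun i x => (c x, i.1.1)) fun i => i.1.2.1 :=
    ⟨hl, one_pos, fun k l => lb_of_uc (uG k l) _,
      fun i x _ => ((he x).mix i.2.1).ell (hC i x le_rfl), lb_of_uc (ut.smul (pβ.uc hL hβ)) _,
      lb_of_uc (UB.prodMk (pc.uc hL hc) ut) _, fun i x _ => ⟨mem_range_self x, i.2.1⟩,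
      fun i => let ⟨_, h⟩ := i.2.2.2; h.sf.contDiffOn,
      fun i x _ => let ⟨z, h⟩ := i.2.2.2; abs_le.1 (h0 _ i.2.1 _ z h i.2.2.1 x),
      fun i x _ => let ⟨_, h⟩ := i.2.2.2
        sys_sol hN (riem_gt hg hlo he i.2.1) hl (fun y => (he y).mix i.2.1) h x⟩
  have hU := hE n ι (P × ℝ) _ univ _ _ _ _ _ _ _ _ _ _ _ (good hκ hΦ hd)
    (hK.prod isCompact_Icc) (subset_univ _) hF
  obtain ⟨C1, hC1⟩ := hU.2 1
  obtain ⟨C2, hC2⟩ := hU.2 2
  refine ⟨max (max (B / min κ 1) 0) (max C1 C2), fun t _ f z h pf pz x => ?_⟩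
  have hz : z = fun _ => 0 := eq_zero (A := fun _ => 1) hL (h.sz.of_le two_le) pz
    (fun _ => ⟨1, ell_one.sm_mono zero_le_one le_rfl⟩) fun y _ => h.e2 y
  let i : ι := ⟨(_, f, x), σ_mem t, pf, z, h⟩
  have hx : x ∈ Bl (fun i : ι => i.1.2.2) (1 / 2) i := mem_ball_self (by norm_num)
  have b0 := h0 _ (σ_mem t) f z h pf x
  have b1 := fun k => (N346.An.abs_pd_le_iter1 f k x).trans (hC1 i x hx)
  have b2 := fun k l => (N346.An.abs_pd2_le_iter2 (h.sf.of_le two_le) k l x).trans (hC2 i x hx)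
  set M := max (max (B / min κ 1) 0) (max C1 C2)
  have m0 : 0 ≤ M := (le_max_right _ _).trans (le_max_left _ _)
  subst hz
  refine max_le (norm_prod_le_iff.2 ⟨b0.trans ((le_max_left _ _).trans (le_max_left _ _)),
    norm_prod_le_iff.2 ⟨by simpa [st] using m0, (pi_norm_le_iff_of_nonneg m0).2 fun k =>
      (b1 k).trans ((le_max_left _ _).trans (le_max_right _ _))⟩⟩)
    (norm_prod_le_iff.2 ⟨(pi_norm_le_iff_of_nonneg m0).2 fun k => by simpa [xi, pderiv] using m0,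
      (pi_norm_le_iff_of_nonneg m0).2 fun k => (pi_norm_le_iff_of_nonneg m0).2 fun l =>
        (b2 k l).trans ((le_max_right _ _).trans (le_max_right _ _))⟩)

end Tor

open Tor in
/-- existence on a torus, from the estimates and the nondivergence form -/
theorem tor_of (hN : NdStmt) (hE : EstStmt) : TorStmt := by
  intro n P _ _ _ Φ L κ g β c hL hκ hg hβ hc pg pβ pc hΦ hd
  obtain ⟨lo, hlo, he⟩ := exists_lo hg hL pg
  have hs : ∀ k l, ContDiff ℝ ∞ fun x => g x k l := fun k l =>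
    contDiffOn_univ.1 (hg.contDiffOn k l)
  obtain ⟨h1, h2⟩ := adm_cont hL hlo hs he hβ hc pg pβ pc hΦ
  obtain ⟨f, z, h, pf, -⟩ := N346.An.ex2' n L hL
    (fun t => hom Φ g β c (Real.smoothTransition t)) h1
    (fun t _ => sys_per (pg.comp fun G => _ • G + _) (pβ.comp fun b => _ • b)
      (pc.comp fun q => (q, _))) h2 (apri hE hN hL hκ hlo hs he hβ hc pg pβ pc hΦ hd)
    (by simpa only [Real.smoothTransition.zero] using sch_bound hL hlo he)
  have e : gt g 1 = g := funext fun x => by simp [gt]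
  simp only [Real.smoothTransition.one, hom, e, one_smul] at h
  refine ⟨f, h.sf, pf, fun x => (sys_sol hN hg hlo he h x).trans ?_⟩
  simp [Φt]

/-- **TOR**: existence on a torus -/
theorem tor (hE : EstStmt) : TorStmt := tor_of nd hE

end Crest.Agent.N222.J
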