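import Crest.Agent.N222.J.Grad
import Crest.Agent.N222.J.Hol
import Crest.Agent.N222.J.Hol0
import Crest.Agent.N222.J.Boot
import Crest.Agent.N222.J.Arz
import Crest.Agent.N222.J.Tor
import Crest.Agent.N222.J.Pen
import Crest.Agent.N222.J.Cont
import Crest.Agent.N222.J.Perron

/-!
# N222/J: the solver toolbox, assembled

Unconditional forms of the interior estimates, the Perron existence theorem and the continuity of
solutions in a parameter.
-/

namespace Crest.Agent.N222.J

/-- interior `C^k` estimates for bounded solutions -/
theorem est' : EstStmt := est gradEst (hol hol0) (up boot)

/-- existence on a torus -/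
theorem tor' : TorStmt := tor est'

/-- the penalised local problem -/
theorem pen' : PenStmt := pen tor' rho

/-- Perron's method -/
theorem perron' : PerronStmt := perron pen' est' arz

/-- continuity in a parameter -/
theorem cont' : ContStmt := cont est' arz

end Crest.Agent.N222.J
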