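import Crest.Agent.N346.Id.Jang3
import Crest.Agent.N346.An.Defs
import Crest.Agent.NLib.Ell.Shapes
import Crest.Agent.NLib.Ell.Scale

/-!
# Row 222, toolbox J (helper41): existence and estimates for `div X + β(X) = Φ(c, u, 1/W)`

`W = √(1 + |du|²)`, `X = ∇u / W`.  `Φ` is a FIXED smooth function, strictly increasing in `u`;
everything that varies is put into the coefficient map `c`.

Main statements: `EstStmt` (interior estimates of all orders), `PerronStmt` (existence between a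
viscosity subsolution and a viscosity supersolution), `CompStmt` (comparison), `ContStmt`
(continuity of all jets in a parameter), `QRegStmt` (bootstrap for quasilinear equations).
-/

set_option autoImplicit false

open Set Filter Topology Metric
open scoped ContDiff RealInnerProductSpace Gradient
open Crest.GeometryTopology.CoordMetric
open Crest.Agent.R247.Bo84
open Crest.Agent.R238 (Ell)
open Crest.Agent.R273.SchA_152 (HO)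
open Crest.Agent.NLib.Ell (CKA dvg)
open Crest.Agent.N346.An (Per)

noncomputable section

namespace Crest.Agent.N222.J

/-- Euclidean space -/
abbrev E (n : ℕ) : Type := EuclideanSpace ℝ (Fin n)

/-! ### The operator in coordinates -/

section Coord

variable {n : ℕ}

/-- `W = √(1 + |du|²)` -/
def cW (g : MetricField n) (u : E n → ℝ) (x : E n) : ℝ := √(1 + gam g u u x)

/-- `div (∇u / W) + β(∇u / W)`; `β x i` are the components of a one-form -/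
def cQ (g : MetricField n) (β : E n → Fin n → ℝ) (u : E n → ℝ) (x : E n) : ℝ :=
  laplaceBeltrami g u x / cW g u x + gam g u (fun y => (cW g u y)⁻¹) x
    + (∑ i, β x i * grad g u x i) / cW g u x

/-- first order jet -/
def d1 (u : E n → ℝ) (x : E n) : Fin n → ℝ := fun i => pderiv i u x

/-- second order jet -/
def d2 (u : E n → ℝ) (x : E n) : Fin n → Fin n → ℝ := fun i j => pderiv i (pderiv j u) x

/-- `W` on jets; `cW g u x = jW (g x) (d1 u x)` by `rfl` -/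
def jW (G : Matrix (Fin n) (Fin n) ℝ) (p : Fin n → ℝ) : ℝ := √(1 + ∑ i, ∑ j, G⁻¹ i j * p i * p j)

/-- the inverse of the graph metric -/
def jA (G : Matrix (Fin n) (Fin n) ℝ) (p : Fin n → ℝ) : Matrix (Fin n) (Fin n) ℝ :=
  (G + Matrix.vecMulVec p p)⁻¹

/-- the operator on jets -/
def jQ (G : Matrix (Fin n) (Fin n) ℝ) (Γ : Fin n → Fin n → Fin n → ℝ) (b p : Fin n → ℝ)
    (H : Fin n → Fin n → ℝ) : ℝ :=
  (∑ i, ∑ j, jA G p i j * (H i j - ∑ k, Γ k i j * p k) + ∑ i, b i * ∑ j, G⁻¹ i j * p j) / jW G p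

theorem cW_eq (g : MetricField n) (u : E n → ℝ) (x : E n) : cW g u x = jW (g x) (d1 u x) := rfl

end Coord

/-- Admissible right hand sides `Φ (c, t, v)`: smooth for `t` in the open interval `I`, strictly
increasing in `t` for `c ∈ C`, `v ∈ [0, 1]`. -/
structure Good {P : Type} [NormedAddCommGroup P] [NormedSpace ℝ P] (Φ : P × ℝ × ℝ → ℝ) (I : Set ℝ)
    (C : Set P) : Prop where
  isOpen : IsOpen I
  ord : I.OrdConnected
  sm : ContDiffOn ℝ ∞ Φ (univ ×ˢ I ×ˢ univ)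
  pos : ∀ c ∈ C, ∀ t ∈ I, ∀ v ∈ Icc (0 : ℝ) 1, 0 < deriv (fun s => Φ (c, s, v)) t

/-! ### Families -/

section Fam

variable {n : ℕ} {ι F : Type} [NormedAddCommGroup F] [NormedSpace ℝ F]

/-- smooth on `S i`, all derivatives bounded uniformly in `i` -/
def LB (S : ι → Set (E n)) (f : ι → E n → F) : Prop :=
  (∀ i, ContDiffOn ℝ ∞ (f i) (S i)) ∧
    ∀ k : ℕ, ∃ C : ℝ, ∀ i, ∀ x ∈ S i, ‖iteratedFDeriv ℝ k (f i) x‖ ≤ C

/-- uniformly `C^{k,a}` on `S i` -/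
def LK (a : ℝ) (S : ι → Set (E n)) (k : ℕ) (f : ι → E n → F) : Prop :=
  ∃ M : ℝ, ∀ i, CKA a (S i) k M (f i)

/-- the balls of a family -/
abbrev Bl (x0 : ι → E n) (r : ℝ) : ι → Set (E n) := fun i => ball (x0 i) r

/-- A family of smooth solutions on balls of radius `r`, with uniformly bounded data. -/
structure Fam {P : Type} [NormedAddCommGroup P] [NormedSpace ℝ P] (Φ : P × ℝ × ℝ → ℝ) (K : Set P)
    (a b lo hi r : ℝ) (x0 : ι → E n) (g : ι → MetricField n) (β : ι → E n → Fin n → ℝ)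
    (c : ι → E n → P) (u : ι → E n → ℝ) : Prop where
  lo_pos : 0 < lo
  r_pos : 0 < r
  gb : ∀ j l, LB (Bl x0 r) fun i x => g i x j l
  ell : ∀ i, ∀ x ∈ ball (x0 i) r, Ell lo hi (g i x)
  βb : LB (Bl x0 r) β
  cb : LB (Bl x0 r) c
  cK : ∀ i, ∀ x ∈ ball (x0 i) r, c i x ∈ K
  us : ∀ i, ContDiffOn ℝ ∞ (u i) (ball (x0 i) r)
  uI : ∀ i, ∀ x ∈ ball (x0 i) r, u i x ∈ Icc a b
  eq : ∀ i, ∀ x ∈ ball (x0 i) r,
    cQ (g i) (β i) (u i) x = Φ (c i x, u i x, (cW (g i) (u i) x)⁻¹)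

/-- smooth in `x ∈ U`, all `x`-jets jointly continuous in the parameter and in `x` -/
def CJ {Λ : Type} [TopologicalSpace Λ] (U : Set (E n)) (f : Λ → E n → F) : Prop :=
  (∀ l, ContDiffOn ℝ ∞ (f l) U) ∧
    ∀ k : ℕ, ContinuousOn (fun z : Λ × E n => iteratedFDeriv ℝ k (f z.1) z.2) (univ ×ˢ U)

end Fam

/-! ### Chart level statements -/

/-- nondivergence form -/
def NdStmt : Prop := ∀ (n : ℕ) (g : MetricField n) (β : E n → Fin n → ℝ) (u : E n → ℝ)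
  (U : Set (E n)), IsRiemannianOn g U → ContDiffOn ℝ ∞ u U → ∀ x ∈ U,
  cQ g β u x = jQ (g x) (christoffel g x) (β x) (d1 u x) (d2 u x)

/-- touching graphs -/
def TouchStmt : Prop := ∀ (n : ℕ) (g : MetricField n) (β : E n → Fin n → ℝ) (u φ : E n → ℝ)
  (U : Set (E n)), IsRiemannianOn g U → ContDiffOn ℝ ∞ u U → ContDiffOn ℝ ∞ φ U → ∀ x ∈ U,
  IsLocalMax (fun y => u y - φ y) x → cW g u x = cW g φ x ∧ cQ g β u x ≤ cQ g β φ x

/-- De Giorgi-Nash-Moser for classical solutions of `div F = 0`, every dimension -/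
def Hol0Stmt : Prop := ∀ (n : ℕ) (lam Lam r : ℝ), 0 < lam → 0 < r → ∃ α C : ℝ, 0 < α ∧ α < 1 ∧
  ∀ (x0 : E n) (w : E n → ℝ) (F : E n → E n), ContDiffOn ℝ 1 w (ball x0 r) →
    ContDiffOn ℝ 1 F (ball x0 r) → (∀ x ∈ ball x0 r, |w x| ≤ Lam) →
    (∀ x ∈ ball x0 r, lam * ‖∇ w x‖ ^ 2 - Lam ≤ ⟪F x, ∇ w x⟫) →
    (∀ x ∈ ball x0 r, ‖F x‖ ≤ Lam * ‖∇ w x‖ + Lam) → (∀ x ∈ ball x0 r, dvg F x = 0) →
    HO α C (ball x0 (r / 2)) w

/-- Bootstrap.  The hypothesis on `τ, f` is asked on all smaller concentric balls. -/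
def BootStmt : Prop := ∀ (n : ℕ) (ι : Type) (α lo hi r : ℝ) (x0 : ι → E n)
  (τ : ι → E n → Matrix (Fin n) (Fin n) ℝ) (u f : ι → E n → ℝ), 0 < α → α < 1 → 0 < lo → 0 < r →
  (∀ i, ContDiffOn ℝ ∞ (u i) (ball (x0 i) r)) → (∀ i, ∀ x ∈ ball (x0 i) r, Ell lo hi (τ i x)) →
  (∀ i, ∀ x ∈ ball (x0 i) r, ∑ j, ∑ l, τ i x j l * d2 (u i) x j l = f i x) →
  (∀ (k : ℕ) (s : ℝ), 0 < s → s ≤ r → LK α (Bl x0 s) (k + 1) u →
    (∀ j l, LK α (Bl x0 s) k fun i x => τ i x j l) ∧ LK α (Bl x0 s) k f) →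
  LK α (Bl x0 r) 1 u → ∀ k : ℕ, ∃ C : ℝ, ∀ i, ‖iteratedFDeriv ℝ k (u i) (x0 i)‖ ≤ C

/-- **QREG**: `C^{1,α}` bounded solutions of `A(c, u, du) : d²u = f(c, u, du)` -/
def QRegStmt : Prop := ∀ (n : ℕ) (ι P : Type) [NormedAddCommGroup P] [NormedSpace ℝ P]
  [FiniteDimensional ℝ P] (A : P × ℝ × (Fin n → ℝ) → Matrix (Fin n) (Fin n) ℝ)
  (f : P × ℝ × (Fin n → ℝ) → ℝ) (O K : Set (P × ℝ × (Fin n → ℝ))) (α M r : ℝ) (x0 : ι → E n)
  (c : ι → E n → P) (u : ι → E n → ℝ), IsOpen O → IsCompact K → K ⊆ O →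
  (∀ j l, ContDiffOn ℝ ∞ (fun z => A z j l) O) → ContDiffOn ℝ ∞ f O → (∀ z ∈ K, (A z).PosDef) →
  0 < α → α ≤ 1 → 0 < r → LB (Bl x0 r) c → (∀ i, ContDiffOn ℝ ∞ (u i) (ball (x0 i) r)) →
  (∀ i, ∀ x ∈ ball (x0 i) r, (c i x, u i x, d1 (u i) x) ∈ K) →
  (∀ i, ∀ x ∈ ball (x0 i) r, ∀ y ∈ ball (x0 i) r, ∀ j,
    |pderiv j (u i) x - pderiv j (u i) y| ≤ M * ‖x - y‖ ^ α) →
  (∀ i, ∀ x ∈ ball (x0 i) r, ∑ j, ∑ l, A (c i x, u i x, d1 (u i) x) j l * d2 (u i) x j l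
    = f (c i x, u i x, d1 (u i) x)) → LB (Bl x0 (r / 2)) u

/-- The common shape of the a priori estimates. -/
def FamStmt (Z : ∀ (n : ℕ) (ι : Type), ℝ → (ι → E n) → (ι → MetricField n) → (ι → E n → ℝ) → Prop) :
    Prop :=
  ∀ (n : ℕ) (ι P : Type) [NormedAddCommGroup P] [NormedSpace ℝ P] [FiniteDimensional ℝ P]
    (Φ : P × ℝ × ℝ → ℝ) (I : Set ℝ) (K : Set P) (a b lo hi r : ℝ) (x0 : ι → E n)
    (g : ι → MetricField n) (β : ι → E n → Fin n → ℝ) (c : ι → E n → P) (u : ι → E n → ℝ),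
    Good Φ I K → IsCompact K → Icc a b ⊆ I → Fam Φ K a b lo hi r x0 g β c u → Z n ι r x0 g u

/-- interior gradient estimate -/
def GradStmt : Prop := FamStmt fun _ _ r x0 g u =>
  ∃ C : ℝ, ∀ i, ∀ x ∈ ball (x0 i) (r / 2), cW (g i) (u i) x ≤ C

/-- `C^{1,α}` estimate -/
def HolStmt : Prop := FamStmt fun _ _ r x0 g u =>
  (∃ C : ℝ, ∀ i, ∀ x ∈ ball (x0 i) r, cW (g i) (u i) x ≤ C) →
  ∃ α : ℝ, 0 < α ∧ α < 1 ∧ LK α (Bl x0 (r / 2)) 1 u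

/-- from `C^{1,α}` to all orders, at the centres -/
def UpStmt : Prop := FamStmt fun _ _ r x0 _ u => ∀ α : ℝ, 0 < α → α < 1 → LK α (Bl x0 r) 1 u →
  ∀ k : ℕ, ∃ C : ℝ, ∀ i, ‖iteratedFDeriv ℝ k (u i) (x0 i)‖ ≤ C

/-- **EST**: interior estimates of all orders -/
def EstStmt : Prop := FamStmt fun _ _ r x0 _ u => LB (Bl x0 (r / 2)) u

/-- local smooth Arzelà-Ascoli, and convergence of the jets of a pointwise convergent sequence -/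
def ArzStmt : Prop := ∀ (n : ℕ) (F : Type) [NormedAddCommGroup F] [NormedSpace ℝ F]
  [FiniteDimensional ℝ F] (x0 : E n) (r : ℝ) (f : ℕ → E n → F), LB (Bl (fun _ => x0) r) f →
  (∃ (ψ : ℕ → ℕ) (h : E n → F), StrictMono ψ ∧
    ∀ x ∈ ball x0 (r / 2), Tendsto (fun j => f (ψ j) x) atTop (𝓝 (h x))) ∧
  ∀ h : E n → F, (∀ x ∈ ball x0 (r / 2), Tendsto (fun j => f j x) atTop (𝓝 (h x))) →
    ContDiffOn ℝ ∞ h (ball x0 (r / 2)) ∧ ∀ k : ℕ, TendstoLocallyUniformlyOn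
      (fun j => iteratedFDeriv ℝ k (f j)) (iteratedFDeriv ℝ k h) atTop (ball x0 (r / 2))

/-- existence on a torus -/
def TorStmt : Prop := ∀ (n : ℕ) (P : Type) [NormedAddCommGroup P] [NormedSpace ℝ P]
  [FiniteDimensional ℝ P] (Φ : P × ℝ × ℝ → ℝ) (L κ : ℝ) (g : MetricField n)
  (β : E n → Fin n → ℝ) (c : E n → P), 0 < L → 0 < κ → IsRiemannianOn g univ → ContDiff ℝ ∞ β →
  ContDiff ℝ ∞ c → Per L g → Per L β → Per L c → ContDiff ℝ ∞ Φ →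
  (∀ x t, ∀ v ∈ Icc (0 : ℝ) 1, κ ≤ deriv (fun s => Φ (c x, s, v)) t) →
  ∃ u : E n → ℝ, ContDiff ℝ ∞ u ∧ Per L u ∧ ∀ x, cQ g β u x = Φ (c x, u x, (cW g u x)⁻¹)

/-- periodic retraction -/
def RhoStmt : Prop := ∀ (n : ℕ) (x0 : E n) (r s : ℝ), 0 < r → r < s → ∃ (L : ℝ) (ρ : E n → E n),
  0 < L ∧ ContDiff ℝ ∞ ρ ∧ Per L ρ ∧ (∀ x ∈ ball x0 r, ρ x = x) ∧ ∀ x, ρ x ∈ closedBall x0 s

/-- The penalised local problem. -/
def PenStmt : Prop := ∀ (n : ℕ) (P : Type) [NormedAddCommGroup P] [NormedSpace ℝ P]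
  [FiniteDimensional ℝ P] (Φ : P × ℝ × ℝ → ℝ) (I : Set ℝ) (U : Set (E n)) (g : MetricField n)
  (β : E n → Fin n → ℝ) (c : E n → P) (x0 : E n) (r a b ε : ℝ) (v : E n → ℝ),
  Good Φ I (c '' U) → IsRiemannianOn g U → ContDiffOn ℝ ∞ β U → ContDiffOn ℝ ∞ c U → 0 < r →
  closedBall x0 (4 * r) ⊆ U → a ≤ b → Icc a b ⊆ I → 0 < ε → ContinuousOn v U →
  ∃ w : E n → ℝ, ContDiff ℝ ∞ w ∧ ∀ x ∈ closedBall x0 (3 * r),
    (∀ t ∈ Icc a b, t < w x → v x + ε ≤ w x → Φ (c x, t, (cW g w x)⁻¹) < cQ g β w x) ∧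
    (∀ t ∈ Icc a b, w x < t → w x ≤ v x - ε → cQ g β w x < Φ (c x, t, (cW g w x)⁻¹)) ∧
    (x ∈ ball x0 r → w x ∈ Icc a b → cQ g β w x = Φ (c x, w x, (cW g w x)⁻¹)) ∧
    (x ∉ ball x0 (2 * r) → |w x - v x| ≤ 2 * ε)

/-! ### Manifold level -/

/-- a smooth atlas with a preferred chart at every point -/
structure Atl (n : ℕ) (X : Type) [TopologicalSpace X] where
  ch : X → OpenPartialHomeomorph X (E n)
  mem : ∀ p, p ∈ (ch p).source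
  sm : ∀ p q, ContDiffOn ℝ ∞ (ch q ∘ (ch p).symm) ((ch p).target ∩ (ch p).symm ⁻¹' (ch q).source)

/-- An operator `Q` and a tilt `W`, with coordinate data in the preferred charts. -/
structure JOp (n : ℕ) (X : Type) where
  G : X → MetricField n
  β : X → E n → Fin n → ℝ
  Q : (X → ℝ) → X → ℝ
  W : (X → ℝ) → X → ℝ

section Mfd

variable {n : ℕ} {X : Type} [TopologicalSpace X] (A : Atl n X)

/-- the part of `Ω` seen in the chart at `p` -/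
def Atl.tg (p : X) (Ω : Set X) : Set (E n) := (A.ch p).target ∩ (A.ch p).symm ⁻¹' Ω

/-- smooth on `Ω` -/
def Atl.SmOn {F : Type} [NormedAddCommGroup F] [NormedSpace ℝ F] (Ω : Set X) (f : X → F) : Prop :=
  ∀ p, ContDiffOn ℝ ∞ (f ∘ (A.ch p).symm) (A.tg p Ω)

/-- smooth near a point -/
def Atl.SmN (f : X → ℝ) (p : X) : Prop := ∃ U, IsOpen U ∧ p ∈ U ∧ A.SmOn U f

/-- all jets jointly continuous on `Λ × Ω` -/
def Atl.JC {Λ F : Type} [TopologicalSpace Λ] [NormedAddCommGroup F] [NormedSpace ℝ F] (Ω : Set X)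
    (f : Λ → X → F) : Prop := ∀ p, CJ (A.tg p Ω) fun l => f l ∘ (A.ch p).symm

/-- `J` is the operator of the data `(G, β)` over `Ω` -/
structure JOp.On (J : JOp n X) (A : Atl n X) (Ω : Set X) : Prop where
  riem : ∀ p, IsRiemannianOn (J.G p) (A.tg p Ω)
  βs : ∀ p, ContDiffOn ℝ ∞ (J.β p) (A.tg p Ω)
  chart : ∀ p, ∀ q ∈ Ω, q ∈ (A.ch p).source → ∀ u, A.SmN u q →
    J.Q u q = cQ (J.G p) (J.β p) (u ∘ (A.ch p).symm) (A.ch p q) ∧
    J.W u q = cW (J.G p) (u ∘ (A.ch p).symm) (A.ch p q)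

variable {P : Type} (J : JOp n X) (Φ : P × ℝ × ℝ → ℝ) (c : X → P)

/-- viscosity subsolution at `p` -/
def VSub (w : X → ℝ) (p : X) : Prop := ∀ φ, A.SmN φ p → IsLocalMax (fun q => w q - φ q) p →
  Φ (c p, w p, (J.W φ p)⁻¹) ≤ J.Q φ p

/-- viscosity supersolution at `p` -/
def VSup (w : X → ℝ) (p : X) : Prop := ∀ φ, A.SmN φ p → IsLocalMin (fun q => w q - φ q) p →
  J.Q φ p ≤ Φ (c p, w p, (J.W φ p)⁻¹)

/-- smooth solution on `Ω` -/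
def Solves (Ω : Set X) (u : X → ℝ) : Prop :=
  A.SmOn Ω u ∧ ∀ p ∈ Ω, J.Q u p = Φ (c p, u p, (J.W u p)⁻¹)

end Mfd

/-- comparison of a viscosity sub- (super-) solution with a classical super- (sub-) solution -/
def CompStmt : Prop := ∀ (n : ℕ) (X : Type) [TopologicalSpace X] (A : Atl n X) (P : Type)
  [NormedAddCommGroup P] [NormedSpace ℝ P] (J : JOp n X) (Φ : P × ℝ × ℝ → ℝ) (I : Set ℝ)
  (c : X → P) (Ω : Set X) (w u : X → ℝ), IsOpen Ω → J.On A Ω → Good Φ I (c '' Ω) →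
  ContinuousOn w Ω → A.SmOn Ω u → (∀ p ∈ Ω, w p ∈ I ∧ u p ∈ I) →
  ((∀ p ∈ Ω, VSub A J Φ c w p) → (∀ p ∈ Ω, J.Q u p ≤ Φ (c p, u p, (J.W u p)⁻¹)) →
    (∀ ε > 0, ∃ K ⊆ Ω, IsCompact K ∧ ∀ p ∈ Ω \ K, w p ≤ u p + ε) → ∀ p ∈ Ω, w p ≤ u p) ∧
  ((∀ p ∈ Ω, VSup A J Φ c w p) → (∀ p ∈ Ω, Φ (c p, u p, (J.W u p)⁻¹) ≤ J.Q u p) →
    (∀ ε > 0, ∃ K ⊆ Ω, IsCompact K ∧ ∀ p ∈ Ω \ K, u p ≤ w p + ε) → ∀ p ∈ Ω, u p ≤ w p)

/-- **PERRON** -/
def PerronStmt : Prop := ∀ (n : ℕ) (X : Type) [TopologicalSpace X] [T2Space X] (A : Atl n X)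
  (P : Type) [NormedAddCommGroup P] [NormedSpace ℝ P] [FiniteDimensional ℝ P] (J : JOp n X)
  (Φ : P × ℝ × ℝ → ℝ) (I : Set ℝ) (c : X → P) (Ω : Set X) (wm wp : X → ℝ), IsOpen Ω → J.On A Ω →
  Good Φ I (c '' Ω) → A.SmOn Ω c → ContinuousOn wm Ω → ContinuousOn wp Ω →
  (∀ p ∈ Ω, wm p ∈ I ∧ wp p ∈ I ∧ wm p ≤ wp p) → (∀ p ∈ Ω, VSub A J Φ c wm p) →
  (∀ p ∈ Ω, VSup A J Φ c wp p) →
  ∃ u : X → ℝ, Solves A J Φ c Ω u ∧ ∀ p ∈ Ω, wm p ≤ u p ∧ u p ≤ wp p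

/-- **CONT**: the jets of the solution are continuous in the parameter -/
def ContStmt : Prop := ∀ (n : ℕ) (X : Type) [TopologicalSpace X] (A : Atl n X) (P : Type)
  [NormedAddCommGroup P] [NormedSpace ℝ P] [FiniteDimensional ℝ P] (Λ : Type) [TopologicalSpace Λ]
  [FirstCountableTopology Λ] (J : Λ → JOp n X) (Φ : P × ℝ × ℝ → ℝ) (I : Set ℝ) (C : Set P)
  (c : Λ → X → P) (Ω : Set X) (u : Λ → X → ℝ), IsOpen Ω → (∀ l, (J l).On A Ω) → Good Φ I C →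
  (∀ l, ∀ p ∈ Ω, c l p ∈ C) → (∀ p i j, CJ (A.tg p Ω) fun l x => (J l).G p x i j) →
  (∀ p, CJ (A.tg p Ω) fun l => (J l).β p) → A.JC Ω c →
  (∀ l, Solves A (J l) Φ (c l) Ω (u l)) → (∀ l, ∀ p ∈ Ω, u l p ∈ I) →
  (∀ l0, ∀ ε > 0, ∃ K ⊆ Ω, IsCompact K ∧ ∀ᶠ l in 𝓝 l0, ∀ p ∈ Ω \ K, |u l p - u l0 p| ≤ ε) →
  A.JC Ω u

end Crest.Agent.N222.J
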