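import Crest.Agent.N222.J.LK
import Crest.Agent.N222.J.Visc

/-!
# Row 222, toolbox J (helper41): uniformly bounded families, and the basic bounds of a `Fam`
-/

set_option autoImplicit false

open Set Filter Topology Metric
open scoped ContDiff
open Crest.GeometryTopology.CoordMetric Crest.MathPhysics.ExteriorData
open Crest.Agent.R202.Tens Crest.Agent.R247.Bo84 Crest.Agent.N346.Id
open Crest.Agent.R238 (Ell)

noncomputable section

namespace Crest.Agent.N222.J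

variable {n : ℕ} {ι F G : Type} [NormedAddCommGroup F] [NormedAddCommGroup G] {S : ι → Set (E n)}
  {f g : ι → E n → F} {u v : ι → E n → ℝ}

/-- uniformly bounded -/
def Bd (S : ι → Set (E n)) (f : ι → E n → F) : Prop := ∃ C, 0 ≤ C ∧ ∀ i, ∀ x ∈ S i, ‖f i x‖ ≤ C

namespace Bd

theorem of_le {C : ℝ} (h : ∀ i, ∀ x ∈ S i, ‖f i x‖ ≤ C) : Bd S f :=
  ⟨max C 0, le_max_right _ _, fun i x hx => (h i x hx).trans (le_max_left _ _)⟩

theorem mono {w : ι → E n → G} (h : Bd S f) (e : ∀ i, ∀ x ∈ S i, ‖w i x‖ ≤ ‖f i x‖) : Bd S w :=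
  let ⟨C, h0, hC⟩ := h; ⟨C, h0, fun i x hx => (e i x hx).trans (hC i x hx)⟩

theorem congr (h : Bd S f) (e : ∀ i, ∀ x ∈ S i, g i x = f i x) : Bd S g :=
  h.mono fun i x hx => (congrArg norm (e i x hx)).le

theorem const (c : F) : Bd S fun _ _ => c := of_le fun _ _ _ => le_rfl

theorem add (hf : Bd S f) (hg : Bd S g) : Bd S fun i x => f i x + g i x :=
  let ⟨_, _, hC⟩ := hf; let ⟨_, _, hD⟩ := hg
  of_le fun i x hx => (norm_add_le _ _).trans (add_le_add (hC i x hx) (hD i x hx))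

theorem neg (hf : Bd S f) : Bd S fun i x => -f i x := hf.mono fun _ _ _ => (norm_neg _).le

theorem sub (hf : Bd S f) (hg : Bd S g) : Bd S fun i x => f i x - g i x :=
  (hf.add hg.neg).congr fun _ _ _ => sub_eq_add_neg _ _

theorem mul (hf : Bd S u) (hg : Bd S v) : Bd S fun i x => u i x * v i x :=
  let ⟨_, h0, hC⟩ := hf; let ⟨_, _, hD⟩ := hg
  of_le fun i x hx => (norm_mul_le _ _).trans (mul_le_mul (hC i x hx) (hD i x hx) (norm_nonneg _) h0)

theorem app [NormedSpace ℝ F] [NormedSpace ℝ G] {A : ι → E n → F →L[ℝ] G} (hA : Bd S A)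
    (hf : Bd S f) : Bd S fun i x => A i x (f i x) :=
  let ⟨_, h0, hC⟩ := hA; let ⟨_, _, hD⟩ := hf
  of_le fun i x hx => ((A i x).le_opNorm _).trans
    (mul_le_mul (hC i x hx) (hD i x hx) (norm_nonneg _) h0)

theorem sum {α : Type*} [Fintype α] {w : α → ι → E n → F} (h : ∀ j, Bd S (w j)) :
    Bd S fun i x => ∑ j, w j i x := by
  choose C _ hC using h
  exact of_le (C := ∑ j, C j) fun i x hx =>
    (norm_sum_le _ _).trans (Finset.sum_le_sum fun j _ => hC j i x hx)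

theorem prodMk {w : ι → E n → G} (hf : Bd S f) (hw : Bd S w) : Bd S fun i x => (f i x, w i x) :=
  let ⟨_, _, hC⟩ := hf; let ⟨_, _, hD⟩ := hw
  of_le fun i x hx => max_le_max (hC i x hx) (hD i x hx)

theorem coord {m : ℕ} {w : ι → E n → E m} (h : Bd S w) (j : Fin m) : Bd S fun i x => w i x j :=
  h.mono fun i x _ => PiLp.norm_apply_le (w i x) j

theorem of_compact {Z : Type} [TopologicalSpace Z] {K : Set Z} (hK : IsCompact K) {Ψ : Z → F}
    (hΨ : ContinuousOn Ψ K) {z : ι → E n → Z} (hz : ∀ i, ∀ x ∈ S i, z i x ∈ K) :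
    Bd S fun i x => Ψ (z i x) :=
  let ⟨_, hC⟩ := hK.exists_bound_of_continuousOn hΨ
  of_le fun i x hx => hC _ (hz i x hx)

end Bd

theorem LK.bd [NormedSpace ℝ F] {a : ℝ} {k : ℕ} (h : LK a S k f) : Bd S f := h.bdd

theorem LB.translate [NormedSpace ℝ F] {Z : E n → F} (hZ : ContDiff ℝ ∞ Z) (x0 : ι → E n) (r : ℝ) :
    LB (Bl x0 r) fun i y => Z (y - x0 i) := by
  refine ⟨fun i => (hZ.comp (contDiff_id.sub contDiff_const)).contDiffOn, fun k => ?_⟩
  obtain ⟨C, hC⟩ := (isCompact_closedBall (0 : E n) r).exists_bound_of_continuousOn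
    (hZ.continuous_iteratedFDeriv (m := k) (by exact_mod_cast le_top)).continuousOn
  refine ⟨C, fun i x hx => ?_⟩
  rw [iteratedFDeriv_comp_sub]
  exact hC _ (mem_closedBall_zero_iff.2 (mem_ball_iff_norm.1 hx).le)

theorem ell_bil {lo hi : ℝ} {A : Matrix (Fin n) (Fin n) ℝ} (h : Ell lo hi A) (Y : E n) :
    lo * ‖Y‖ ^ 2 ≤ bil A Y Y ∧ bil A Y Y ≤ hi * ‖Y‖ ^ 2 := by
  rw [bil_apply, EuclideanSpace.real_norm_sq_eq]
  exact h.2 _

section Good

variable {P : Type} [NormedAddCommGroup P] [NormedSpace ℝ P] {Φ : P × ℝ × ℝ → ℝ} {I : Set ℝ}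
  {K : Set P} {a b : ℝ}

theorem Good.deriv_eq (h : Good Φ I K) (c : P) {t : ℝ} (ht : t ∈ I) (w : ℝ) :
    deriv (fun s => Φ (c, s, w)) t = fderiv ℝ Φ (c, t, w) (0, 1, 0) := by
  have h1 : HasDerivAt (fun s : ℝ => ((c, s, w) : P × ℝ × ℝ)) (0, 1, 0) t :=
    (hasDerivAt_const t c).prodMk ((hasDerivAt_id t).prodMk (hasDerivAt_const t w))
  exact (((h.at c ht w).differentiableAt (by simp)).hasFDerivAt.comp_hasDerivAt t h1).deriv

theorem Good.contOn_fderiv (h : Good Φ I K) (hab : Icc a b ⊆ I) :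
    ContinuousOn (fderiv ℝ Φ) (K ×ˢ Icc a b ×ˢ Icc (0 : ℝ) 1) := fun z hz =>
  ((h.at z.1 (hab hz.2.1) z.2.2).fderiv_right (m := 0) (by simp)).continuousAt.continuousWithinAt

theorem Good.contOn (h : Good Φ I K) (hab : Icc a b ⊆ I) :
    ContinuousOn Φ (K ×ˢ Icc a b ×ˢ Icc (0 : ℝ) 1) := fun z hz =>
  (h.at z.1 (hab hz.2.1) z.2.2).continuousAt.continuousWithinAt

theorem Good.kappa (h : Good Φ I K) (hK : IsCompact K) (hab : Icc a b ⊆ I) :
    ∃ κ, 0 < κ ∧ ∀ z ∈ K ×ˢ Icc a b ×ˢ Icc (0 : ℝ) 1, κ ≤ fderiv ℝ Φ z (0, 1, 0) :=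
  (hK.prod (isCompact_Icc.prod isCompact_Icc)).exists_forall_le'
    ((h.contOn_fderiv hab).clm_apply continuousOn_const) fun z hz => by
      rw [← h.deriv_eq z.1 (hab hz.2.1) z.2.2]
      exact h.pos _ hz.1 _ (hab hz.2.1) _ hz.2.2

end Good

namespace Fam

variable {P : Type} [NormedAddCommGroup P] [NormedSpace ℝ P] {Φ : P × ℝ × ℝ → ℝ} {I : Set ℝ}
  {K : Set P} {a b lo hi r : ℝ} {x0 : ι → E n} {γ : ι → MetricField n}
  {β : ι → E n → Fin n → ℝ} {c : ι → E n → P}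

theorem jd' (h : Fam Φ K a b lo hi r x0 γ β c u) (i : ι) :
    Jd (γ i) one (u i) (ball (x0 i) r) := jd (h.riem i) (h.us i)

theorem state (h : Fam Φ K a b lo hi r x0 γ β c u) (i : ι) (x : E n) (hx : x ∈ ball (x0 i) r) :
    (c i x, u i x, (cW (γ i) (u i) x)⁻¹) ∈ K ×ˢ Icc a b ×ˢ Icc (0 : ℝ) 1 :=
  ⟨h.cK i x hx, h.uI i x hx, cW_inv_mem (h.riem i) hx _⟩

theorem lkg (h : Fam Φ K a b lo hi r x0 γ β c u) (k : ℕ) (j l : Fin n) :
    LK 1 (Bl x0 r) k fun i x => γ i x j l := (h.gb j l).lk one_pos le_rfl k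

theorem bd_om (h : Fam Φ K a b lo hi r x0 γ β c u) :
    Bd (Bl x0 r) fun i x => (cW (γ i) (u i) x)⁻¹ := Bd.of_le (C := 1) fun i x hx => by
  have := cW_inv_mem (h.riem i) hx (u i)
  rw [Real.norm_eq_abs, abs_of_nonneg this.1]; exact this.2

theorem bd_wv (h : Fam Φ K a b lo hi r x0 γ β c u) :
    Bd (Bl x0 r) fun i => wv (γ i) one (u i) := Bd.of_le (C := 1 / lo + 1) fun i x hx => by
  have h1 := (ell_bil (h.ell i x hx) (wv (γ i) one (u i) x)).1
  rw [(h.jd' i).bil_wv_wv hx] at h1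
  have h2 := (h.jd' i).pp_lt_one hx
  have h3 : ‖wv (γ i) one (u i) x‖ ^ 2 ≤ 1 / lo := by
    rw [le_div_iff₀ h.lo_pos]; linarith
  nlinarith [sq_nonneg (‖wv (γ i) one (u i) x‖ - 1), norm_nonneg (wv (γ i) one (u i) x)]

theorem bd_inv (h : Fam Φ K a b lo hi r x0 γ β c u) (j l : Fin n) :
    Bd (Bl x0 r) fun i x => inverseField (γ i) x j l :=
  Bd.of_le fun i x hx => R238.Ell.sm_abs_inv_le h.lo_pos (h.ell i x hx) j l

theorem bd_invb (h : Fam Φ K a b lo hi r x0 γ β c u) (j l : Fin n) :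
    Bd (Bl x0 r) fun i x => inverseField (N346.Id.gb (γ i) one (u i)) x j l :=
  ((h.bd_inv j l).sub ((h.bd_wv.coord j).mul (h.bd_wv.coord l))).congr
    fun i _ hx => (h.jd' i).inverseField_gb hx j l

theorem bd_chris (h : Fam Φ K a b lo hi r x0 γ β c u) (p j l : Fin n) :
    Bd (Bl x0 r) fun i x => christoffel (γ i) x p j l :=
  (LK.chris one_pos le_rfl h.lo_pos (h.lkg 1) h.ell p j l).bd

theorem bd_ric (h : Fam Φ K a b lo hi r x0 γ β c u) (j l : Fin n) :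
    Bd (Bl x0 r) fun i x => ricci (γ i) x j l :=
  (LK.ric one_pos le_rfl h.lo_pos (h.lkg 2) h.ell j l).bd

theorem bd_β (h : Fam Φ K a b lo hi r x0 γ β c u) (j : Fin n) :
    Bd (Bl x0 r) fun i x => β i x j := ((h.βb.lk one_pos le_rfl 0).apply j).bd

theorem bd_Φ (h : Fam Φ K a b lo hi r x0 γ β c u) (hΦ : Good Φ I K) (hK : IsCompact K)
    (hab : Icc a b ⊆ I) : Bd (Bl x0 r) fun i x => Φ (c i x, u i x, (cW (γ i) (u i) x)⁻¹) :=
  Bd.of_compact (hK.prod (isCompact_Icc.prod isCompact_Icc)) (hΦ.contOn hab) h.state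

theorem bd_dΦ (h : Fam Φ K a b lo hi r x0 γ β c u) (hΦ : Good Φ I K) (hK : IsCompact K)
    (hab : Icc a b ⊆ I) :
    Bd (Bl x0 r) fun i x => fderiv ℝ Φ (c i x, u i x, (cW (γ i) (u i) x)⁻¹) :=
  Bd.of_compact (hK.prod (isCompact_Icc.prod isCompact_Icc)) (hΦ.contOn_fderiv hab) h.state

theorem H0_eq (h : Fam Φ K a b lo hi r x0 γ β c u) (i : ι) (x : E n) (hx : x ∈ ball (x0 i) r) :
    H0 (γ i) one (u i) x = Φ (c i x, u i x, (cW (γ i) (u i) x)⁻¹)
      - ∑ j, β i x j * wv (γ i) one (u i) x j := by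
  rw [← h.eq i x hx, cQ_H0 (h.riem i) (h.us i) hx]; ring

theorem bd_H0 (h : Fam Φ K a b lo hi r x0 γ β c u) (hΦ : Good Φ I K) (hK : IsCompact K)
    (hab : Icc a b ⊆ I) : Bd (Bl x0 r) fun i => H0 (γ i) one (u i) :=
  ((h.bd_Φ hΦ hK hab).sub (Bd.sum fun j => (h.bd_β j).mul (h.bd_wv.coord j))).congr h.H0_eq

end Fam

end Crest.Agent.N222.J
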