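import Crest.Agent.N222.J.Bd

/-!
# Row 222, toolbox J (helper41): the interior gradient estimate

`ω = 1 / W` satisfies `Δ̄ ω = -ω (|A|² + Ric(X, X) + X(H))`; touch it from below by `δ ζ`.
-/

set_option autoImplicit false

open Set Filter Topology Metric
open scoped ContDiff
open Crest.GeometryTopology.CoordMetric Crest.MathPhysics.ExteriorData
open Crest.Agent.R202.Tens Crest.Agent.R247.Bo84 Crest.Agent.N346.Id

noncomputable section

namespace Crest.Agent.N222.J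

variable {n : ℕ} {g : MetricField n} {u : E n → ℝ} {U : Set (E n)} {x : E n}

local notation "ḡ" => N346.Id.gb g one u
local notation "𝓌" => wv g one u
local notation "ℓ" => ell g one u
local notation "ℋ" => H0 g one u

/-- `ω = 1 / W` -/
abbrev om (g : MetricField n) (u : E n → ℝ) (y : E n) : ℝ := (cW g u y)⁻¹

theorem om_eq (hg : IsRiemannianOn g U) (hx : x ∈ U) : om g u x = Real.exp (-ℓ x) := by
  rw [ell, gm_one, Real.exp_neg, Real.exp_log (cW_pos hg hx u)]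

theorem om_ev (hg : IsRiemannianOn g U) (hx : x ∈ U) :
    om g u =ᶠ[𝓝 x] fun y => Real.exp (-ℓ y) := by
  filter_upwards [hg.isOpen.mem_nhds hx] with y hy using om_eq hg hy

theorem deriv_expneg : deriv (fun t : ℝ => Real.exp (-t)) = fun t => -Real.exp (-t) := by
  funext t
  simpa using ((hasDerivAt_neg t).exp).deriv

theorem contDiffAt_om (hg : IsRiemannianOn g U) (hu : ContDiffOn ℝ ∞ u U) (hx : x ∈ U) :
    ContDiffAt ℝ ∞ (om g u) x := (contDiffAt_cW hg hu hx).inv (cW_pos hg hx u).ne'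

theorem grad_om (hg : IsRiemannianOn g U) (hu : ContDiffOn ℝ ∞ u U) (hx : x ∈ U) :
    grad ḡ (om g u) x = -(om g u x • cov g 𝓌 x (𝓌 x)) := by
  rw [(jd hg hu).cov_wv_wv' hx, Pv_one, sub_zero, grad_congr (om_ev hg hx),
    grad_comp (φ := fun t : ℝ => Real.exp (-t)) (by fun_prop)
      (((jd hg hu).c_ell hx).differentiableAt (by simp)), deriv_expneg, om_eq hg hx, neg_smul]

theorem lap_om (hg : IsRiemannianOn g U) (hu : ContDiffOn ℝ ∞ u U) (hx : x ∈ U) :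
    laplaceBeltrami ḡ (om g u) x ≤
      -(om g u x * (bil (ricM g x) (𝓌 x) (𝓌 x) + fderiv ℝ ℋ x (𝓌 x))) := by
  have hd := jd hg hu
  have e1 : ∀ y ∈ U, Qv g one u y = grad ḡ ℓ y := fun y hy => by
    rw [hd.grad_gb_ell hy, aa_one]; simp
  have e2 : (fun y => Qv g one u y - Pv g one u y) =ᶠ[𝓝 x] grad ḡ ℓ := by
    filter_upwards [hd.nhds hx] with y hy
    rw [Pv_one, sub_zero, e1 y hy]
  have h1 := hd.id_N hx
  rw [divg_congr e2, divg_grad, Vv_one, aa_one, e1 x hx, ← gam_eq_bil hd.riemb hx] at h1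
  have h2 := N346.Bd.normSqK_nonneg hd.riemb hx (T := hh g one u) (hd.symT_hh.symm x hx)
  have h3 : deriv (fun t : ℝ => -Real.exp (-t)) (ℓ x) = Real.exp (-ℓ x) := by
    simpa using ((hasDerivAt_neg (ℓ x)).exp.neg).deriv
  rw [lap_congr (om_ev hg hx), lap_comp hd.riemb hx (φ := fun t : ℝ => Real.exp (-t))
    (by fun_prop) ((hd.c_ell hx).of_le (by norm_cast)), deriv_expneg, h3, h1, om_eq hg hx]
  simp only [map_zero, mul_zero, sub_zero, add_zero]
  nlinarith [mul_nonneg (Real.exp_pos (-ℓ x)).le h2]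

theorem om_du (hg : IsRiemannianOn g U) (hu : ContDiffOn ℝ ∞ u U) (hx : x ∈ U) :
    om g u x * fderiv ℝ u x (𝓌 x) = 1 - om g u x ^ 2 := by
  have hd := jd hg hu
  have h1 := hd.phi_df hx (𝓌 x)
  have h2 := hd.one_sub_pp hx
  have h3 := cW_pos hg hx u
  rw [hd.bil_wv_wv hx, one_mul, gm_one] at h1
  rw [gm_one] at h2
  rw [h1, om, inv_mul_cancel_left₀ h3.ne', inv_pow]
  linarith

variable {P : Type} [NormedAddCommGroup P] [NormedSpace ℝ P] {Φ : P × ℝ × ℝ → ℝ}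
  {β : E n → Fin n → ℝ} {c : E n → P}

theorem fderiv_H0 (hg : IsRiemannianOn g U) (hu : ContDiffOn ℝ ∞ u U) (hβ : ContDiffOn ℝ ∞ β U)
    (hc : ContDiffOn ℝ ∞ c U) (hx : x ∈ U) (hΦ : DifferentiableAt ℝ Φ (c x, u x, om g u x))
    (heq : ∀ y ∈ U, ℋ y = Φ (c y, u y, om g u y) - ∑ j, β y j * 𝓌 y j) (Y : E n) :
    fderiv ℝ ℋ x Y = fderiv ℝ Φ (c x, u x, om g u x) (fderiv ℝ c x Y, 0, 0)
      + fderiv ℝ u x Y * fderiv ℝ Φ (c x, u x, om g u x) (0, 1, 0)
      + fderiv ℝ (om g u) x Y * fderiv ℝ Φ (c x, u x, om g u x) (0, 0, 1)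
      - ∑ j, (β x j * (cov g 𝓌 x Y j - Gam g x Y (𝓌 x) j)
        + 𝓌 x j * fderiv ℝ (fun y => β y j) x Y) := by
  have hn := hg.isOpen.mem_nhds hx
  have dc := ((hc.contDiffAt hn).differentiableAt (by simp)).hasFDerivAt
  have du := ((hu.contDiffAt hn).differentiableAt (by simp)).hasFDerivAt
  have dom := ((contDiffAt_om hg hu hx).differentiableAt (by simp)).hasFDerivAt
  have dw := (((jd hg hu).c_wv hx).differentiableAt (by simp)).hasFDerivAt
  have dβ := fun j => (((contDiffOn_pi.1 hβ j).contDiffAt hn).differentiableAt (by simp)).hasFDerivAt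
  have dwj := fun j => (EuclideanSpace.proj j : E n →L[ℝ] ℝ).hasFDerivAt.comp x dw
  have h1 := (hΦ.hasFDerivAt.comp x (dc.prodMk (du.prodMk dom))).sub
    (HasFDerivAt.fun_sum (u := Finset.univ) fun j _ => (dβ j).mul (dwj j))
  have h2 : ℋ =ᶠ[𝓝 x] fun y => Φ (c y, u y, om g u y) - ∑ j, β y j * 𝓌 y j := by
    filter_upwards [hn] with y hy using heq y hy
  have h3 : ((fderiv ℝ c x Y, fderiv ℝ u x Y, fderiv ℝ (om g u) x Y) : P × ℝ × ℝ) =
      (fderiv ℝ c x Y, 0, 0) + fderiv ℝ u x Y • (0, 1, 0) + fderiv ℝ (om g u) x Y • (0, 0, 1) := by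
    simp
  rw [h2.fderiv_eq]
  refine (congrArg (fun L : E n →L[ℝ] ℝ => L Y) h1.fderiv).trans ?_
  simp only [sub_apply, ContinuousLinearMap.comp_apply,
    ContinuousLinearMap.prod_apply, sum_apply, add_apply,
    smul_apply, smul_eq_mul, cov_apply, Function.comp, PiLp.proj_apply,
    PiLp.add_apply, add_sub_cancel_right]
  rw [h3, map_add, map_add, map_smul, map_smul, smul_eq_mul, smul_eq_mul]

/-- the term that is multiplied by `ω` -/
def Ta (g : MetricField n) (β : E n → Fin n → ℝ) (c : E n → P) (u : E n → ℝ)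
    (D : P × ℝ × ℝ →L[ℝ] ℝ) (x : E n) : ℝ :=
  -(∑ i, ∑ j, ricci g x i j * wv g one u x i * wv g one u x j)
    - D (fderiv ℝ c x (wv g one u x), 0, 0)
    + ∑ j, (wv g one u x j * fderiv ℝ (fun y => β y j) x (wv g one u x)
      - β x j * ∑ i, ∑ l, christoffel g x j i l * wv g one u x i * wv g one u x l)

/-- the term that is multiplied by `δ` -/
def Tb (g : MetricField n) (β : E n → Fin n → ℝ) (u ζ : E n → ℝ) (D : P × ℝ × ℝ →L[ℝ] ℝ)
    (x : E n) : ℝ :=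
  H0 g one u x * fderiv ℝ ζ x (wv g one u x)
    - om g u x * fderiv ℝ ζ x (wv g one u x) * D (0, 0, 1)
    - ∑ j, β x j * ∑ l, inverseField (N346.Id.gb g one u) x j l * d1 ζ x l
    - ∑ i, ∑ j, inverseField (N346.Id.gb g one u) x i j *
      (d2 ζ x i j - ∑ k, christoffel g x k i j * d1 ζ x k)

theorem grad_pt (hg : IsRiemannianOn g U) (hu : ContDiffOn ℝ ∞ u U) (hβ : ContDiffOn ℝ ∞ β U)
    (hc : ContDiffOn ℝ ∞ c U) (hx : x ∈ U) (hΦ : DifferentiableAt ℝ Φ (c x, u x, om g u x))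
    (heq : ∀ y ∈ U, ℋ y = Φ (c y, u y, om g u y) - ∑ j, β y j * 𝓌 y j) {ζ : E n → ℝ} {δ : ℝ}
    (hζ : ContDiffAt ℝ 2 ζ x) (hm : IsLocalMax (fun y => δ * ζ y - om g u y) x) :
    (1 - om g u x ^ 2) * fderiv ℝ Φ (c x, u x, om g u x) (0, 1, 0) ≤
      om g u x * Ta g β c u (fderiv ℝ Φ (c x, u x, om g u x)) x
        + δ * Tb g β u ζ (fderiv ℝ Φ (c x, u x, om g u x)) x := by
  have hd := jd hg hu
  have ho2 : ContDiffAt ℝ 2 (om g u) x := (contDiffAt_om hg hu hx).of_le (by norm_cast)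
  have hz2 : ContDiffAt ℝ 2 (fun y => δ * ζ y) x := contDiffAt_const.mul hζ
  have hζd : DifferentiableAt ℝ ζ x := hζ.differentiableAt (by norm_num)
  have h1 := N346.Bd.lap_le_of_max hd.riemb hx hz2 ho2 hm
  have h2 : fderiv ℝ (om g u) x = δ • fderiv ℝ ζ x := by
    rw [← (N346.Bd.touch_of_max hz2 ho2 hm).1, fderiv_const_mul hζd]
  have h3 : ∀ j, om g u x * cov g 𝓌 x (𝓌 x) j = -(δ * ∑ l, inverseField ḡ x j l * d1 ζ x l) := by
    intro j
    have h4 := congrArg (fun v : E n => v j) (grad_om hg hu hx)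
    rw [grad_eq_sharp, h2, map_smul, ← grad_eq_sharp] at h4
    simp only [PiLp.smul_apply, PiLp.neg_apply, smul_eq_mul, grad_apply] at h4
    rw [← neg_eq_iff_eq_neg, ← h4]; rfl
  have h5 := lap_om hg hu hx
  rw [fderiv_H0 hg hu hβ hc hx hΦ heq, h2, bil_ricM] at h5
  rw [lap_const_mul hd.riemb hx δ hζ, hd.lap_gb hx hζ, lv_one, gam_const_right, traceK] at h1
  simp only [hessM_eq g hζ] at h1
  have h6 : om g u x * ∑ j, (β x j * (cov g 𝓌 x (𝓌 x) j - Gam g x (𝓌 x) (𝓌 x) j)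
      + 𝓌 x j * fderiv ℝ (fun y => β y j) x (𝓌 x)) =
      om g u x * ∑ j, (𝓌 x j * fderiv ℝ (fun y => β y j) x (𝓌 x)
        - β x j * ∑ i, ∑ l, christoffel g x j i l * 𝓌 x i * 𝓌 x l)
      - δ * ∑ j, β x j * ∑ l, inverseField ḡ x j l * d1 ζ x l := by
    rw [Finset.mul_sum, Finset.mul_sum, Finset.mul_sum (a := δ), ← Finset.sum_sub_distrib]
    refine Finset.sum_congr rfl fun j _ => ?_
    rw [Gam_apply]
    linear_combination β x j * h3 j
  rw [← om_du hg hu hx, Ta, Tb]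
  simp only [smul_apply, smul_eq_mul] at h5
  linarith

end Crest.Agent.N222.J

namespace Crest.Agent.N222.J

theorem grad_centre : FamStmt fun _ _ _ x0 g u => ∃ C : ℝ, ∀ i, cW (g i) (u i) (x0 i) ≤ C := by
  intro n ι P _ _ _ Φ I K a b lo hi r x0 g β c u hΦ hK hab h
  have hr := h.r_pos
  obtain ⟨κ, hκ, Hκ⟩ := hΦ.kappa hK hab
  let Z : E n → ℝ := fun y => 1 - ‖y‖ ^ 2 / (r / 2) ^ 2
  have hZ : ContDiff ℝ ∞ Z := contDiff_const.sub ((contDiff_norm_sq ℝ).div_const _)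
  let ζ : ι → E n → ℝ := fun i y => Z (y - x0 i)
  have hζ : ∀ i, ContDiff ℝ ∞ (ζ i) := fun i => hZ.comp (contDiff_id.sub contDiff_const)
  have lζ : LK 1 (Bl x0 r) 2 ζ := (LB.translate hZ x0 r).lk one_pos le_rfl 2
  have bD := h.bd_dΦ hΦ hK hab
  have bw := h.bd_wv
  have bz1 : ∀ l, Bd (Bl x0 r) fun i x => d1 (ζ i) x l := fun l => (lζ.pd l).bd
  have bz2 : ∀ j l, Bd (Bl x0 r) fun i x => d2 (ζ i) x j l := fun j l => ((lζ.pd l).pd j).bd
  have bzw : Bd (Bl x0 r) fun i x => fderiv ℝ (ζ i) x (wv (g i) one (u i) x) := lζ.fd.bd.app bw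
  have bA : Bd (Bl x0 r) fun i x =>
      Ta (g i) (β i) (c i) (u i) (fderiv ℝ Φ (c i x, u i x, om (g i) (u i) x)) x :=
    (((Bd.sum fun i => Bd.sum fun j => ((h.bd_ric i j).mul (bw.coord i)).mul (bw.coord j)).neg).sub
      (bD.app (((h.cb.lk one_pos le_rfl 1).fd.bd.app bw).prodMk (Bd.const _)))).add
      (Bd.sum fun j => ((bw.coord j).mul (((h.βb.lk one_pos le_rfl 1).apply j).fd.bd.app bw)).sub
        ((h.bd_β j).mul (Bd.sum fun i => Bd.sum fun l =>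
          ((h.bd_chris j i l).mul (bw.coord i)).mul (bw.coord l))))
  have bB : Bd (Bl x0 r) fun i x =>
      Tb (g i) (β i) (u i) (ζ i) (fderiv ℝ Φ (c i x, u i x, om (g i) (u i) x)) x :=
    ((((h.bd_H0 hΦ hK hab).mul bzw).sub ((h.bd_om.mul bzw).mul (bD.app (Bd.const _)))).sub
      (Bd.sum fun j => (h.bd_β j).mul (Bd.sum fun l => (h.bd_invb j l).mul (bz1 l)))).sub
      (Bd.sum fun i => Bd.sum fun j => (h.bd_invb i j).mul
        ((bz2 i j).sub (Bd.sum fun k => (h.bd_chris k i j).mul (bz1 k))))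
  obtain ⟨A, hA0, hA⟩ := bA
  obtain ⟨B, hB0, hB⟩ := bB
  obtain ⟨δ, hδ, hδ1, hδ2⟩ : ∃ δ : ℝ, 0 < δ ∧ δ ≤ 1 / 2 ∧ δ * (A + B + 1) ≤ κ / 2 :=
    ⟨min (1 / 2) (κ / 2 / (A + B + 1)), lt_min (by norm_num) (by positivity), min_le_left _ _,
      (le_div_iff₀ (by positivity)).1 (min_le_right _ _)⟩
  refine ⟨δ⁻¹, fun i => ?_⟩
  by_contra hh
  have hsub : closedBall (x0 i) (r / 2) ⊆ ball (x0 i) r := closedBall_subset_ball (by linarith)
  have hom : ∀ y ∈ ball (x0 i) r, 0 < om (g i) (u i) y := fun y hy =>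
    inv_pos.2 (cW_pos (h.riem i) hy _)
  have h0 : om (g i) (u i) (x0 i) < δ := (inv_lt_comm₀ (cW_pos (h.riem i) (mem_ball_self hr) _)
    hδ).2 (not_le.1 hh)
  obtain ⟨x, hx, hm⟩ := (isCompact_closedBall (x0 i) (r / 2)).exists_isMaxOn
    ⟨x0 i, mem_closedBall_self (by linarith)⟩
    (f := fun y => δ * ζ i y - om (g i) (u i) y)
    ((continuous_const.mul (hζ i).continuous).continuousOn.sub fun y hy =>
      (contDiffAt_om (h.riem i) (h.us i) (hsub hy)).continuousAt.continuousWithinAt)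
  have h1 : δ * ζ i (x0 i) - om (g i) (u i) (x0 i) ≤ δ * ζ i x - om (g i) (u i) x :=
    hm (mem_closedBall_self (by linarith))
  have h2 : ζ i (x0 i) = 1 := by simp [ζ, Z]
  have h3 : ζ i x = 1 - ‖x - x0 i‖ ^ 2 / (r / 2) ^ 2 := rfl
  have h4 := hom x (hsub hx)
  have h5 : 0 < ζ i x := by
    by_contra h6
    nlinarith [mul_nonneg hδ.le (neg_nonneg.2 (not_lt.1 h6))]
  have h6 : ζ i x ≤ 1 := by rw [h3]; exact sub_le_self _ (by positivity)
  have h7 : x ∈ ball (x0 i) (r / 2) := by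
    rw [h3, sub_pos, div_lt_one (by positivity)] at h5
    exact mem_ball_iff_norm.2 (lt_of_pow_lt_pow_left₀ 2 (by linarith) h5)
  have h8 : om (g i) (u i) x < δ := by nlinarith
  have h9 := grad_pt (h.riem i) (h.us i) (h.βb.1 i) (h.cb.1 i) (hsub hx)
    ((hΦ.at _ (hab (h.uI i x (hsub hx))) _).differentiableAt (by simp)) (h.H0_eq i)
    ((hζ i).contDiffAt.of_le (by norm_cast))
    (hm.isLocalMax (mem_of_superset (isOpen_ball.mem_nhds h7) ball_subset_closedBall))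
  have k1 := Hκ _ (h.state i x (hsub hx))
  have k2 := (abs_le.1 (hA i x (hsub hx))).2
  have k3 := (abs_le.1 (hB i x (hsub hx))).2
  have k4 : 3 / 4 ≤ 1 - om (g i) (u i) x ^ 2 := by nlinarith
  have k5 := mul_le_mul k4 k1 hκ.le (by linarith)
  have k6 := mul_le_mul_of_nonneg_left k2 h4.le
  have k7 := mul_le_mul_of_nonneg_left k3 hδ.le
  have k8 := mul_le_mul_of_nonneg_right h8.le hA0
  nlinarith

theorem gradEst : GradStmt := by
  intro n ι P _ _ _ Φ I K a b lo hi r x0 g β c u hΦ hK hab h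
  obtain ⟨C, hC⟩ := grad_centre n (Σ i : ι, ball (x0 i) (r / 2)) P Φ I K a b lo hi (r / 2)
    (fun j => j.2) _ _ _ _ hΦ hK hab (h.recentre (fun j => j.1) (half_pos h.r_pos) fun j =>
      ball_subset_ball' (by linarith [mem_ball.1 j.2.2]))
  exact ⟨C, fun i x hx => hC ⟨i, x, hx⟩⟩

end Crest.Agent.N222.J
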