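import Crest.Agent.N222.J.Bd

/-!
# Row 222, toolbox J (helper41): continuity of the operator in the jets, uniform ellipticity
-/

set_option autoImplicit false

open Set Filter Topology Metric
open scoped ContDiff
open Crest.GeometryTopology.CoordMetric
open Crest.Agent.R238 (Ell)

noncomputable section

namespace Crest.Agent.N222.J

variable {n : ℕ}

/-- uniform ellipticity on compact sets -/
theorem exists_ell2 {Z : Type*} [TopologicalSpace Z] {K : Set Z} (hK : IsCompact K)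
    {A : Z → Matrix (Fin n) (Fin n) ℝ} (hA : ∀ i j, ContinuousOn (fun z => A z i j) K)
    (hp : ∀ z ∈ K, (A z).PosDef) : ∃ lo hi : ℝ, 0 < lo ∧ lo ≤ hi ∧ ∀ z ∈ K, Ell lo hi (A z) := by
  have hc : ContinuousOn (fun q : Z × E n => ∑ i, ∑ j, A q.1 i j * q.2 i * q.2 j)
      (K ×ˢ sphere 0 1) := continuousOn_finsetSum _ fun i _ => continuousOn_finsetSum _ fun j _ =>
    (((hA i j).comp continuousOn_fst fun _ h => h.1).mul (by fun_prop)).mul (by fun_prop)
  have hK' := hK.prod (isCompact_sphere (0 : E n) 1)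
  obtain ⟨lo, hlo, H⟩ := hK'.exists_forall_le' hc (a := 0) fun q hq => by
    have h0 : (q.2 : Fin n → ℝ) ≠ 0 := fun h => by
      have h1 : q.2 = 0 := by ext i; exact congrFun h i
      simpa [h1] using hq.2
    have := (hp _ hq.1).dotProduct_mulVec_pos h0
    rwa [star_trivial, R238.sm_quad_eq] at this
  obtain ⟨hi, H'⟩ := hK'.exists_bound_of_continuousOn hc
  refine ⟨lo, max lo hi, hlo, le_max_left _ _, fun z hz => ⟨fun i j => ?_, fun v => ?_⟩⟩
  · simpa using ((hp z hz).1.apply j i)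
  · let w : E n := WithLp.toLp 2 v
    have hw : ∑ i, v i ^ 2 = ‖w‖ ^ 2 := (EuclideanSpace.real_norm_sq_eq w).symm
    rcases eq_or_ne w 0 with h0 | h0
    · have : ∀ i, v i = 0 := fun i => congrArg (fun y : E n => y i) h0
      simp [this]
    · have hn : 0 < ‖w‖ := norm_pos_iff.2 h0
      have hs : ‖w‖⁻¹ • w ∈ sphere (0 : E n) 1 := by simp [norm_smul, hn.ne']
      have e : ∑ i, ∑ j, A z i j * v i * v j =
          (∑ i, ∑ j, A z i j * (‖w‖⁻¹ • w) i * (‖w‖⁻¹ • w) j) * ‖w‖ ^ 2 := by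
        simp only [Finset.sum_mul]
        refine Finset.sum_congr rfl fun i _ => Finset.sum_congr rfl fun j _ => ?_
        change _ = A z i j * (‖w‖⁻¹ * v i) * (‖w‖⁻¹ * v j) * ‖w‖ ^ 2
        field_simp
      rw [e, hw]
      exact ⟨mul_le_mul_of_nonneg_right (H (z, _) ⟨hz, hs⟩) (sq_nonneg _),
        mul_le_mul_of_nonneg_right (((le_abs_self _).trans (H' (z, _) ⟨hz, hs⟩)).trans
          (le_max_right _ _)) (sq_nonneg _)⟩

theorem posDef_add_outer {G : Matrix (Fin n) (Fin n) ℝ} (hG : G.PosDef) (p : Fin n → ℝ) :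
    (G + Matrix.vecMulVec p p).PosDef :=
  hG.add_posSemidef (by simpa using Matrix.posSemidef_vecMulVec_self_star p)

theorem one_le_jW {G : Matrix (Fin n) (Fin n) ℝ} (hG : G.PosDef) (p : Fin n → ℝ) : 1 ≤ jW G p := by
  have := hG.inv.posSemidef.dotProduct_mulVec_nonneg p
  rw [star_trivial, R238.sm_quad_eq] at this
  exact Real.one_le_sqrt.2 (by linarith)

section Lim

variable {α : Type*} {l : Filter α} {G : α → Matrix (Fin n) (Fin n) ℝ}
  {G0 : Matrix (Fin n) (Fin n) ℝ} {p b : α → Fin n → ℝ} {p0 b0 : Fin n → ℝ}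
  {Γ : α → Fin n → Fin n → Fin n → ℝ} {Γ0 : Fin n → Fin n → Fin n → ℝ}
  {H : α → Fin n → Fin n → ℝ} {H0 : Fin n → Fin n → ℝ}

theorem tendsto_matInv (h0 : G0.PosDef) (hG : ∀ i j, Tendsto (fun a => G a i j) l (𝓝 (G0 i j)))
    (i j : Fin n) : Tendsto (fun a => (G a)⁻¹ i j) l (𝓝 (G0⁻¹ i j)) := by
  have h1 : Tendsto G l (𝓝 G0) := tendsto_pi_nhds.2 fun i => tendsto_pi_nhds.2 fun j => hG i j
  have h2 : ContinuousAt Inv.inv G0 := continuousAt_matrix_inv G0 (by
    rw [Ring.inverse_eq_inv']; exact continuousAt_inv₀ h0.det_pos.ne')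
  exact tendsto_pi_nhds.1 (tendsto_pi_nhds.1 (h2.tendsto.comp h1) i) j

theorem tendsto_jW (h0 : G0.PosDef) (hG : ∀ i j, Tendsto (fun a => G a i j) l (𝓝 (G0 i j)))
    (hp : ∀ i, Tendsto (fun a => p a i) l (𝓝 (p0 i))) :
    Tendsto (fun a => jW (G a) (p a)) l (𝓝 (jW G0 p0)) :=
  (tendsto_const_nhds.add (tendsto_finsetSum _ fun i _ => tendsto_finsetSum _ fun j _ =>
    ((tendsto_matInv h0 hG i j).mul (hp i)).mul (hp j))).sqrt

theorem tendsto_jQ (h0 : G0.PosDef) (hG : ∀ i j, Tendsto (fun a => G a i j) l (𝓝 (G0 i j)))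
    (hΓ : ∀ k i j, Tendsto (fun a => Γ a k i j) l (𝓝 (Γ0 k i j)))
    (hb : ∀ i, Tendsto (fun a => b a i) l (𝓝 (b0 i)))
    (hp : ∀ i, Tendsto (fun a => p a i) l (𝓝 (p0 i)))
    (hH : ∀ i j, Tendsto (fun a => H a i j) l (𝓝 (H0 i j))) :
    Tendsto (fun a => jQ (G a) (Γ a) (b a) (p a) (H a)) l (𝓝 (jQ G0 Γ0 b0 p0 H0)) := by
  have hA := tendsto_matInv (G := fun a => G a + Matrix.vecMulVec (p a) (p a))
    (posDef_add_outer h0 p0) fun i j => (hG i j).add ((hp i).mul (hp j))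
  exact ((tendsto_finsetSum _ fun i _ => tendsto_finsetSum _ fun j _ => (hA i j).mul
    ((hH i j).sub (tendsto_finsetSum _ fun k _ => (hΓ k i j).mul (hp k)))).add
    (tendsto_finsetSum _ fun i _ => (hb i).mul (tendsto_finsetSum _ fun j _ =>
      (tendsto_matInv h0 hG i j).mul (hp j)))).div (tendsto_jW h0 hG hp)
    (one_pos.trans_le (one_le_jW h0 p0)).ne'

end Lim

theorem d1_eq_iter (u : E n → ℝ) (x : E n) (i : Fin n) :
    d1 u x i = iteratedFDeriv ℝ 1 u x fun _ => EuclideanSpace.single i 1 := by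
  rw [iteratedFDeriv_one_apply]; rfl

theorem d2_eq_iter {u : E n → ℝ} {x : E n} (hu : ContDiffAt ℝ 2 u x) (i j : Fin n) :
    d2 u x i j = iteratedFDeriv ℝ 2 u x ![EuclideanSpace.single i 1, EuclideanSpace.single j 1] := by
  have hd : DifferentiableAt ℝ (fderiv ℝ u) x :=
    (hu.fderiv_right (m := 1) (by norm_num)).differentiableAt (by norm_num)
  rw [iteratedFDeriv_two_apply]
  change fderiv ℝ (fun y => fderiv ℝ u y (EuclideanSpace.single j 1)) x _ = _
  rw [fderiv_clm_apply hd (differentiableAt_const _)]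
  simp

/-- the equation passes to limits of jets -/
theorem tendsto_cQ {g : MetricField n} {β : E n → Fin n → ℝ} {U : Set (E n)}
    (hg : IsRiemannianOn g U) {w : ℕ → E n → ℝ} {h : E n → ℝ} (hw : ∀ j, ContDiffOn ℝ ∞ (w j) U)
    (hh : ContDiffOn ℝ ∞ h U) {x : E n} (hx : x ∈ U)
    (ht : ∀ k : ℕ, Tendsto (fun j => iteratedFDeriv ℝ k (w j) x) atTop
      (𝓝 (iteratedFDeriv ℝ k h x))) :
    Tendsto (fun j => cQ g β (w j) x) atTop (𝓝 (cQ g β h x)) ∧
      Tendsto (fun j => cW g (w j) x) atTop (𝓝 (cW g h x)) := by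
  have hn := hg.isOpen.mem_nhds hx
  have h1 : ∀ i, Tendsto (fun j => d1 (w j) x i) atTop (𝓝 (d1 h x i)) := fun i => by
    simp only [d1_eq_iter]
    exact ((continuous_eval_const _).tendsto _).comp (ht 1)
  have h2 : ∀ i l, Tendsto (fun j => d2 (w j) x i l) atTop (𝓝 (d2 h x i l)) := fun i l => by
    simp only [fun j => d2_eq_iter (((hw j).contDiffAt hn).of_le (by norm_cast)) i l,
      d2_eq_iter ((hh.contDiffAt hn).of_le (by norm_cast)) i l]
    exact ((continuous_eval_const _).tendsto _).comp (ht 2)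
  simp only [fun j => nd n g β _ U hg (hw j) x hx, nd n g β _ U hg hh x hx, cW_eq]
  exact ⟨tendsto_jQ (hg.posDef x hx) (fun _ _ => tendsto_const_nhds)
    (fun _ _ _ => tendsto_const_nhds) (fun _ => tendsto_const_nhds) h1 h2,
    tendsto_jW (hg.posDef x hx) (fun _ _ => tendsto_const_nhds) h1⟩

end Crest.Agent.N222.J
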