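import Crest.Agent.N222.J.Defs
import Crest.Agent.NLib.Ell.CKA2
import Crest.Agent.R238.StepMat

/-!
# Row 222, toolbox J (helper41): calculus of the uniform classes `LK`, `LB` on families of balls
-/

set_option autoImplicit false

open Set Filter Topology Metric
open scoped ContDiff
open Crest.GeometryTopology.CoordMetric
open Crest.Agent.R247.Bo84
open Crest.Agent.R238 (Ell)
open Crest.Agent.R273.SchA_152 (HO)
open Crest.Agent.NLib.Ell (CKA)

noncomputable section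

namespace Crest.Agent.N222.J

variable {n : ℕ} {ι F G : Type} [NormedAddCommGroup F] [NormedSpace ℝ F] [NormedAddCommGroup G]
  [NormedSpace ℝ G] {a r : ℝ} {k : ℕ} {x0 : ι → E n} {f g : ι → E n → F} {u v : ι → E n → ℝ}

namespace LK

theorem reindex {κ : Type} {S : ι → Set (E n)} {T : κ → Set (E n)} (h : LK a S k f) (e : κ → ι)
    (hT : ∀ j, T j ⊆ S (e j)) : LK a T k fun j => f (e j) :=
  let ⟨M, hM⟩ := h; ⟨M, fun j => (hM (e j)).subset (hT j)⟩

theorem shrink {s : ℝ} (h : LK a (Bl x0 r) k f) (hs : s ≤ r) : LK a (Bl x0 s) k f :=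
  h.reindex id fun _ => ball_subset_ball hs

theorem of_le {S : ι → Set (E n)} (h : LK a S k f) {j : ℕ} (hj : j ≤ k) : LK a S j f :=
  let ⟨M, hM⟩ := h; ⟨M, fun i => (hM i).of_le hj⟩

theorem pred {S : ι → Set (E n)} (h : LK a S (k + 1) f) : LK a S k f := h.of_le k.le_succ

theorem congr (h : LK a (Bl x0 r) k f) (e : ∀ i, ∀ x ∈ ball (x0 i) r, g i x = f i x) :
    LK a (Bl x0 r) k g :=
  let ⟨M, hM⟩ := h; ⟨M, fun i => (hM i).congr isOpen_ball (e i)⟩

theorem bdd {S : ι → Set (E n)} (h : LK a S k f) : ∃ C, 0 ≤ C ∧ ∀ i, ∀ x ∈ S i, ‖f i x‖ ≤ C :=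
  let ⟨M, hM⟩ := h
  ⟨max M 0, le_max_right _ _, fun i _ hx => ((hM i).bdd hx).trans (le_max_left _ _)⟩

theorem abs_le {S : ι → Set (E n)} (h : LK a S k u) : ∃ C, 0 ≤ C ∧ ∀ i, ∀ x ∈ S i, |u i x| ≤ C :=
  h.bdd

theorem consts {S : ι → Set (E n)} {c : ι → F} (hc : ∃ C, ∀ i, ‖c i‖ ≤ C) :
    LK a S k fun i _ => c i :=
  let ⟨C, hC⟩ := hc; ⟨C, fun i => (CKA.const (c i)).mono (hC i)⟩

theorem const {S : ι → Set (E n)} (c : F) : LK a S k fun _ _ => c := consts ⟨‖c‖, fun _ => le_rfl⟩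

theorem add (hf : LK a (Bl x0 r) k f) (hg : LK a (Bl x0 r) k g) :
    LK a (Bl x0 r) k fun i x => f i x + g i x :=
  let ⟨_, hM⟩ := hf; let ⟨_, hN⟩ := hg; ⟨_, fun i => (hM i).add isOpen_ball (hN i)⟩

theorem sub (hf : LK a (Bl x0 r) k f) (hg : LK a (Bl x0 r) k g) :
    LK a (Bl x0 r) k fun i x => f i x - g i x :=
  let ⟨_, hM⟩ := hf; let ⟨_, hN⟩ := hg; ⟨_, fun i => (hM i).sub isOpen_ball (hN i)⟩

theorem neg (hf : LK a (Bl x0 r) k f) : LK a (Bl x0 r) k fun i x => -f i x :=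
  let ⟨_, hM⟩ := hf; ⟨_, fun i => (hM i).neg isOpen_ball⟩

theorem mul (hf : LK a (Bl x0 r) k u) (hg : LK a (Bl x0 r) k v) :
    LK a (Bl x0 r) k fun i x => u i x * v i x :=
  let ⟨_, hM⟩ := hf; let ⟨_, hN⟩ := hg; ⟨_, fun i => (hM i).mul isOpen_ball (hN i)⟩

theorem smul (hu : LK a (Bl x0 r) k u) (hf : LK a (Bl x0 r) k f) :
    LK a (Bl x0 r) k fun i x => u i x • f i x :=
  let ⟨_, hM⟩ := hu; let ⟨_, hN⟩ := hf; ⟨_, fun i => CKA.smulF isOpen_ball (hM i) (hN i)⟩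

theorem const_mul (c : ℝ) (hu : LK a (Bl x0 r) k u) : LK a (Bl x0 r) k fun i x => c * u i x :=
  (const c).mul hu

theorem pow (hu : LK a (Bl x0 r) k u) (m : ℕ) : LK a (Bl x0 r) k fun i x => u i x ^ m := by
  induction m with
  | zero => exact (const (1 : ℝ)).congr fun _ _ _ => pow_zero _
  | succ m ih => exact (ih.mul hu).congr fun _ _ _ => pow_succ _ _

theorem clm (T : F →L[ℝ] G) (hf : LK a (Bl x0 r) k f) : LK a (Bl x0 r) k fun i x => T (f i x) :=
  let ⟨_, hM⟩ := hf; ⟨_, fun i => (hM i).clm isOpen_ball T le_rfl⟩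

theorem app {A : ι → E n → F →L[ℝ] G} (hA : LK a (Bl x0 r) k A) (hf : LK a (Bl x0 r) k f) :
    LK a (Bl x0 r) k fun i x => A i x (f i x) :=
  let ⟨_, hM⟩ := hA; let ⟨_, hN⟩ := hf; ⟨_, fun i => CKA.app isOpen_ball (hM i) (hN i)⟩

theorem fsum {α : Type*} (s : Finset α) {w : α → ι → E n → F}
    (h : ∀ j ∈ s, LK a (Bl x0 r) k (w j)) : LK a (Bl x0 r) k fun i x => ∑ j ∈ s, w j i x := by
  classical
  induction s using Finset.induction_on with
  | empty => exact (const (0 : F)).congr fun _ _ _ => Finset.sum_empty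
  | insert j s hj ih =>
    exact ((h j (Finset.mem_insert_self _ _)).add
      (ih fun l hl => h l (Finset.mem_insert_of_mem hl))).congr fun _ _ _ => Finset.sum_insert hj

theorem sum {α : Type*} [Fintype α] {w : α → ι → E n → F} (h : ∀ j, LK a (Bl x0 r) k (w j)) :
    LK a (Bl x0 r) k fun i x => ∑ j, w j i x := fsum _ fun j _ => h j

theorem fprod {α : Type*} (s : Finset α) {w : α → ι → E n → ℝ}
    (h : ∀ j ∈ s, LK a (Bl x0 r) k (w j)) : LK a (Bl x0 r) k fun i x => ∏ j ∈ s, w j i x := by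
  classical
  induction s using Finset.induction_on with
  | empty => exact (const (1 : ℝ)).congr fun _ _ _ => Finset.prod_empty
  | insert j s hj ih =>
    exact ((h j (Finset.mem_insert_self _ _)).mul
      (ih fun l hl => h l (Finset.mem_insert_of_mem hl))).congr fun _ _ _ => Finset.prod_insert hj

theorem prodMk {w : ι → E n → G} (hf : LK a (Bl x0 r) k f) (hw : LK a (Bl x0 r) k w) :
    LK a (Bl x0 r) k fun i x => (f i x, w i x) :=
  let ⟨_, hM⟩ := hf; let ⟨_, hN⟩ := hw; ⟨_, fun i => (hM i).prod isOpen_ball (hN i)⟩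

theorem apply {α : Type} [Fintype α] {w : ι → E n → α → F} (h : LK a (Bl x0 r) k w) (j : α) :
    LK a (Bl x0 r) k fun i x => w i x j :=
  let ⟨_, hM⟩ := h; ⟨_, fun i => (hM i).apply isOpen_ball j⟩

theorem pi {α : Type} [Fintype α] {w : ι → E n → α → F}
    (h : ∀ j, LK a (Bl x0 r) k fun i x => w i x j) : LK a (Bl x0 r) k w := by
  choose M hM using h
  obtain ⟨C, hC⟩ := (Set.finite_range M).bddAbove
  exact ⟨_, fun i => CKA.pi isOpen_ball fun j => (hM j i).mono (hC ⟨j, rfl⟩)⟩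

theorem pd {S : ι → Set (E n)} (h : LK a S (k + 1) u) (j : Fin n) :
    LK a S k fun i => pderiv j (u i) :=
  let ⟨M, hM⟩ := h; ⟨M, fun i => (hM i).pd j⟩

theorem fd (h : LK a (Bl x0 r) (k + 1) f) : LK a (Bl x0 r) k fun i => fderiv ℝ (f i) :=
  let ⟨_, hM⟩ := h; ⟨_, fun i => (hM i).fderiv isOpen_ball⟩

theorem d1 (h : LK a (Bl x0 r) (k + 1) u) : LK a (Bl x0 r) k fun i => d1 (u i) :=
  pi fun j => h.pd j

theorem comp [FiniteDimensional ℝ F] (ha : 0 < a) (ha1 : a ≤ 1) {Φ : F → G} {W K : Set F}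
    (hW : IsOpen W) (hK : IsCompact K) (hKW : K ⊆ W) (hΦ : ContDiffOn ℝ ∞ Φ W)
    (hf : LK a (Bl x0 r) k f) (hfK : ∀ i, ∀ x ∈ ball (x0 i) r, f i x ∈ K) :
    LK a (Bl x0 r) k fun i x => Φ (f i x) := by
  obtain ⟨M, hM⟩ := hf
  obtain ⟨C, hC⟩ := NLib.Ell.comp n k a M ha ha1 F G Φ W K hW hK hKW hΦ
  exact ⟨C, fun i => hC _ _ isOpen_ball (hfK i) (hM i)⟩

/-- composition when the values stay in a closed subset of the domain of smoothness -/
theorem comp' [FiniteDimensional ℝ F] (ha : 0 < a) (ha1 : a ≤ 1) {Φ : F → G} {W K : Set F}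
    (hW : IsOpen W) (hK : IsClosed K) (hKW : K ⊆ W) (hΦ : ContDiffOn ℝ ∞ Φ W)
    (hf : LK a (Bl x0 r) k f) (hfK : ∀ i, ∀ x ∈ ball (x0 i) r, f i x ∈ K) :
    LK a (Bl x0 r) k fun i x => Φ (f i x) := by
  obtain ⟨C, -, hC⟩ := hf.bdd
  haveI := FiniteDimensional.proper_real F
  exact hf.comp ha ha1 hW ((isCompact_closedBall (0 : F) C).inter_left hK)
    (inter_subset_left.trans hKW) hΦ fun i x hx => ⟨hfK i x hx, mem_closedBall_zero_iff.2 (hC i x hx)⟩

theorem comp_smooth [FiniteDimensional ℝ F] (ha : 0 < a) (ha1 : a ≤ 1) {Φ : F → G}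
    (hΦ : ContDiff ℝ ∞ Φ) (hf : LK a (Bl x0 r) k f) : LK a (Bl x0 r) k fun i x => Φ (f i x) :=
  hf.comp' ha ha1 isOpen_univ isClosed_univ subset_rfl hΦ.contDiffOn fun _ _ _ => mem_univ _

theorem comp_pos (ha : 0 < a) (ha1 : a ≤ 1) {Φ : ℝ → G} (hΦ : ∀ t, 0 < t → ContDiffAt ℝ ∞ Φ t)
    (hu : LK a (Bl x0 r) k u) {c : ℝ} (hc : 0 < c) (h : ∀ i, ∀ x ∈ ball (x0 i) r, c ≤ u i x) :
    LK a (Bl x0 r) k fun i x => Φ (u i x) :=
  hu.comp' ha ha1 isOpen_Ioi isClosed_Ici (Ici_subset_Ioi.2 hc)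
    (fun t ht => (hΦ t ht).contDiffWithinAt) h

theorem inv (ha : 0 < a) (ha1 : a ≤ 1) (hu : LK a (Bl x0 r) k u) {c : ℝ} (hc : 0 < c)
    (h : ∀ i, ∀ x ∈ ball (x0 i) r, c ≤ u i x) : LK a (Bl x0 r) k fun i x => (u i x)⁻¹ :=
  hu.comp_pos ha ha1 (fun _ ht => contDiffAt_inv ℝ ht.ne') hc h

theorem sqrt (ha : 0 < a) (ha1 : a ≤ 1) (hu : LK a (Bl x0 r) k u) {c : ℝ} (hc : 0 < c)
    (h : ∀ i, ∀ x ∈ ball (x0 i) r, c ≤ u i x) : LK a (Bl x0 r) k fun i x => √(u i x) :=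
  hu.comp_pos ha ha1 (fun _ ht => Real.contDiffAt_sqrt ht.ne') hc h

theorem det {m : ℕ} {A : ι → E n → Matrix (Fin m) (Fin m) ℝ}
    (h : ∀ j l, LK a (Bl x0 r) k fun i x => A i x j l) :
    LK a (Bl x0 r) k fun i x => (A i x).det := by
  refine (sum fun σ : Equiv.Perm (Fin m) => (fprod Finset.univ fun j _ => h (σ j) j).const_mul
    ((Equiv.Perm.sign σ : ℤ) : ℝ)).congr fun i y _ => ?_
  rw [Matrix.det_apply']

end LK

theorem isClosed_ell (m : ℕ) (lo hi : ℝ) :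
    IsClosed {A : Fin m → Fin m → ℝ | Ell lo hi (Matrix.of A)} := by
  simp only [Ell, Matrix.of_apply, setOf_and, setOf_forall]
  refine IsClosed.inter (isClosed_iInter fun i => isClosed_iInter fun j =>
    isClosed_eq (by fun_prop) (by fun_prop)) (isClosed_iInter fun z => IsClosed.inter
      (isClosed_le (by fun_prop) (by fun_prop)) (isClosed_le (by fun_prop) (by fun_prop)))

/-- a uniform lower bound of the determinant of bounded elliptic matrices -/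
theorem det_lower (m : ℕ) {lo : ℝ} (hlo : 0 < lo) (hi C : ℝ) : ∃ c, 0 < c ∧
    ∀ A : Matrix (Fin m) (Fin m) ℝ, Ell lo hi A → (∀ j l, |A j l| ≤ C) → c ≤ A.det := by
  have hK : IsCompact ({A : Fin m → Fin m → ℝ | Ell lo hi (Matrix.of A)} ∩ closedBall 0 (max C 0)) :=
    (isCompact_closedBall _ _).inter_left (isClosed_ell m lo hi)
  have hc : Continuous fun A : Fin m → Fin m → ℝ => (Matrix.of A).det :=
    Continuous.matrix_det continuous_id
  obtain ⟨c, hc0, H⟩ := hK.exists_forall_le' hc.continuousOn (a := 0)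
    fun A hA => R238.Ell.sm_det_pos hlo hA.1
  refine ⟨c, hc0, fun A hA hC => H A ⟨hA, mem_closedBall_zero_iff.2 ?_⟩⟩
  exact (pi_norm_le_iff_of_nonneg (le_max_right _ _)).2 fun j =>
    (pi_norm_le_iff_of_nonneg (le_max_right _ _)).2 fun l => (hC j l).trans (le_max_left _ _)

namespace LK

variable {m : ℕ} {lo hi : ℝ} {A : ι → E n → Matrix (Fin m) (Fin m) ℝ}

theorem det_ge (hlo : 0 < lo) (h : ∀ j l, LK a (Bl x0 r) k fun i x => A i x j l)
    (he : ∀ i, ∀ x ∈ ball (x0 i) r, Ell lo hi (A i x)) :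
    ∃ c, 0 < c ∧ ∀ i, ∀ x ∈ ball (x0 i) r, c ≤ (A i x).det := by
  obtain ⟨C, -, hC⟩ := (pi (w := fun i x j l => A i x j l) fun j => pi fun l => h j l).bdd
  obtain ⟨c, hc, H⟩ := det_lower m hlo hi C
  exact ⟨c, hc, fun i x hx => H _ (he i x hx) fun j l =>
    ((norm_le_pi_norm (fun l => A i x j l) l).trans
      (norm_le_pi_norm (fun j l => A i x j l) j)).trans (hC i x hx)⟩

theorem matInv (ha : 0 < a) (ha1 : a ≤ 1) (hlo : 0 < lo)
    (h : ∀ j l, LK a (Bl x0 r) k fun i x => A i x j l)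
    (he : ∀ i, ∀ x ∈ ball (x0 i) r, Ell lo hi (A i x)) (j l : Fin m) :
    LK a (Bl x0 r) k fun i x => (A i x)⁻¹ j l := by
  obtain ⟨c, hc, H⟩ := det_ge hlo h he
  have h1 : LK a (Bl x0 r) k fun i y => ((A i y).updateRow l (Pi.single j 1)).det := by
    refine det fun p q => ?_
    by_cases hb : p = l
    · subst hb
      exact (const ((Pi.single j 1 : Fin m → ℝ) q)).congr fun i y _ => by simp
    · exact (h p q).congr fun i y _ => by simp [Matrix.updateRow_ne hb]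
  refine (((det h).inv ha ha1 hc H).mul h1).congr fun i y _ => ?_
  rw [Matrix.inv_def, Matrix.smul_apply, Matrix.adjugate_apply, Ring.inverse_eq_inv', smul_eq_mul]

theorem sqrt_det (ha : 0 < a) (ha1 : a ≤ 1) (hlo : 0 < lo)
    (h : ∀ j l, LK a (Bl x0 r) k fun i x => A i x j l)
    (he : ∀ i, ∀ x ∈ ball (x0 i) r, Ell lo hi (A i x)) :
    LK a (Bl x0 r) k fun i x => √(A i x).det := by
  obtain ⟨c, hc, H⟩ := det_ge hlo h he
  exact (det h).sqrt ha ha1 hc H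

variable {γ : ι → MetricField n}

theorem chris (ha : 0 < a) (ha1 : a ≤ 1) (hlo : 0 < lo)
    (h : ∀ j l, LK a (Bl x0 r) (k + 1) fun i x => γ i x j l)
    (he : ∀ i, ∀ x ∈ ball (x0 i) r, Ell lo hi (γ i x)) (p j l : Fin n) :
    LK a (Bl x0 r) k fun i x => christoffel (γ i) x p j l :=
  (sum fun q => (matInv ha ha1 hlo (fun j l => (h j l).pred) he p q).mul
    ((((h l q).pd j).add ((h j q).pd l)).sub ((h j l).pd q))).const_mul (1 / 2)

theorem ric (ha : 0 < a) (ha1 : a ≤ 1) (hlo : 0 < lo)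
    (h : ∀ j l, LK a (Bl x0 r) (k + 2) fun i x => γ i x j l)
    (he : ∀ i, ∀ x ∈ ball (x0 i) r, Ell lo hi (γ i x)) (j l : Fin n) :
    LK a (Bl x0 r) k fun i x => ricci (γ i) x j l := by
  have H := chris ha ha1 hlo h he
  exact (((sum fun p => (H p j l).pd p).sub ((sum fun p => H p p j).pd l)).add
    (sum fun p => sum fun q => (H p p q).pred.mul (H q j l).pred)).sub
    (sum fun p => sum fun q => (H p l q).pred.mul (H q p j).pred)

end LK

namespace LB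

theorem reindex {κ : Type} {S : ι → Set (E n)} {T : κ → Set (E n)} (h : LB S f) (e : κ → ι)
    (hT : ∀ j, T j ⊆ S (e j)) : LB T fun j => f (e j) :=
  ⟨fun j => (h.1 (e j)).mono (hT j), fun k =>
    let ⟨C, hC⟩ := h.2 k; ⟨C, fun j x hx => hC (e j) x (hT j hx)⟩⟩

theorem shrink {s : ℝ} (h : LB (Bl x0 r) f) (hs : s ≤ r) : LB (Bl x0 s) f :=
  h.reindex id fun _ => ball_subset_ball hs

theorem lk (h : LB (Bl x0 r) f) (ha : 0 < a) (ha1 : a ≤ 1) (k : ℕ) : LK a (Bl x0 r) k f := by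
  obtain ⟨C, -, hC⟩ := NLib.Ell.ckaDict n k a ha ha1
  choose M hM using h.2
  obtain ⟨B, hB⟩ := ((Set.finite_le_nat (k + 1)).image M).bddAbove
  exact ⟨C * B, fun i => (hC F _ (f i) B isOpen_ball).2.2 (convex_ball _ _)
    ((h.1 i).of_le (by exact_mod_cast le_top))
    fun j hj x hx => (hM j i x hx).trans (hB ⟨j, hj, rfl⟩)⟩

theorem of_lk (ha : 0 < a) (ha1 : a ≤ 1) (h : ∀ k, LK a (Bl x0 r) k f) : LB (Bl x0 r) f := by
  refine ⟨fun i => contDiffOn_infty.2 fun k => ?_, fun k => ?_⟩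
  · obtain ⟨M, hM⟩ := h k
    exact (hM i).contDiffOn isOpen_ball ha
  · obtain ⟨C, -, hC⟩ := NLib.Ell.ckaDict n k a ha ha1
    obtain ⟨M, hM⟩ := h k
    exact ⟨C * M, fun i x hx => (((hC F _ (f i) M isOpen_ball).1 (hM i)).2 k le_rfl).bdd x hx⟩

/-- a single map, smooth near a closed ball -/
theorem single {U : Set (E n)} {w : E n → F} {z : E n} (hU : IsOpen U) (hw : ContDiffOn ℝ ∞ w U)
    (hz : closedBall z r ⊆ U) : LB (Bl (fun _ : ι => z) r) fun _ => w := by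
  refine ⟨fun _ => hw.mono (ball_subset_closedBall.trans hz), fun k => ?_⟩
  have hc : ContinuousOn (iteratedFDeriv ℝ k w) (closedBall z r) := fun x hx =>
    ((hw.contDiffAt (hU.mem_nhds (hz hx))).continuousAt_iteratedFDeriv
      (by exact_mod_cast le_top)).continuousWithinAt
  obtain ⟨C, hC⟩ := (isCompact_closedBall z r).exists_bound_of_continuousOn hc
  exact ⟨C, fun _ x hx => hC x (ball_subset_closedBall hx)⟩

end LB

/-- bounds at the centre from an `LK` bound -/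
theorem LK.centre (ha : 0 < a) (ha1 : a ≤ 1) (hr : 0 < r) (h : LK a (Bl x0 r) k f) :
    ∃ C, ∀ i, ‖iteratedFDeriv ℝ k (f i) (x0 i)‖ ≤ C := by
  obtain ⟨C, -, hC⟩ := NLib.Ell.ckaDict n k a ha ha1
  obtain ⟨M, hM⟩ := h
  exact ⟨C * M, fun i =>
    (((hC F _ (f i) M isOpen_ball).1 (hM i)).2 k le_rfl).bdd _ (mem_ball_self hr)⟩

section Fam

variable {P : Type} [NormedAddCommGroup P] [NormedSpace ℝ P] {Φ : P × ℝ × ℝ → ℝ} {K : Set P}
  {b lo hi : ℝ} {γ : ι → MetricField n} {β : ι → E n → Fin n → ℝ} {c : ι → E n → P}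

theorem Fam.recentre {κ : Type} (h : Fam Φ K a b lo hi r x0 γ β c u) (e : κ → ι) {y0 : κ → E n}
    {s : ℝ} (hs : 0 < s) (hb : ∀ j, ball (y0 j) s ⊆ ball (x0 (e j)) r) :
    Fam Φ K a b lo hi s y0 (fun j => γ (e j)) (fun j => β (e j)) (fun j => c (e j))
      fun j => u (e j) :=
  ⟨h.lo_pos, hs, fun j l => (h.gb j l).reindex e hb, fun j x hx => h.ell _ x (hb j hx),
    h.βb.reindex e hb, h.cb.reindex e hb, fun j x hx => h.cK _ x (hb j hx),
    fun j => (h.us _).mono (hb j), fun j x hx => h.uI _ x (hb j hx),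
    fun j x hx => h.eq _ x (hb j hx)⟩

theorem Fam.riem (h : Fam Φ K a b lo hi r x0 γ β c u) (i : ι) :
    IsRiemannianOn (γ i) (ball (x0 i) r) :=
  ⟨isOpen_ball, fun j l => (h.gb j l).1 i, fun x hx => R238.Ell.sm_posDef h.lo_pos (h.ell i x hx)⟩

end Fam

end Crest.Agent.N222.J
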