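import Crest.Agent.N222.J.LinA0
import Crest.Agent.N222.F.Coord
import Crest.Agent.N222.F.Res
import Crest.Agent.N222.F.Bump
import Crest.Agent.N222.D.Weyl
import Crest.Agent.R269.GEll_19

/-!
# Row 222, LIN (a), part 2 (helper73): regularity, `linA : LinAStmt`
-/

set_option autoImplicit false
set_option linter.unusedSectionVars false
open MeasureTheory Set Filter Topology Function Metric
open scoped ContDiff
open Crest.GeometryTopology.CoordMetric
open Crest.Agent.R202.Ell (divA)
open Crest.Agent.R269.GEll_19 (gen_ell Wk)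

noncomputable section

namespace Crest.Agent.N222

namespace La

open Imm D.Weyl

theorem lb_congr {n : ℕ} (g : MetricField n) {u v : E (Fin n) → ℝ} {x : E (Fin n)}
    (h : u =ᶠ[𝓝 x] v) : laplaceBeltrami g u x = laplaceBeltrami g v x := by
  unfold laplaceBeltrami pderiv
  congr 1
  refine Finset.sum_congr rfl fun i _ => ?_
  congr 1
  refine Filter.EventuallyEq.fderiv_eq ?_
  filter_upwards [h.eventuallyEq_nhds] with y hy
  simp only [hy.fderiv_eq]

variable {d : ℕ} {ι : Type} [Fintype ι] [DecidableEq ι] {X : Type} [TopologicalSpace X]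
  [T2Space X] [SecondCountableTopology X] [MeasurableSpace X] [BorelSpace X] [CompactSpace X]
  {M : Imm d ι X} {q f u : X → ℝ} {e : OpenPartialHomeomorph X (E (Fin d))}

theorem lap_of_ev (he : IsChart M.x e) {p : X} (hp : p ∈ e.source) {y : X → ℝ}
    {v : E (Fin d) → ℝ} (hv : ContDiffAt ℝ ∞ v (e p)) (h : y ∘ e.symm =ᶠ[𝓝 (e p)] v) :
    M.pre.lap y p = laplaceBeltrami (gram (M.x ∘ e.symm)) v (e p) := by
  rw [lap_coord he hp ((hv.congr_of_eventuallyEq h).of_le R247.Bo84.two_le_infty), lb_congr _ h]

theorem loc_int (he : IsChart M.x e) (hu : Integrable u M.mu) :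
    LocallyIntegrableOn (fun z => u (e.symm z)) e.target := by
  have h1 := ((integrableOn_chart he u).1 hu.integrableOn).locallyIntegrableOn.continuousOn_mul
    ((continuousOn_jac he).inv₀ fun z hz => (jac_pos (he.inj z hz)).ne')
    e.open_target.isLocallyClosed
  rw [locallyIntegrableOn_iff e.open_target.isLocallyClosed] at h1 ⊢
  refine fun K hK hc => (h1 K hK hc).congr_fun (fun z hz => ?_) hc.measurableSet
  exact inv_mul_cancel_left₀ (jac_pos (he.inj z (hK hz))).ne' _

theorem ae_back (he : IsChart M.x e) (hu : Integrable u M.mu) {v : E (Fin d) → ℝ}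
    (hv : ContinuousOn v e.target) (h : ∀ᵐ z, z ∈ e.target → v z = u (e.symm z)) :
    (fun p => v (e p)) =ᵐ[M.mu.restrict e.source] u := by
  have m1 : AEStronglyMeasurable (fun p => v (e p) - u p) (M.mu.restrict e.source) :=
    ((hv.comp e.continuousOn e.mapsTo).aestronglyMeasurable e.open_source.measurableSet).sub
      hu.aestronglyMeasurable.restrict
  have h1 : ∫⁻ p in e.source, ‖v (e p) - u p‖ₑ ∂M.mu = 0 := by
    rw [setLIntegral_chart he]
    refine lintegral_eq_zero_of_ae_eq_zero ?_
    filter_upwards [ae_restrict_of_ae h, ae_restrict_mem e.open_target.measurableSet] with z h1 hz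
    simp [e.right_inv hz, h1 hz]
  filter_upwards [(lintegral_eq_zero_iff' m1.enorm).1 h1] with p hp
  simpa [sub_eq_zero] using hp

/-- regularity in one chart -/
theorem reg (he : IsChart M.x e) (hq : M.Sm q) (hf : M.Sm f) (hu : Integrable u M.mu)
    (h : ∀ φ, M.Sm φ → ∫ p, u p * (-M.pre.lap φ p + q p * φ p) ∂M.mu = ∫ p, f p * φ p ∂M.mu) :
    ∃ v : E (Fin d) → ℝ, ContDiffOn ℝ ∞ v e.target ∧
      (fun p => v (e p)) =ᵐ[M.mu.restrict e.source] u ∧ ∀ p ∈ e.source,
        -laplaceBeltrami (gram (M.x ∘ e.symm)) v (e p) + q p * v (e p) = f p := by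
  have hg := he.isRiemannianOn
  have hJ : ContDiffOn ℝ ∞ (fun z => √(gram (M.x ∘ e.symm) z).det) e.target := fun z hz =>
    (R247.Bo84.contDiffAt_sqrt_det hg hz).contDiffWithinAt
  obtain ⟨v, hv, hvu, hve⟩ := gen_ell (U := e.target) (a := cA (gram (M.x ∘ e.symm)))
    (b := fun _ _ => 0) (c := fun z => -(√(gram (M.x ∘ e.symm) z).det * q (e.symm z)))
    ⟨e.open_target, cA_smooth hg, fun _ hz => cA_posDef hg hz, fun _ => contDiffOn_const,
      (hJ.mul (hq.chart he)).neg⟩
    (f := fun z => -(√(gram (M.x ∘ e.symm) z).det * f (e.symm z))) (hJ.mul (hf.chart he)).neg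
    (loc_int he hu) (by
      intro φ h1 h2 h3
      have a1 : ∀ z ∈ e.target, push e.symm φ (e.symm z) = φ z := fun z hz => push_apply φ hz
      have a2 : tsupport (push e.symm φ) ⊆ e.source := by
        rw [tsupport_push h2 h3]
        rintro _ ⟨z, hz, rfl⟩
        exact e.map_target (h3 hz)
      have a3 : ∀ z ∈ e.target, push e.symm φ ∘ e.symm =ᶠ[𝓝 z] φ := fun z hz =>
        eventually_of_mem (e.open_target.mem_nhds hz) a1
      have a4 : M.Sm (push e.symm φ) := (smOn_of_chart he subset_rfl fun p hp =>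
        h1.contDiffAt.congr_of_eventuallyEq (a3 _ (e.map_source hp))).sm_of_tsupport a2
      have a5 : ∀ z ∈ e.target, M.pre.lap (push e.symm φ) (e.symm z) =
          laplaceBeltrami (gram (M.x ∘ e.symm)) φ z := fun z hz => by
        rw [lap_of_ev he (e.map_target hz) h1.contDiffAt (a3 _ (e.map_source (e.map_target hz))),
          e.right_inv hz]
      have a6 := h _ a4
      rw [integral_chart he, integral_chart he] at a6
      · rw [← setIntegral_eq_integral_of_forall_compl_eq_zero (s := e.target),
          ← setIntegral_eq_integral_of_forall_compl_eq_zero (s := e.target)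
            (f := fun z => -(_ * _) * φ z), ← neg_inj, ← integral_neg, ← integral_neg]
        · refine (setIntegral_congr_fun e.open_target.measurableSet fun z hz => ?_).trans
            (a6.trans (setIntegral_congr_fun e.open_target.measurableSet fun z hz => ?_))
          · simp only [Wk, divA_eq hg hz, a1 z hz, a5 z hz, jac_eq_sqrt_det, zero_mul, pderiv,
              fderiv_fun_const, smul_eq_mul, Pi.zero_apply, zero_apply, Finset.sum_const_zero]
            ring
          · simp only [a1 z hz, jac_eq_sqrt_det, smul_eq_mul]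
            ring
        · intro z hz
          rw [image_eq_zero_of_notMem_tsupport fun h => hz (h3 h), mul_zero]
        · intro z hz
          simp [Wk, divA_zero_off _ fun h => hz (h3 h), pderiv,
            image_eq_zero_of_notMem_tsupport fun h => hz (h3 h)]
      · intro p hp
        by_contra h0
        exact hp (by simp [image_eq_zero_of_notMem_tsupport fun h => h0 (a2 h)])
      · intro p hp
        by_contra h0
        exact hp (by simp [image_eq_zero_of_notMem_tsupport fun h => h0 (a2 h),
          lap_eq_zero_of_notMem fun h => h0 (a2 h)]))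
  refine ⟨v, hv, ae_back he hu hv.continuousOn hvu, fun p hp => ?_⟩
  have hz := e.map_source hp
  have b1 := hve _ hz
  have b2 : 0 < √(gram (M.x ∘ e.symm) (e p)).det :=
    jac_eq_sqrt_det (M.x ∘ e.symm) _ ▸ jac_pos (he.inj _ hz)
  simp only [divA_eq hg hz, zero_mul, Finset.sum_const_zero, e.left_inv hp] at b1
  refine mul_left_cancel₀ b2.ne' ?_
  linarith

end La

open La Imm in
theorem linA : LinAStmt := by
  intro d ι _ _ X _ _ _ _ _ M _ q δ hq hδ h f hf
  obtain ⟨u, hu, hw⟩ := weak hq hδ h hf
  choose v hv hvu hve using fun p => reg (M.isChart p) hq hf hu hw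
  have hc : ∀ p, ContinuousOn (fun z => v p (M.ch p z)) (M.ch p).source := fun p =>
    (hv p).continuousOn.comp (M.ch p).continuousOn (M.ch p).mapsTo
  have h1 : ∀ p, ∀ z ∈ (M.ch p).source, v z (M.ch z z) = v p (M.ch p z) := fun p z hz =>
    Measure.eqOn_open_of_ae_eq (μ := M.mu) (U := (M.ch z).source ∩ (M.ch p).source)
      (EventuallyEq.trans (ae_restrict_of_ae_restrict_of_subset inter_subset_left (hvu z))
        (EventuallyEq.symm (ae_restrict_of_ae_restrict_of_subset inter_subset_right (hvu p))))
      ((M.ch z).open_source.inter (M.ch p).open_source) ((hc z).mono inter_subset_left)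
      ((hc p).mono inter_subset_right) ⟨M.mem z, hz⟩
  have h2 : ∀ p, (fun z => v z (M.ch z z)) ∘ (M.ch p).symm =ᶠ[𝓝 (M.ch p p)] v p := fun p => by
    filter_upwards [(M.ch p).open_target.mem_nhds ((M.ch p).map_source (M.mem p))] with z hz
    rw [comp_apply, h1 p _ ((M.ch p).map_target hz), (M.ch p).right_inv hz]
  have h3 : ∀ p, ContDiffAt ℝ ∞ (v p) (M.ch p p) := fun p =>
    (hv p).contDiffAt ((M.ch p).open_target.mem_nhds ((M.ch p).map_source (M.mem p)))
  have hy : M.Sm fun z => v z (M.ch z z) :=
    sm_of_charts fun p => ⟨M.ch p, M.isChart p, M.mem p, (h3 p).congr_of_eventuallyEq (h2 p)⟩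
  have he : ∀ p, -M.pre.lap (fun z => v z (M.ch z z)) p + q p * v p (M.ch p p) = f p := fun p => by
    rw [lap_of_ev (M.isChart p) (M.mem p) (h3 p) (h2 p)]
    exact hve p p (M.mem p)
  exact ⟨_, hy, he, fun h0 => pos hq hδ h hy fun p => (he p).symm ▸ h0 p⟩

end Crest.Agent.N222

end
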