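import Crest.Agent.N222.F.Meas
import Crest.Agent.N222.B.Defs

/-!
# Row 222, LIN (a), part 1 (helper73): very weak solutions and positivity
-/

set_option autoImplicit false
set_option linter.unusedSectionVars false
open MeasureTheory Set Filter Topology Function Metric
open scoped ContDiff InnerProductSpace RealInnerProductSpace

noncomputable section

namespace Crest.Agent.N222.La

/-- coercive operators have very weak solutions -/
theorem hilb {H V : Type} [NormedAddCommGroup H] [InnerProductSpace ℝ H] [CompleteSpace H]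
    [AddCommGroup V] [Module ℝ V] (T I : V →ₗ[ℝ] H) {δ : ℝ} (hδ : 0 < δ)
    (h : ∀ φ, δ * ‖I φ‖ ^ 2 ≤ ⟪T φ, I φ⟫) (F : H) : ∃ u : H, ∀ φ, ⟪u, T φ⟫ = ⟪F, I φ⟫ := by
  have h1 : ∀ φ, ‖I φ‖ ≤ δ⁻¹ * ‖T φ‖ := fun φ => by
    rw [← div_eq_inv_mul, le_div_iff₀' hδ]
    rcases (norm_nonneg (I φ)).eq_or_lt with h0 | h0
    · rw [← h0, mul_zero]; exact norm_nonneg _
    · refine le_of_mul_le_mul_right ?_ h0
      have := (h φ).trans (real_inner_le_norm _ _)
      nlinarith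
  have h2 : ∀ φ, ‖⟪F, I φ⟫‖ ≤ ‖F‖ * δ⁻¹ * ‖T φ‖ := fun φ => by
    rw [mul_assoc]
    exact (norm_inner_le_norm _ _).trans (mul_le_mul_of_nonneg_left (h1 φ) (norm_nonneg _))
  obtain ⟨s, hs⟩ := T.rangeRestrict.exists_rightInverse_of_surjective T.range_rangeRestrict
  have hs' : ∀ y : LinearMap.range T, T (s y) = y := fun y =>
    congrArg Subtype.val (LinearMap.congr_fun hs y)
  obtain ⟨g, hg, -⟩ := exists_extension_norm_eq (LinearMap.range T)
    (((innerₗ H F) ∘ₗ I ∘ₗ s).mkContinuous (‖F‖ * δ⁻¹) fun y => by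
      have := h2 (s y)
      rwa [hs'] at this)
  refine ⟨(InnerProductSpace.toDual ℝ H).symm g, fun φ => ?_⟩
  have h3 := hg ⟨T φ, LinearMap.mem_range_self T φ⟩
  have h4 := h2 (s ⟨T φ, LinearMap.mem_range_self T φ⟩ - φ)
  rw [map_sub T, hs', sub_self, norm_zero, mul_zero, norm_le_zero_iff, map_sub, inner_sub_right,
    sub_eq_zero] at h4
  rw [InnerProductSpace.toDual_symm_apply, ← h4]
  exact h3

open Imm

variable {d : ℕ} {ι : Type} [Fintype ι] [DecidableEq ι] {X : Type} [TopologicalSpace X]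
  [T2Space X] [SecondCountableTopology X] [MeasurableSpace X] [BorelSpace X] [CompactSpace X]
  {M : Imm d ι X} {q f y : X → ℝ} {δ : ℝ}

theorem intg {f : X → ℝ} (hf : Continuous f) : Integrable f M.mu :=
  hf.integrable_of_hasCompactSupport (HasCompactSupport.of_compactSpace f)

/-- smooth functions as continuous maps -/
def inc (M : Imm d ι X) : SmR M.ch →ₗ[ℝ] C(X, ℝ) where
  toFun φ := ⟨φ.1, Sm.continuous (M := M) φ.2⟩
  map_add' _ _ := rfl
  map_smul' _ _ := rfl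

/-- the operator -/
def op (hq : M.Sm q) : SmR M.ch →ₗ[ℝ] C(X, ℝ) where
  toFun φ := ⟨fun p => -M.pre.lap φ.1 p + q p * φ.1 p,
    ((Sm.lap (M := M) φ.2).neg.add (hq.mul φ.2)).continuous⟩
  map_add' φ ψ := ContinuousMap.ext fun p => by
    change -M.pre.lap (fun p => φ.1 p + ψ.1 p) p + q p * (φ.1 p + ψ.1 p) =
      -M.pre.lap φ.1 p + q p * φ.1 p + (-M.pre.lap ψ.1 p + q p * ψ.1 p)
    rw [lap_add (M := M) φ.2 ψ.2]
    ring
  map_smul' c φ := ContinuousMap.ext fun p => by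
    change -M.pre.lap (fun p => c * φ.1 p) p + q p * (c * φ.1 p) =
      c * (-M.pre.lap φ.1 p + q p * φ.1 p)
    rw [lap_const_mul (M := M) c φ.2]
    ring

theorem form_eq (hq : M.Sm q) (hy : M.Sm y) {z : X → ℝ} (hz : M.Sm z) :
    ∫ p, z p * (-M.pre.lap y p + q p * y p) ∂M.mu =
      ∫ p, (M.pre.gam z y p + q p * (z p * y p)) ∂M.mu := by
  have h1 := integral_mul_lap hz.c1 (HasCompactSupport.of_compactSpace _) hy
  have e : ∀ p, z p * (-M.pre.lap y p + q p * y p) = q p * (z p * y p) - z p * M.pre.lap y p :=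
    fun p => by ring
  simp only [e]
  rw [integral_sub (intg (hq.mul (hz.mul hy)).continuous) (intg (hz.mul hy.lap).continuous),
    integral_add (intg (hz.gam hy).continuous) (intg (hq.mul (hz.mul hy)).continuous), h1]
  ring

theorem weak (hq : M.Sm q) (hδ : 0 < δ)
    (h : ∀ z, M.Sm z → δ * ∫ p, z p ^ 2 ∂M.mu ≤ ∫ p, (M.pre.gam z z p + q p * z p ^ 2) ∂M.mu)
    (hf : M.Sm f) : ∃ u : X → ℝ, Integrable u M.mu ∧ ∀ φ, M.Sm φ →
      ∫ p, u p * (-M.pre.lap φ p + q p * φ p) ∂M.mu = ∫ p, f p * φ p ∂M.mu := by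
  have e : ∀ (w : Lp ℝ 2 M.mu) (g : C(X, ℝ)),
      ⟪w, ContinuousMap.toLp 2 M.mu ℝ g⟫ = ∫ p, w p * g p ∂M.mu := fun w g => by
    rw [L2.inner_def]
    refine integral_congr_ae ?_
    filter_upwards [ContinuousMap.coeFn_toLp (p := 2) (𝕜 := ℝ) M.mu g] with p hp
    rw [hp, RCLike.inner_apply, conj_trivial, mul_comm]
  have e' : ∀ g g' : C(X, ℝ), ⟪ContinuousMap.toLp 2 M.mu ℝ g, ContinuousMap.toLp 2 M.mu ℝ g'⟫ =
      ∫ p, g p * g' p ∂M.mu := fun g g' => by
    rw [e]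
    refine integral_congr_ae ?_
    filter_upwards [ContinuousMap.coeFn_toLp (p := 2) (𝕜 := ℝ) M.mu g] with p hp
    rw [hp]
  obtain ⟨u, hu⟩ := hilb ((ContinuousMap.toLp 2 M.mu ℝ).toLinearMap ∘ₗ op hq)
    ((ContinuousMap.toLp 2 M.mu ℝ).toLinearMap ∘ₗ inc M) hδ (fun φ => by
      have h1 := h φ.1 φ.2
      have h2 := form_eq hq φ.2 φ.2
      simp only [sq] at h1
      rw [real_inner_comm, ← real_inner_self_eq_norm_sq]
      exact (le_of_eq (congrArg _ (e' (inc M φ) (inc M φ)))).trans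
        (h1.trans (h2.symm.trans (e' (inc M φ) (op hq φ)).symm).le))
    (ContinuousMap.toLp 2 M.mu ℝ ⟨f, hf.continuous⟩)
  exact ⟨u, (Lp.memLp u).integrable one_le_two, fun φ hφ =>
    (e u _).symm.trans ((hu ⟨φ, hφ⟩).trans (e' _ _))⟩

theorem nonneg (hq : M.Sm q) (hδ : 0 < δ)
    (h : ∀ z, M.Sm z → δ * ∫ p, z p ^ 2 ∂M.mu ≤ ∫ p, (M.pre.gam z z p + q p * z p ^ 2) ∂M.mu)
    (hy : M.Sm y) (hf : ∀ p, 0 ≤ -M.pre.lap y p + q p * y p) (p : X) : 0 ≤ y p := by
  have cy := hy.continuous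
  have key : ∀ ε : ℝ, 0 < ε → δ * ∫ p, (|y p| - y p) ^ 2 ∂M.mu ≤ ε * ∫ p, q p ∂M.mu := by
    intro ε hε
    have h0 : ∀ p, 0 < y p ^ 2 + ε := fun p => by positivity
    have hw : M.Sm fun p => √(y p ^ 2 + ε) := ((hy.pow 2).add (sm_const ε)).sqrt fun p => (h0 p).ne'
    have hz := hw.sub hy
    have w0 : ∀ p, 0 < √(y p ^ 2 + ε) := fun p => Real.sqrt_pos.2 (h0 p)
    have w1 : ∀ p, |y p| ≤ √(y p ^ 2 + ε) := fun p => Real.abs_le_sqrt (by linarith)
    have w2 : ∀ p, √(y p ^ 2 + ε) ^ 2 = y p ^ 2 + ε := fun p => Real.sq_sqrt (h0 p).le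
    have hD : ∀ a p, M.pre.D a (fun p => √(y p ^ 2 + ε) - y p) p =
        (y p / √(y p ^ 2 + ε) - 1) * M.pre.D a y p := fun a p => by
      have d1 : HasDerivAt (fun t : ℝ => √(t ^ 2 + ε) - t) (y p / √(y p ^ 2 + ε) - 1) (y p) := by
        refine ((((hasDerivAt_pow 2 (y p)).add_const ε).sqrt (h0 p).ne').sub
          (hasDerivAt_id _)).congr_deriv ?_
        have := (w0 p).ne'
        simp only [Nat.cast_ofNat, Nat.add_one_sub_one, pow_one]
        field_simp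
      exact D_comp (hy.diffAt p) d1 a
    have h1 := form_eq hq hy hz
    have h2 : 0 ≤ ∫ p, (√(y p ^ 2 + ε) - y p) * (-M.pre.lap y p + q p * y p) ∂M.mu :=
      integral_nonneg fun p => mul_nonneg (sub_nonneg.2 ((le_abs_self _).trans (w1 p))) (hf p)
    have i1 := intg (M := M) ((hz.gam hy).add (hq.mul (hz.mul hy))).continuous
    have i2 := intg (M := M) ((hz.gam hz).add (hq.mul (hz.pow 2))).continuous
    have h3 : ∫ p, (M.pre.gam (fun p => √(y p ^ 2 + ε) - y p) (fun p => √(y p ^ 2 + ε) - y p) p +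
        q p * (√(y p ^ 2 + ε) - y p) ^ 2) + 2 * (M.pre.gam (fun p => √(y p ^ 2 + ε) - y p) y p +
        q p * ((√(y p ^ 2 + ε) - y p) * y p)) ∂M.mu ≤ ∫ p, ε * q p ∂M.mu := by
      refine integral_mono (i2.add (i1.const_mul 2)) ((intg hq.continuous).const_mul ε) fun p => ?_
      have a1 : M.pre.gam (fun p => √(y p ^ 2 + ε) - y p) (fun p => √(y p ^ 2 + ε) - y p) p +
          2 * M.pre.gam (fun p => √(y p ^ 2 + ε) - y p) y p =
          ((y p / √(y p ^ 2 + ε)) ^ 2 - 1) * M.pre.gam y y p := by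
        simp only [gam_apply, hD, Finset.mul_sum, ← Finset.sum_add_distrib]
        exact Finset.sum_congr rfl fun a _ => by ring
      have a2 : (y p / √(y p ^ 2 + ε)) ^ 2 ≤ 1 := by
        rw [div_pow, w2, div_le_one (h0 p)]; linarith
      have a3 := mul_nonpos_of_nonpos_of_nonneg (sub_nonpos.2 a2) (gam_self_nonneg (M := M) y p)
      have a4 : q p * √(y p ^ 2 + ε) ^ 2 = q p * (y p ^ 2 + ε) := by rw [w2]
      beta_reduce
      linarith
    rw [integral_add i2 (i1.const_mul 2), integral_const_mul, integral_const_mul] at h3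
    have h4 : ∫ p, (|y p| - y p) ^ 2 ∂M.mu ≤ ∫ p, (√(y p ^ 2 + ε) - y p) ^ 2 ∂M.mu :=
      integral_mono (intg (by fun_prop)) (intg (hz.pow 2).continuous) fun p =>
        pow_le_pow_left₀ (sub_nonneg.2 (le_abs_self _)) (sub_le_sub_right (w1 p) _) 2
    linarith [h _ hz, mul_le_mul_of_nonneg_left h4 hδ.le]
  by_contra hp
  have h5 : 0 < ∫ p, (|y p| - y p) ^ 2 ∂M.mu :=
    Continuous.integral_pos_of_hasCompactSupport_nonneg_nonzero (x := p) (by fun_prop)
      (HasCompactSupport.of_compactSpace _) (fun _ => sq_nonneg _)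
      (pow_ne_zero 2 (by rw [abs_of_neg (not_le.1 hp)]; linarith [not_le.1 hp]))
  have h6 := mul_pos hδ h5
  have h7 := key ((δ * ∫ p, (|y p| - y p) ^ 2 ∂M.mu) / (|∫ p, q p ∂M.mu| + 1)) (by positivity)
  rw [div_mul_eq_mul_div, le_div_iff₀ (by positivity)] at h7
  nlinarith [le_abs_self (∫ p, q p ∂M.mu)]

theorem pos (hq : M.Sm q) (hδ : 0 < δ)
    (h : ∀ z, M.Sm z → δ * ∫ p, z p ^ 2 ∂M.mu ≤ ∫ p, (M.pre.gam z z p + q p * z p ^ 2) ∂M.mu)
    (hy : M.Sm y) (hf : ∀ p, 0 < -M.pre.lap y p + q p * y p) (p : X) : 0 < y p := by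
  have h0 := nonneg hq hδ h hy fun p => (hf p).le
  refine (h0 p).lt_of_ne fun h1 => ?_
  have h2 := lap_nonpos_of_isLocalMax ((sm_const (-1)).mul hy) (p := p)
    (.of_forall fun z => by have := h0 z; simp only [← h1]; linarith)
  have h3 := hf p
  rw [lap_const_mul _ hy] at h2
  rw [← h1] at h3
  linarith

end Crest.Agent.N222.La

end
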